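import Vale.Agent.P011.D4.R1
import Vale.Agent.P011.D4.NTS

/-!
A quaternion subalgebra which splits at all real places where the octonion algebra does.
-/

open NumberField IsDedekindDomain

namespace Vale.Agent.P011.E6

open Vale.Agent.P011.MPQ Vale.Agent.P011.Arith Vale.Agent.P011.D4 Vale.Agent.P011.D4.Oct

/-- Weak approximation at the real places. -/
theorem real_approx {k : Type} [Field k] [NumberField k] (z : (k →+* ℝ) → k)
    (δ : (k →+* ℝ) → ℝ) (hδ : ∀ φ, 0 < δ φ) : ∃ f : k, ∀ φ : k →+* ℝ, |φ f - φ (z φ)| < δ φ := by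
  obtain ⟨f, hf⟩ := approx (F := k) (Set.range Sum.inr) (Set.finite_range _)
    (fun p => match p with
      | .inl _ => 0
      | .inr φ => z φ) (fun p => match p with
      | .inl _ => 1
      | .inr φ => δ φ) (by
        rintro (v | φ)
        · exact one_pos
        · exact hδ φ)
  refine ⟨f, fun φ => ?_⟩
  have := hf (.inr φ) ⟨φ, rfl⟩
  rwa [plAbv_inr, map_sub] at this

/-- A diagonal ternary form takes values which are positive at all real places where one of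
the coefficients is. -/
theorem exists_pos3 {k : Type} [Field k] [NumberField k] (a b c : kˣ) : ∃ x y z : k,
    (∀ φ : k →+* ℝ, ¬(φ a < 0 ∧ φ b < 0 ∧ φ c < 0) →
      0 < φ (a * x ^ 2 + b * y ^ 2 + c * z ^ 2)) := by
  classical
  have hne : ∀ (φ : k →+* ℝ) (u : kˣ), φ u ≠ 0 := fun φ u =>
    (map_ne_zero φ).mpr (Units.ne_zero _)
  let x0 : (k →+* ℝ) → k := fun φ => if 0 < φ a then 1 else 0
  let y0 : (k →+* ℝ) → k := fun φ => if 0 < φ a then 0 else if 0 < φ b then 1 else 0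
  let z0 : (k →+* ℝ) → k := fun φ => if 0 < φ a then 0 else if 0 < φ b then 0 else 1
  have key : ∀ φ : k →+* ℝ, ¬(φ a < 0 ∧ φ b < 0 ∧ φ c < 0) →
      0 < φ a * φ (x0 φ) ^ 2 + φ b * φ (y0 φ) ^ 2 + φ c * φ (z0 φ) ^ 2 := by
    intro φ hφ
    by_cases h1 : 0 < φ a
    · simp [x0, y0, z0, h1]
    · by_cases h2 : 0 < φ b
      · simp [x0, y0, z0, h1, h2]
      · have h1' : φ a < 0 := lt_of_le_of_ne (not_lt.1 h1) (hne φ a)
        have h2' : φ b < 0 := lt_of_le_of_ne (not_lt.1 h2) (hne φ b)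
        have h3 : 0 < φ c := by
          rcases lt_or_gt_of_ne (hne φ c) with h | h
          · exact absurd ⟨h1', h2', h⟩ hφ
          · exact h
        simp [x0, y0, z0, h1, h2, h3]
  have key2 : ∀ φ : k →+* ℝ, ∃ δ : ℝ, 0 < δ ∧ (¬(φ a < 0 ∧ φ b < 0 ∧ φ c < 0) →
      ∀ x y z : ℝ, |x - φ (x0 φ)| < δ → |y - φ (y0 φ)| < δ → |z - φ (z0 φ)| < δ →
        0 < φ a * x ^ 2 + φ b * y ^ 2 + φ c * z ^ 2) := by
    intro φ
    by_cases hφ : (φ a < 0 ∧ φ b < 0 ∧ φ c < 0)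
    · exact ⟨1, one_pos, fun h => absurd hφ h⟩
    · have hc : Continuous (fun p : ℝ × ℝ × ℝ => φ a * p.1 ^ 2 + φ b * p.2.1 ^ 2
          + φ c * p.2.2 ^ 2) := by fun_prop
      have ho := (isOpen_Ioi (a := (0 : ℝ))).preimage hc
      obtain ⟨δ, hδ, hb⟩ := Metric.isOpen_iff.1 ho (φ (x0 φ), φ (y0 φ), φ (z0 φ)) (key φ hφ)
      refine ⟨δ, hδ, fun _ x y z hx hy hz => ?_⟩
      have : (x, y, z) ∈ Metric.ball (φ (x0 φ), φ (y0 φ), φ (z0 φ)) δ := by
        rw [Metric.mem_ball, Prod.dist_eq, Prod.dist_eq]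
        exact max_lt hx (max_lt hy hz)
      exact hb this
  choose δ hδ hpos using key2
  obtain ⟨x, hx⟩ := real_approx x0 δ hδ
  obtain ⟨y, hy⟩ := real_approx y0 δ hδ
  obtain ⟨z, hz⟩ := real_approx z0 δ hδ
  refine ⟨x, y, z, fun φ hφ => ?_⟩
  have := hpos φ hφ (φ x) (φ y) (φ z) (hx φ) (hy φ) (hz φ)
  simpa using this

theorem dot_eq8 {F : Type} [Field F] {a b c : Fˣ} (x y : Oct a b c) : dot x y =
    x.fst.re * y.fst.re - a * x.fst.imI * y.fst.imI - b * x.fst.imJ * y.fst.imJ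
      + a * b * x.fst.imK * y.fst.imK - c *
    (x.snd.re * y.snd.re - a * x.snd.imI * y.snd.imI - b * x.snd.imJ * y.snd.imJ
      + a * b * x.snd.imK * y.snd.imK) := by
  rw [dot]
  simp
  ring

/-- (E11) A basic triple with `a'` positive at all real places where the octonion algebra is not
definite. -/
theorem exists_good {k : Type} [Field k] [NumberField k] {a b c : kˣ} (hdiv : Division a b c) :
    ∃ (a' b' c' : kˣ) (i j l : Oct a b c), Trip a' b' c' i j l ∧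
      ∀ φ : k →+* ℝ, ¬(φ a < 0 ∧ φ b < 0 ∧ φ c < 0) → 0 < φ a' := by
  obtain ⟨x, y, z, h⟩ := exists_pos3 a b c
  have hx : ∃ x y z : k, (x ≠ 0 ∨ y ≠ 0 ∨ z ≠ 0) ∧
      (∀ φ : k →+* ℝ, ¬(φ a < 0 ∧ φ b < 0 ∧ φ c < 0) →
        0 < φ (a * x ^ 2 + b * y ^ 2 + c * z ^ 2)) := by
    by_cases h0 : x = 0 ∧ y = 0 ∧ z = 0
    · obtain ⟨rfl, rfl, rfl⟩ := h0
      refine ⟨1, 0, 0, Or.inl one_ne_zero, fun φ hφ => ?_⟩
      have := h φ hφ
      simp at this
    · refine ⟨x, y, z, ?_, h⟩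
      by_contra h1
      push Not at h1
      exact h0 h1
  obtain ⟨x, y, z, h0, h⟩ := hx
  let i : Oct a b c := ⟨⟨0, x, y, 0⟩, ⟨z, 0, 0, 0⟩⟩
  have hi : star i = -i := by
    apply ext8 <;> simp [i]
  have hi0 : i ≠ 0 := by
    intro h1
    have e1 := congrArg (fun w : Oct a b c => w.fst.imI) h1
    have e2 := congrArg (fun w : Oct a b c => w.fst.imJ) h1
    have e3 := congrArg (fun w : Oct a b c => w.snd.re) h1
    simp [i] at e1 e2 e3
    rcases h0 with h0 | h0 | h0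
    · exact h0 e1
    · exact h0 e2
    · exact h0 e3
  have hn : Oct.norm i = -(a * x ^ 2 + b * y ^ 2 + c * z ^ 2) := by
    simp [Oct.norm, nrd, i]
    ring
  have pure_of : ∀ w : Oct a b c, dot w 1 = 0 → star w = -w := by
    intro w hw
    apply star_neg_of_pure
    rw [bil_eq_dot, hw, mul_zero]
  obtain ⟨j, hj0, hj⟩ := exists_perp ![1, i, 1, 1, 1, 1, 1]
  obtain ⟨l, hl0, hl⟩ := exists_perp ![1, i, j, i * j, 1, 1, 1]
  have hj1 : dot j 1 = 0 := hj 0
  have hji : dot j i = 0 := hj 1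
  have hl1 : dot l 1 = 0 := hl 0
  have hli : dot l i = 0 := hl 1
  have hlj : dot l j = 0 := hl 2
  have hlij : dot l (i * j) = 0 := hl 3
  obtain ⟨a', b', c', ht⟩ := exists_trip hdiv hi hi0 (pure_of j hj1) hj0 (pure_of l hl1) hl0
    (by rw [dot_comm, hji]) (by rw [dot_comm, hli]) (by rw [dot_comm, hlj])
    (by rw [dot_comm, hlij])
  refine ⟨a', b', c', i, j, l, ht, fun φ hφ => ?_⟩
  have h3 : (a' : k) = a * x ^ 2 + b * y ^ 2 + c * z ^ 2 := by
    have h4 := ht.ii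
    rw [norm_eq_of_sq hi, hn] at h4
    have := smul_one_inj h4
    rw [← this, neg_neg]
  rw [h3]
  exact h φ hφ

end Vale.Agent.P011.E6
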