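import Vale.Agent.P011.E6.Pos2
import Vale.Agent.P011.E6.GoodQ

/-!
(E7), (E11): the literal statements of Spec.
-/

open Matrix

namespace Vale.Agent.P011.E6

open Vale.Agent.P011.MPQ Vale.Agent.P011.D4 Vale.Agent.P011.D4.Oct

theorem Dfn.defAt {F : Type} [Field F] {a b c : Fˣ} {w : F →+* ℝ} (h : Dfn w a b c) :
    DefAt w a b c := DefAt.of_neg h.1 h.2.1 h.2.2

theorem DefAt.dfn {F : Type} [Field F] {a b c : Fˣ} {w : F →+* ℝ} (h : DefAt w a b c) :
    Dfn w a b c := h.neg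

/-- Definiteness does not depend on the basic triple. -/
theorem DefAt.trip {F : Type} [Field F] {a b c a' b' c' : Fˣ} {w : F →+* ℝ}
    (h : DefAt w a b c) {i j l : Oct a b c} (ht : Trip a' b' c' i j l) : DefAt w a' b' c' := by
  have key : ∀ (x : Oct a b c) (t : Fˣ), star x = -x → x * x = (t : F) • (1 : Oct a b c) →
      w t < 0 := by
    intro x t hx hxx
    have h1 : -Oct.norm x = t := by
      rw [norm_eq_of_sq hx] at hxx
      exact smul_one_inj hxx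
    have hx0 : x ≠ 0 := by
      rintro rfl
      rw [Oct.norm_zero, neg_zero] at h1
      exact t.ne_zero h1.symm
    have h2 := h x hx0
    rw [← h1, map_neg]
    linarith
  exact DefAt.of_neg (key i a' ht.si ht.ii) (key j b' ht.sj ht.jj) (key l c' ht.sl ht.ll)

theorem Dfn.trip {F : Type} [Field F] {a b c a' b' c' : Fˣ} {w : F →+* ℝ}
    (h : Dfn w a b c) {i j l : Oct a b c} (ht : Trip a' b' c' i j l) : Dfn w a' b' c' :=
  (h.defAt.trip ht).dfn

/-- A general form of the sign lemma. -/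
theorem sign_of_gen {F : Type} [Field F] {a b c a' b' c' : Fˣ} {τ : F →+* ℝ}
    (hC : DefAt τ a b c) (φ : Alb a' b' c' ≃ₗ[F] Alb a b c) {μ : F} (hμ : 0 < τ μ)
    (hφ : ∀ z, Alb.cub (φ z) = μ * Alb.cub z) {x : Alb a' b' c'} (ℓ : Alb a' b' c' →ₗ[F] F)
    (hx : ∀ z, ℓ z = 0 → τ (Alb.cub (x + z) + Alb.cub (x - z)) ≤ τ (2 * Alb.cub x))
    (hx0 : x ≠ 0) {t w1 w2 w3 : F} (h : φ x = t • rk a b c w1 w2 w3) : 0 < τ t := by
  have h2 := val_nonneg hC _ ℓ hx φ hμ hφ w1 w2 w3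
  rw [h, val_rk, map_mul] at h2
  have h3 : t • rk a b c w1 w2 w3 ≠ 0 := by
    rw [← h]
    intro h4
    apply hx0
    rw [← φ.symm_apply_apply x, h4, map_zero]
  have ht : t ≠ 0 := by
    rintro rfl
    exact h3 (zero_smul _ _)
  have hw : w1 ≠ 0 ∨ w2 ≠ 0 ∨ w3 ≠ 0 := by
    by_contra hw
    push Not at hw
    obtain ⟨rfl, rfl, rfl⟩ := hw
    apply h3
    ext1 <;> simp [rk]
  have h4 : 0 < τ ((w1 * w1 + w2 * w2 + w3 * w3) ^ 2) := by
    have e : τ ((w1 * w1 + w2 * w2 + w3 * w3) ^ 2) = (τ w1 ^ 2 + τ w2 ^ 2 + τ w3 ^ 2) ^ 2 := by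
      simp only [map_pow, map_add, map_mul]
      ring
    rw [e]
    rcases hw with h | h | h
    · have : τ w1 ≠ 0 := (map_ne_zero τ).2 h
      positivity
    · have : τ w2 ≠ 0 := (map_ne_zero τ).2 h
      positivity
    · have : τ w3 ≠ 0 := (map_ne_zero τ).2 h
      positivity
  have h5 : 0 ≤ τ t := nonneg_of_mul_nonneg_left h2 h4
  exact lt_of_le_of_ne h5 (fun h => ht ((map_eq_zero τ).1 h.symm))

theorem cub_e2_add {F : Type} [Field F] {a b c : Fˣ} (z : Alb a b c) :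
    Alb.cub (Alb.e2 + z) + Alb.cub (Alb.e2 - z) =
      2 * Alb.cub (Alb.e2 : Alb a b c) + 2 * (z.d3 * z.d1 - norm z.x2) := by
  have e : bil (z.x1 * z.x2 * z.x3) 1 + bil (-z.x1 * -z.x2 * -z.x3) 1 = 0 := by
    rw [neg_mul_neg, mul_neg, bil_neg_left, add_neg_cancel]
  simp only [Alb.cub, Alb.e2, Alb.d1_add, Alb.d2_add, Alb.d3_add, Alb.x1_add, Alb.x2_add,
    Alb.x3_add, Alb.d1_sub, Alb.d2_sub, Alb.d3_sub, Alb.x1_sub, Alb.x2_sub, Alb.x3_sub,
    zero_add, zero_sub, Oct.norm_neg, Oct.norm_zero, mul_zero, zero_mul, bil_zero_left, sub_zero]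
  linear_combination e

theorem cub_e3_add {F : Type} [Field F] {a b c : Fˣ} (z : Alb a b c) :
    Alb.cub (Alb.e3 + z) + Alb.cub (Alb.e3 - z) =
      2 * Alb.cub (Alb.e3 : Alb a b c) + 2 * (z.d1 * z.d2 - norm z.x3) := by
  have e : bil (z.x1 * z.x2 * z.x3) 1 + bil (-z.x1 * -z.x2 * -z.x3) 1 = 0 := by
    rw [neg_mul_neg, mul_neg, bil_neg_left, add_neg_cancel]
  simp only [Alb.cub, Alb.e3, Alb.d1_add, Alb.d2_add, Alb.d3_add, Alb.x1_add, Alb.x2_add,
    Alb.x3_add, Alb.d1_sub, Alb.d2_sub, Alb.d3_sub, Alb.x1_sub, Alb.x2_sub, Alb.x3_sub,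
    zero_add, zero_sub, Oct.norm_neg, Oct.norm_zero, mul_zero, zero_mul, bil_zero_left, sub_zero]
  linear_combination e

theorem ofF_rk {F : Type} [Field F] {a b c : Fˣ} (t : F) (u : Fin 3 → F) :
    (Alb.ofF (t • vecMulVec u u) : Alb a b c) = t • rk a b c (u 0) (u 1) (u 2) := by
  ext1
  · simp [Alb.ofF, rk, vecMulVec_apply, sq]
  · simp [Alb.ofF, rk, vecMulVec_apply, sq]
  · simp [Alb.ofF, rk, vecMulVec_apply, sq]
  · simp [Alb.ofF, rk, vecMulVec_apply, smul_smul]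
  · simp [Alb.ofF, rk, vecMulVec_apply, smul_smul]
  · simp [Alb.ofF, rk, vecMulVec_apply, smul_smul]

/-- The sign lemma for the second idempotent. -/
theorem sign_of_orbit2 {F : Type} [Field F] {a b c : Fˣ}
    (w : F →+* ℝ) (hd : Dfn w a b c)
    {φ : Alb a b c ≃ₗ[F] Alb a b c} (hφ : ∀ x, Alb.cub (φ x) = Alb.cub x)
    {t : F} {u : Fin 3 → F} (h : φ Alb.e2 = Alb.ofF (t • vecMulVec u u)) : 0 < w t := by
  let ℓ : Alb a b c →ₗ[F] F :=
    { toFun := fun z => z.d3 + z.d1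
      map_add' := fun x y => by simp only [Alb.d3_add, Alb.d1_add]; ring
      map_smul' := fun t x => by
        simp only [Alb.d3_smul, Alb.d1_smul, smul_eq_mul, RingHom.id_apply]; ring }
  refine sign_of_gen (μ := 1) hd.defAt φ (by rw [map_one]; exact one_pos)
    (fun z => by rw [hφ, one_mul]) ℓ ?_ ?_ (w1 := u 0) (w2 := u 1) (w3 := u 2)
    (by rw [h, ofF_rk])
  · intro z hz
    have hz' : z.d3 + z.d1 = 0 := hz
    rw [cub_e2_add, map_add]
    have e : z.d1 = -z.d3 := by linear_combination hz'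
    have h2 : w (2 * (z.d3 * z.d1 - norm z.x2)) = -(2 * (w z.d3 ^ 2 + w (norm z.x2))) := by
      rw [e]
      simp only [map_mul, map_sub, map_neg, map_ofNat]
      ring
    rw [h2]
    have := hd.defAt.norm_nonneg z.x2
    have : 0 ≤ 2 * (w z.d3 ^ 2 + w (norm z.x2)) := by positivity
    linarith
  · intro h0
    have := congrArg Alb.d2 h0
    simp [Alb.e2] at this

/-- The sign lemma for the third idempotent. -/
theorem sign_of_orbit3 {F : Type} [Field F] {a b c : Fˣ}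
    (w : F →+* ℝ) (hd : Dfn w a b c)
    {φ : Alb a b c ≃ₗ[F] Alb a b c} (hφ : ∀ x, Alb.cub (φ x) = Alb.cub x)
    {t : F} {u : Fin 3 → F} (h : φ Alb.e3 = Alb.ofF (t • vecMulVec u u)) : 0 < w t := by
  let ℓ : Alb a b c →ₗ[F] F :=
    { toFun := fun z => z.d1 + z.d2
      map_add' := fun x y => by simp only [Alb.d1_add, Alb.d2_add]; ring
      map_smul' := fun t x => by
        simp only [Alb.d1_smul, Alb.d2_smul, smul_eq_mul, RingHom.id_apply]; ring }
  refine sign_of_gen (μ := 1) hd.defAt φ (by rw [map_one]; exact one_pos)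
    (fun z => by rw [hφ, one_mul]) ℓ ?_ ?_ (w1 := u 0) (w2 := u 1) (w3 := u 2)
    (by rw [h, ofF_rk])
  · intro z hz
    have hz' : z.d1 + z.d2 = 0 := hz
    rw [cub_e3_add, map_add]
    have e : z.d2 = -z.d1 := by linear_combination hz'
    have h2 : w (2 * (z.d1 * z.d2 - norm z.x3)) = -(2 * (w z.d1 ^ 2 + w (norm z.x3))) := by
      rw [e]
      simp only [map_mul, map_sub, map_neg, map_ofNat]
      ring
    rw [h2]
    have := hd.defAt.norm_nonneg z.x3
    have : 0 ≤ 2 * (w z.d1 ^ 2 + w (norm z.x3)) := by positivity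
    linarith
  · intro h0
    have := congrArg Alb.d3 h0
    simp [Alb.e3] at this

namespace Lit

/-- (E7) of Spec. -/
theorem pos_of_orbit {F : Type} [Field F] {a b c : Fˣ} {g : Fin 3 → Fˣ}
    (w : F →+* ℝ) (hd : Dfn w a b c) (hg : ∀ i, 0 < w (g i))
    {φ : Alb a b c ≃ₗ[F] Alb a b c} (hφ : ∀ x, Alb.cub (φ x) = Alb.cub x)
    {X : Matrix (Fin 3) (Fin 3) F} (hX : X.transpose = X)
    (h : φ (Alb.one _ _ _ g) = Alb.ofF X) (u : Fin 3 → F) : 0 ≤ w (u ⬝ᵥ X *ᵥ u) := by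
  have h1 := E6.pos_of_orbit hd.defAt g hg φ hφ (u 0) (u 1) (u 2)
  rw [h, val_ofF hX] at h1
  have e : ![u 0, u 1, u 2] = u := by
    funext i
    fin_cases i <;> rfl
  rwa [e] at h1

/-- (E7) of Spec. -/
theorem sign_of_orbit {F : Type} [Field F] {a b c : Fˣ}
    (w : F →+* ℝ) (hd : Dfn w a b c)
    {φ : Alb a b c ≃ₗ[F] Alb a b c} (hφ : ∀ x, Alb.cub (φ x) = Alb.cub x)
    {t : F} {u : Fin 3 → F} (h : φ Alb.e1 = Alb.ofF (t • vecMulVec u u)) : 0 < w t := by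
  have e : (Alb.ofF (t • vecMulVec u u) : Alb a b c) = t • rk a b c (u 0) (u 1) (u 2) := by
    ext1
    · simp [Alb.ofF, rk, vecMulVec_apply, sq]
    · simp [Alb.ofF, rk, vecMulVec_apply, sq]
    · simp [Alb.ofF, rk, vecMulVec_apply, sq]
    · simp [Alb.ofF, rk, vecMulVec_apply, smul_smul]
    · simp [Alb.ofF, rk, vecMulVec_apply, smul_smul]
    · simp [Alb.ofF, rk, vecMulVec_apply, smul_smul]
  refine sign_of_e1 (μ := 1) hd.defAt hd.defAt φ (by rw [map_one]; exact one_pos)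
    (fun z => by rw [hφ, one_mul]) (s := 1) (by rw [map_one]; exact one_pos) (w1 := u 0)
    (w2 := u 1) (w3 := u 2) ?_
  rw [one_smul, h, e]

/-- (E11) of Spec. -/
theorem exists_good {k : Type} [Field k] [NumberField k] {a b c : kˣ} (hdiv : Division a b c) :
    ∃ (a' b' c' : kˣ) (i j l : Oct a b c), Trip a' b' c' i j l ∧
      ∀ φ : k →+* ℝ, φ a' < 0 → φ b' < 0 → Dfn φ a' b' c' := by
  obtain ⟨a', b', c', i, j, l, ht, h⟩ := E6.exists_good hdiv
  refine ⟨a', b', c', i, j, l, ht, fun φ ha _ => ?_⟩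
  by_cases hd : φ a < 0 ∧ φ b < 0 ∧ φ c < 0
  · exact Dfn.trip hd ht
  · exact absurd (h φ hd) (not_lt.2 ha.le)

end Lit

end Vale.Agent.P011.E6
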