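import Vale.Agent.P011.E6.Herm

/-!
The orbit of the base point under the group of type `²E₆`: the Cayley parameter.
-/

open NumberField

namespace Vale.Agent.P011.E6

open Vale.Agent.P011.MPQ Vale.Agent.P011.D4 Vale.Agent.P011.D4.Oct

namespace Five

section quad

variable {k K : Type} [Field k] [CharZero k] [Field K] [Algebra k K]

/-- Coordinates in a quadratic extension. -/
theorem exists_pair (h2 : Module.finrank k K = 2) {σ : K ≃ₐ[k] K} {δ : K} (hδ : σ δ = -δ)
    (hδ0 : δ ≠ 0) (t : K) : ∃ r s : k, t = algebraMap k K r + algebraMap k K s * δ := by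
  have : CharZero K := charZero_of_injective_algebraMap (algebraMap k K).injective
  have hli : LinearIndependent k ![(1 : K), δ] := by
    rw [LinearIndependent.pair_iff]
    intro r s h
    rw [Algebra.smul_def, Algebra.smul_def, mul_one] at h
    have h1 := congrArg σ h
    rw [map_add, map_mul, σ.commutes, σ.commutes, hδ, map_zero] at h1
    have h3 : (2 : K) * algebraMap k K r = 0 := by linear_combination h + h1
    have h4 : algebraMap k K r = 0 := (mul_eq_zero.1 h3).resolve_left two_ne_zero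
    have h5 : algebraMap k K s = 0 := by
      rw [h4, zero_add] at h
      exact (mul_eq_zero.1 h).resolve_right hδ0
    exact ⟨(map_eq_zero _).1 h4, (map_eq_zero _).1 h5⟩
  have hfd : FiniteDimensional k K := Module.finite_of_finrank_pos (by rw [h2]; norm_num)
  have hspan := hli.span_eq_top_of_card_eq_finrank' (by rw [h2]; simp)
  have ht : t ∈ Submodule.span k (Set.range ![(1 : K), δ]) := by
    rw [hspan]
    trivial
  rw [Matrix.range_cons, Matrix.range_cons, Matrix.range_empty, Set.union_empty,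
    Set.singleton_union, Submodule.mem_span_pair] at ht
  obtain ⟨r, s, h⟩ := ht
  refine ⟨r, s, ?_⟩
  rw [← h, Algebra.smul_def, Algebra.smul_def, mul_one]

theorem exists_fix (h2 : Module.finrank k K = 2) {σ : K ≃ₐ[k] K} {δ : K} (hδ : σ δ = -δ)
    (hδ0 : δ ≠ 0) (t : K) (ht : σ t = t) : ∃ s : k, algebraMap k K s = t := by
  have : CharZero K := charZero_of_injective_algebraMap (algebraMap k K).injective
  obtain ⟨r, s, rfl⟩ := exists_pair h2 hδ hδ0 t
  rw [map_add, map_mul, σ.commutes, σ.commutes, hδ] at ht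
  have h3 : (2 : K) * (algebraMap k K s * δ) = 0 := by linear_combination -ht
  refine ⟨r, ?_⟩
  rw [(mul_eq_zero.1 h3).resolve_left two_ne_zero, add_zero]

theorem invol (h2 : Module.finrank k K = 2) {σ : K ≃ₐ[k] K} {δ : K} (hδ : σ δ = -δ)
    (hδ0 : δ ≠ 0) (t : K) : σ (σ t) = t := by
  obtain ⟨r, s, rfl⟩ := exists_pair h2 hδ hδ0 t
  rw [map_add, map_mul, σ.commutes, σ.commutes, hδ, map_add, map_mul, σ.commutes, σ.commutes,
    map_neg, hδ, neg_neg]

theorem infinite_norm_one {σ : K ≃ₐ[k] K} {δ : K} (hδ : σ δ = -δ) (hδ0 : δ ≠ 0) :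
    {w : K | w * σ w = 1}.Infinite := by
  have : CharZero K := charZero_of_injective_algebraMap (algebraMap k K).injective
  have hne : ∀ t : k, 1 - algebraMap k K t * δ ≠ 0 := by
    intro t h
    have h1 := congrArg σ h
    rw [map_sub, map_one, map_mul, σ.commutes, hδ, map_zero] at h1
    have h2 : (2 : K) = 0 := by linear_combination h + h1
    exact two_ne_zero h2
  let f : k → K := fun t => (1 + algebraMap k K t * δ) / (1 - algebraMap k K t * δ)
  have hf : Function.Injective f := by
    intro s t hst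
    have h1 : (1 + algebraMap k K s * δ) * (1 - algebraMap k K t * δ) =
        (1 + algebraMap k K t * δ) * (1 - algebraMap k K s * δ) := by
      have := hst
      simp only [f] at this
      rw [div_eq_div_iff (hne s) (hne t)] at this
      exact this
    have h2 : (2 * δ) * (algebraMap k K s - algebraMap k K t) = 0 := by
      linear_combination h1
    have h3 := (mul_eq_zero.1 h2).resolve_left (mul_ne_zero two_ne_zero hδ0)
    exact (algebraMap k K).injective (sub_eq_zero.1 h3)
  refine (Set.infinite_range_of_injective hf).mono ?_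
  rintro _ ⟨t, rfl⟩
  have h4 : 1 + algebraMap k K t * δ ≠ 0 := by
    have := hne (-t)
    rw [map_neg] at this
    intro h
    apply this
    rw [neg_mul, sub_neg_eq_add]
    exact h
  change f t * σ (f t) = 1
  simp only [f]
  rw [map_div₀, map_add, map_sub, map_one, map_mul, σ.commutes, hδ]
  have h5 : (1 : K) + algebraMap k K t * -δ = 1 - algebraMap k K t * δ := by ring
  have h6 : (1 : K) - algebraMap k K t * -δ = 1 + algebraMap k K t * δ := by ring
  rw [h5, h6]
  have := hne t
  field_simp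

end quad

section grp

variable {k K : Type} [Field k] [CharZero k] [Field K] [Algebra k K] {a b c : kˣ}

/-- **The Cayley parameter of an element in the orbit of the base point** (from the equations of
the orbit). -/
theorem exists_cay [NeZero (2 : K)] {σ : K ≃ₐ[k] K}
    (hfix : ∀ m : K, σ m = m → ∃ t : k, algebraMap k K t = m) {δ : K}
    (hδ : σ δ = -δ) (hδ0 : δ ≠ 0) (g : Fin 3 → kˣ) {x : AlbL K a b c}
    (h1 : Alb.shG (upG K g) x = amap σ x) (h2 : Alb.NG (upG K g) x = 1) :
    ∃ (z : K) (r : Alb a b c), z * σ z = 1 ∧ IsCay δ z g r x := by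
  have : CharZero K := charZero_of_injective_algebraMap (algebraMap k K).injective
  have hC : CayData K (AlbL K a b c) (σ : K →+* K) (Alb.NG (upG K g)) (Alb.shG (upG K g))
      (Alb.tG (upG K g)) (Alb.one _ _ _ (upG K g)) (amap σ) := Alb.cayData σ g
  obtain ⟨w, hw, hwN⟩ := hC.exists_scalar x (by rw [h2]; exact one_ne_zero)
    (infinite_norm_one hδ hδ0)
  have hw' : w * σ w = 1 := hw
  have hz : w⁻¹ * (σ : K →+* K) w⁻¹ = 1 := by
    change w⁻¹ * σ w⁻¹ = 1
    rw [map_inv₀, ← mul_inv, hw', inv_one]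
  obtain ⟨r, hr1, hr2, hr3⟩ := hC.exists_real (δ := δ) hδ hδ0 h1 h2 hz
    (by rw [inv_inv]; exact hwN)
  obtain ⟨r0, rfl⟩ := Alb.exists_aup σ hfix hr1
  refine ⟨w⁻¹, r0, hz, fun h => hr2 ?_, ?_⟩
  · rw [Alb.NG, h, mul_zero]
  · have hg := Alb.gam_ne (upG K g)
    have h4 : x + w⁻¹ • Alb.one _ _ _ (upG K g) = (w⁻¹ * 2) • CayData.inv (Alb.NG (upG K g))
        (Alb.shG (upG K g)) (Alb.one _ _ _ (upG K g) - δ • aup K r0) := by
      nth_rewrite 1 [hr3]
      rw [mul_smul, smul_sub]
      abel
    rw [h4, CayData.inv, Alb.shG, Alb.wt_smul, Alb.wt_smul, Alb.wt_smul, Alb.wt_wt_inv, Alb.NG,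
      smul_smul, smul_smul]
    congr 1
    field_simp

/-- E5: the Cayley transform. -/
theorem exists_real {σ : K ≃ₐ[k] K} {g : Fin 3 → kˣ} (h2 : Module.finrank k K = 2) (_hσ : σ ≠ 1)
    {δ : K} (hδ : σ δ = -δ) (hδ0 : δ ≠ 0)
    {φ : AlbL K a b c ≃ₗ[K] AlbL K a b c} (hφ : φ ∈ GE σ a b c g) :
    ∃ (z : K) (r : Alb a b c), z * σ z = 1 ∧ IsCay δ z g r (φ (Alb.one _ _ _ (upG K g))) := by
  have : CharZero K := charZero_of_injective_algebraMap (algebraMap k K).injective
  have hinv := invol h2 hδ hδ0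
  refine exists_cay (exists_fix h2 hδ hδ0) hδ hδ0 g ?_ ?_
  · rw [shG_eq (σ := σ) hinv, ← ge_cj hinv hφ, cj_one, map_smul, Alb.amap_smul,
      smul_smul, map_inv₀, Alb.sigma_gam, mul_inv_cancel₀ (Alb.gam_ne _), one_smul]
  · rw [Alb.NG, hφ.1]
    exact Alb.NG_one _

end grp

end Five

end Vale.Agent.P011.E6
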