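import Vale.Agent.P011.E6.Defs

/-!
Changes of coordinates: composition, inverses, and the isomorphisms given by basic triples.
-/

open NumberField Topology

namespace Vale.Agent.P011.E6

open Vale.Agent.P011.MPQ Vale.Agent.P011.D4 Vale.Agent.P011.D4.Oct

section maps

variable {k K : Type} [Field k] [Field K] [Algebra k K] (σ : K ≃ₐ[k] K) {a b c : kˣ}

@[simp] theorem d1_amap (x : AlbL K a b c) : (amap σ x).d1 = σ x.d1 := rfl
@[simp] theorem d2_amap (x : AlbL K a b c) : (amap σ x).d2 = σ x.d2 := rfl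
@[simp] theorem d3_amap (x : AlbL K a b c) : (amap σ x).d3 = σ x.d3 := rfl
@[simp] theorem x1_amap (x : AlbL K a b c) : (amap σ x).x1 = omap σ x.x1 := rfl
@[simp] theorem x2_amap (x : AlbL K a b c) : (amap σ x).x2 = omap σ x.x2 := rfl
@[simp] theorem x3_amap (x : AlbL K a b c) : (amap σ x).x3 = omap σ x.x3 := rfl
@[simp] theorem d1_aup (x : Alb a b c) : (aup K x).d1 = algebraMap k K x.d1 := rfl
@[simp] theorem d2_aup (x : Alb a b c) : (aup K x).d2 = algebraMap k K x.d2 := rfl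
@[simp] theorem d3_aup (x : Alb a b c) : (aup K x).d3 = algebraMap k K x.d3 := rfl
@[simp] theorem x1_aup (x : Alb a b c) : (aup K x).x1 = oup K x.x1 := rfl
@[simp] theorem x2_aup (x : Alb a b c) : (aup K x).x2 = oup K x.x2 := rfl
@[simp] theorem x3_aup (x : Alb a b c) : (aup K x).x3 = oup K x.x3 := rfl

end maps

section coord

variable {k K : Type} [Field k] [Field K] [Algebra k K] {σ : K ≃ₐ[k] K}
  {a b c a' b' c' a'' b'' c'' : kˣ} {g g' g'' : Fin 3 → kˣ}

theorem IsCoord.refl : IsCoord σ g g (LinearEquiv.refl K (AlbL K a b c)) :=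
  ⟨⟨1, one_ne_zero, fun _ => (one_mul _).symm⟩, fun _ _ => rfl, fun _ => rfl, rfl⟩

theorem IsCoord.trans {ψ : AlbL K a' b' c' ≃ₗ[K] AlbL K a b c}
    {ψ' : AlbL K a'' b'' c'' ≃ₗ[K] AlbL K a' b' c'} (h : IsCoord σ g g' ψ)
    (h' : IsCoord σ g' g'' ψ') : IsCoord σ g g'' (ψ'.trans ψ) := by
  obtain ⟨⟨μ, hμ, h1⟩, h2, h3, h4⟩ := h
  obtain ⟨⟨μ', hμ', h1'⟩, h2', h3', h4'⟩ := h'
  refine ⟨⟨μ * μ', mul_ne_zero hμ hμ', fun x => ?_⟩, fun x y => ?_, fun x => ?_, ?_⟩
  · rw [LinearEquiv.trans_apply, h1, h1', mul_assoc]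
  · rw [LinearEquiv.trans_apply, LinearEquiv.trans_apply, h2, h2']
  · rw [LinearEquiv.trans_apply, LinearEquiv.trans_apply, h3', h3]
  · rw [LinearEquiv.trans_apply, h4', h4]

theorem IsCoord.symm {ψ : AlbL K a' b' c' ≃ₗ[K] AlbL K a b c} (h : IsCoord σ g g' ψ) :
    IsCoord σ g' g ψ.symm := by
  obtain ⟨⟨μ, hμ, h1⟩, h2, h3, h4⟩ := h
  refine ⟨⟨μ⁻¹, inv_ne_zero hμ, fun x => ?_⟩, fun x y => ?_, fun x => ?_, ?_⟩
  · rw [eq_inv_mul_iff_mul_eq₀ hμ, ← h1, LinearEquiv.apply_symm_apply]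
  · rw [← h2, LinearEquiv.apply_symm_apply, LinearEquiv.apply_symm_apply]
  · apply ψ.injective
    rw [LinearEquiv.apply_symm_apply, h3, LinearEquiv.apply_symm_apply]
  · rw [← h4, LinearEquiv.symm_apply_apply]

theorem IsCoord.conj_mem {ψ : AlbL K a' b' c' ≃ₗ[K] AlbL K a b c} (h : IsCoord σ g g' ψ)
    {φ : AlbL K a' b' c' ≃ₗ[K] AlbL K a' b' c'} (hφ : φ ∈ GE σ a' b' c' g') :
    (ψ.symm.trans φ).trans ψ ∈ GE σ a b c g := by
  obtain ⟨⟨μ, hμ, h1⟩, h2, h3, h4⟩ := h
  refine ⟨fun x => ?_, fun x y => ?_⟩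
  · change Alb.cub (ψ (φ (ψ.symm x))) = _
    rw [h1, hφ.1, ← h1, LinearEquiv.apply_symm_apply]
  · change E6.herm σ g (ψ (φ (ψ.symm x))) (ψ (φ (ψ.symm y))) = _
    rw [h2, hφ.2, ← h2, LinearEquiv.apply_symm_apply, LinearEquiv.apply_symm_apply]

/-- A change of coordinates identifies the groups. -/
def IsCoord.conj {ψ : AlbL K a' b' c' ≃ₗ[K] AlbL K a b c} (h : IsCoord σ g g' ψ) :
    GE σ a' b' c' g' ≃* GE σ a b c g where
  toFun φ := ⟨(ψ.symm.trans φ.1).trans ψ, h.conj_mem φ.2⟩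
  invFun φ := ⟨(ψ.trans φ.1).trans ψ.symm, h.symm.conj_mem φ.2⟩
  left_inv φ := by
    apply Subtype.ext
    apply LinearEquiv.ext
    intro x
    change ψ.symm (ψ (φ.1 (ψ.symm (ψ x)))) = φ.1 x
    rw [LinearEquiv.symm_apply_apply, LinearEquiv.symm_apply_apply]
  right_inv φ := by
    apply Subtype.ext
    apply LinearEquiv.ext
    intro x
    change ψ (ψ.symm (φ.1 (ψ (ψ.symm x)))) = φ.1 x
    rw [LinearEquiv.apply_symm_apply, LinearEquiv.apply_symm_apply]
  map_mul' φ φ' := by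
    apply Subtype.ext
    apply LinearEquiv.ext
    intro x
    change ψ (φ.1 (φ'.1 (ψ.symm x))) = ψ (φ.1 (ψ.symm (ψ (φ'.1 (ψ.symm x)))))
    rw [LinearEquiv.symm_apply_apply]

theorem IsCoord.conj_apply {ψ : AlbL K a' b' c' ≃ₗ[K] AlbL K a b c} (h : IsCoord σ g g' ψ)
    (φ : GE σ a' b' c' g') (x : AlbL K a b c) : (h.conj φ).1 x = ψ (φ.1 (ψ.symm x)) := rfl

end coord

section trip

variable {F : Type} [Field F] {a b c a' b' c' : Fˣ}

namespace Alb

/-- The isomorphism induced by an isomorphism of octonion algebras. -/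
def mapE (f : Oct a' b' c' ≃ₗ[F] Oct a b c) : Alb a' b' c' ≃ₗ[F] Alb a b c where
  toFun := omapA f
  invFun := omapA f.symm
  left_inv x := by
    simp only [omapA, LinearEquiv.symm_apply_apply]
  right_inv x := by
    simp only [omapA, LinearEquiv.apply_symm_apply]
  map_add' x y := by
    ext1 <;> simp [omapA]
  map_smul' t x := by
    ext1 <;> simp [omapA]

theorem mapE_apply (f : Oct a' b' c' ≃ₗ[F] Oct a b c) (x : Alb a' b' c') :
    mapE f x = omapA f x := rfl

theorem cub_mapE {f : Oct a' b' c' ≃ₗ[F] Oct a b c} (hf : ∀ x y, f (x * y) = f x * f y)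
    (x : Alb a' b' c') : cub (mapE f x) = cub x := by
  simp only [mapE_apply, omapA, cub]
  rw [hom_norm hf, hom_norm hf, hom_norm hf, ← hf, ← hf, (hom_tr hf _).1]

theorem tf_mapE {f : Oct a' b' c' ≃ₗ[F] Oct a b c} (hf : ∀ x y, f (x * y) = f x * f y)
    (x y : Alb a' b' c') : tf (mapE f x) (mapE f y) = tf x y := by
  simp only [mapE_apply, omapA, tf]
  rw [hom_bil hf, hom_bil hf, hom_bil hf]

theorem wt_mapE (f : Oct a' b' c' ≃ₗ[F] Oct a b c) (g : Fin 3 → Fˣ) (x : Alb a' b' c') :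
    wt g (mapE f x) = mapE f (wt g x) := by
  simp only [mapE_apply, omapA, wt, map_smul]

theorem mapE_one (f : Oct a' b' c' ≃ₗ[F] Oct a b c) (g : Fin 3 → Fˣ) :
    mapE f (one a' b' c' g) = one a b c g := by
  simp only [mapE_apply, omapA, one, map_zero]

theorem mapE_e1 (f : Oct a' b' c' ≃ₗ[F] Oct a b c) : mapE f (e1 : Alb a' b' c') = e1 := by
  simp only [mapE_apply, omapA, e1, map_zero]

theorem mapE_e2 (f : Oct a' b' c' ≃ₗ[F] Oct a b c) : mapE f (e2 : Alb a' b' c') = e2 := by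
  simp only [mapE_apply, omapA, e2, map_zero]

theorem mapE_e3 (f : Oct a' b' c' ≃ₗ[F] Oct a b c) : mapE f (e3 : Alb a' b' c') = e3 := by
  simp only [mapE_apply, omapA, e3, map_zero]

end Alb

end trip

section tripK

variable {k K : Type} [Field k] [Field K] [Algebra k K]
  {a b c a' b' c' : kˣ} {g : Fin 3 → kˣ} {i j l : Oct a b c}

theorem oup_qemb (i j : Oct a b c) (x : Qt a' b') :
    oup K (qemb i j x) = qemb (oup K i) (oup K j) (qup K x) := by
  simp only [qemb, oup_add, oup_smul, oup_one, oup_mul]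
  rfl

theorem oup_emb (i j l : Oct a b c) (x : Oct a' b' c') :
    oup K (emb i j l x) = emb (oup K i) (oup K j) (oup K l) (oup K x) := by
  simp only [emb, oup_add, oup_mul, oup_qemb]
  rfl

theorem omap_qemb (σ : K ≃ₐ[k] K) (i j : Oct a b c) (x : Qt (up K a') (up K b')) :
    omap σ (qemb (oup K i) (oup K j) x) = qemb (oup K i) (oup K j) (qmap σ x) := by
  simp only [qemb, omap_add, omap_smul, omap_one, omap_mul, omap_oup]
  rfl

theorem omap_emb (σ : K ≃ₐ[k] K) (i j l : Oct a b c) (x : OctL K a' b' c') :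
    omap σ (emb (oup K i) (oup K j) (oup K l) x) =
      emb (oup K i) (oup K j) (oup K l) (omap σ x) := by
  simp only [emb, omap_add, omap_mul, omap_qemb, omap_oup]
  rfl

variable [NeZero (2 : K)]

variable (K) in
/-- The isomorphism of octonion algebras given by a basic triple. -/
noncomputable def tripO (h : Trip a' b' c' i j l) : OctL K a' b' c' ≃ₗ[K] OctL K a b c :=
  (exists_emb (trip_up (L := K) h)).choose

theorem tripO_apply (h : Trip a' b' c' i j l) (x : OctL K a' b' c') :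
    tripO K h x = emb (oup K i) (oup K j) (oup K l) x :=
  (exists_emb (trip_up (L := K) h)).choose_spec.1 x

theorem tripO_mul (h : Trip a' b' c' i j l) (x y : OctL K a' b' c') :
    tripO K h (x * y) = tripO K h x * tripO K h y :=
  (exists_emb (trip_up (L := K) h)).choose_spec.2.1 x y

theorem tripO_oup (h : Trip a' b' c' i j l) (x : Oct a' b' c') :
    tripO K h (oup K x) = oup K (emb i j l x) := by
  rw [tripO_apply, oup_emb]

theorem tripO_omap (σ : K ≃ₐ[k] K) (h : Trip a' b' c' i j l) (x : OctL K a' b' c') :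
    tripO K h (omap σ x) = omap σ (tripO K h x) := by
  rw [tripO_apply, tripO_apply, omap_emb]

variable (K) in
/-- The change of coordinates given by a basic triple. -/
noncomputable def tripA (h : Trip a' b' c' i j l) : AlbL K a' b' c' ≃ₗ[K] AlbL K a b c :=
  Alb.mapE (tripO K h)

theorem tripA_apply (h : Trip a' b' c' i j l) (x : AlbL K a' b' c') :
    tripA K h x = Alb.omapA (emb (oup K i) (oup K j) (oup K l)) x := by
  rw [tripA, Alb.mapE_apply]
  simp only [Alb.omapA, tripO_apply]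

theorem tripA_aup (h : Trip a' b' c' i j l) (x : Alb a' b' c') :
    tripA K h (aup K x) = aup K (Alb.omapA (emb i j l) x) := by
  rw [tripA_apply]
  simp only [Alb.omapA, aup, oup_emb]

theorem isCoord_tripA (σ : K ≃ₐ[k] K) (h : Trip a' b' c' i j l) :
    IsCoord σ g g (tripA K h) := by
  refine ⟨⟨1, one_ne_zero, fun x => ?_⟩, fun x y => ?_, fun x => ?_, ?_⟩
  · rw [one_mul]
    exact Alb.cub_mapE (tripO_mul h) x
  · have h1 : amap σ (tripA K h y) = tripA K h (amap σ y) := by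
      simp only [tripA, Alb.mapE_apply, Alb.omapA, amap, tripO_omap]
    rw [herm, herm, h1]
    change Alb.tf (Alb.wt (upG K g) (Alb.mapE (tripO K h) x)) (Alb.mapE (tripO K h) (amap σ y)) = _
    rw [Alb.wt_mapE, Alb.tf_mapE (tripO_mul h)]
  · simp only [tripA, Alb.mapE_apply, Alb.omapA, amap, tripO_omap]
  · exact Alb.mapE_one _ _

end tripK

end Vale.Agent.P011.E6
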