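import Vale.Agent.P011.E6.Herm
import Vale.Agent.P011.E6.Coord

/-!
The elements of the group that fix the base point: they are defined over the ground field.
-/

open NumberField Topology Matrix

namespace Vale.Agent.P011.E6

open Vale.Agent.P011.MPQ Vale.Agent.P011.D4 Vale.Agent.P011.D4.Oct Alb

section real

variable {k K : Type} [Field k] [Field K] [Algebra k K] {σ : K ≃ₐ[k] K} {a b c : kˣ}
  {g : Fin 3 → kˣ} {φ : AlbL K a b c ≃ₗ[K] AlbL K a b c}

theorem herm_one (x : AlbL K a b c) : herm σ g x (Alb.one _ _ _ (upG K g)) = tG (upG K g) x := by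
  rw [herm, one_amap, tf_wt, tf_comm, tf_wt_one]

/-- The trace is preserved by the elements that fix the base point. -/
theorem ge_tG (hφ : φ ∈ GE σ a b c g)
    (h1 : φ (Alb.one _ _ _ (upG K g)) = Alb.one _ _ _ (upG K g)) (x : AlbL K a b c) :
    tG (upG K g) (φ x) = tG (upG K g) x := by
  have h2 := hφ.2 x (Alb.one _ _ _ (upG K g))
  rwa [h1, herm_one, herm_one] at h2

theorem cj_one_add (x : AlbL K a b c) :
    cj σ g (Alb.one _ _ _ (upG K g) + x) = cj σ g (Alb.one _ _ _ (upG K g)) + cj σ g x +
      amap σ (wt (upG K g)⁻¹ (cross (Alb.one _ _ _ (upG K g)) x)) := by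
  rw [cj, cj, cj, adj_add, wt_add, wt_add, amap_add, amap_add]
  abel

/-- The elements of the group that fix the base point are real. -/
theorem ge_real [NeZero (2 : K)] (hσ : ∀ t, σ (σ t) = t) (hφ : φ ∈ GE σ a b c g)
    (h1 : φ (Alb.one _ _ _ (upG K g)) = Alb.one _ _ _ (upG K g)) (x : AlbL K a b c) :
    φ (amap σ x) = amap σ (φ x) := by
  have h2 : φ (amap σ (wt (upG K g)⁻¹ (cross (Alb.one _ _ _ (upG K g)) x))) =
      amap σ (wt (upG K g)⁻¹ (cross (Alb.one _ _ _ (upG K g)) (φ x))) := by
    have e1 := ge_cj hσ hφ (Alb.one _ _ _ (upG K g) + x)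
    have e2 := ge_cj hσ hφ (Alb.one _ _ _ (upG K g))
    have e3 := ge_cj hσ hφ x
    rw [cj_one_add, map_add, map_add, map_add, e2, e3, h1, cj_one_add] at e1
    exact add_left_cancel e1
  have h3 : ∀ y : AlbL K a b c, gam (upG K g) •
      amap σ (wt (upG K g)⁻¹ (cross (Alb.one _ _ _ (upG K g)) y)) =
        σ (tG (upG K g) y) • Alb.one _ _ _ (upG K g) - amap σ y := by
    intro y
    have e := congrArg (amap σ) (cross_one (upG K g) y)
    rwa [amap_smul, sigma_gam, amap_sub, amap_smul, one_amap] at e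
  have h4 := congrArg (fun y => gam (upG K g) • y) h2
  rw [← map_smul, h3, h3, map_sub, map_smul, h1, ge_tG hφ h1] at h4
  exact sub_right_injective h4

/-- A real linear automorphism comes from the ground field. -/
theorem descend (hfix : ∀ t : K, σ t = t → ∃ s : k, algebraMap k K s = t)
    (hr : ∀ x, φ (amap σ x) = amap σ (φ x)) :
    ∃ φk : Alb a b c ≃ₗ[k] Alb a b c, ∀ x, aup K (φk x) = φ (aup K x) := by
  have h1 : ∀ x : Alb a b c, ∃ y : Alb a b c, aup K y = φ (aup K x) := fun x =>
    exists_aup σ hfix (by rw [← hr, amap_aup])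
  have h2 : ∀ x : Alb a b c, ∃ y : Alb a b c, aup K y = φ.symm (aup K x) := fun x =>
    exists_aup σ hfix (by
      apply φ.injective
      rw [hr, LinearEquiv.apply_symm_apply, amap_aup])
  choose f hf using h1
  choose f' hf' using h2
  have hadd : ∀ x y, f (x + y) = f x + f y := by
    intro x y
    apply aup_injective (K := K)
    rw [hf, aup_add, aup_add, map_add, hf, hf]
  have hsmul : ∀ (t : k) (x), f (t • x) = t • f x := by
    intro t x
    apply aup_injective (K := K)
    rw [hf, aup_smul, aup_smul, map_smul, hf]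
  have hl : ∀ x, f' (f x) = x := by
    intro x
    apply aup_injective (K := K)
    rw [hf', hf, LinearEquiv.symm_apply_apply]
  have hr' : ∀ x, f (f' x) = x := by
    intro x
    apply aup_injective (K := K)
    rw [hf, hf', LinearEquiv.apply_symm_apply]
  exact ⟨{ toFun := f, invFun := f', left_inv := hl, right_inv := hr', map_add' := hadd,
           map_smul' := hsmul }, hf⟩

theorem cub_descend (hφ : ∀ x, cub (φ x) = cub x) {φk : Alb a b c ≃ₗ[k] Alb a b c}
    (h : ∀ x, aup K (φk x) = φ (aup K x)) (x : Alb a b c) : cub (φk x) = cub x := by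
  apply (algebraMap k K).injective
  rw [← cub_aup, ← cub_aup, h, hφ]

end real

end Vale.Agent.P011.E6
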