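import Vale.Agent.P011.E6.H64.Act

/-!
The action of matrices over the quaternions: the statements used in the other files.
-/

open Matrix

namespace Vale.Agent.P011.E6

open Vale.Agent.P011.MPQ Vale.Agent.P011.D4 Vale.Agent.P011.D4.Oct

section E2

variable {F : Type} [Field F] [NeZero (2 : F)] {a b : Fˣ} (hab : Aniso a b)

include hab in
theorem nu_mul (g h : Matrix (Fin 3) (Fin 3) (Qt a b)) : nu (g * h) = nu g * nu h :=
  H64.nu_mul two_ne_zero hab g h

omit [NeZero (2 : F)] in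
theorem nu_one : nu (1 : Matrix (Fin 3) (Fin 3) (Qt a b)) = 1 := H64.nu_one

omit [NeZero (2 : F)] in
theorem nu_diag (q : Fin 3 → Qt a b) :
    nu (Matrix.diagonal q) = nrd (q 0) * nrd (q 1) * nrd (q 2) := by
  have h : ∀ x : Qt a b, (x * star x).re = nrd x := fun x => by
    rw [H64.mul_star_qt, QuaternionAlgebra.re_coe]
  rw [H64.nu_eq, diagonal_conjTranspose, diagonal_mul_diagonal]
  simp only [H64.herN, diagonal_apply_eq]
  rw [diagonal_apply_ne _ (by decide : (0 : Fin 3) ≠ 1),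
    diagonal_apply_ne _ (by decide : (1 : Fin 3) ≠ 2),
    diagonal_apply_ne _ (by decide : (2 : Fin 3) ≠ 0)]
  simp only [Pi.star_apply, h]
  simp [nrd]

include hab in
theorem nu_ne_zero (g : (Matrix (Fin 3) (Fin 3) (Qt a b))ˣ) :
    nu (g : Matrix (Fin 3) (Fin 3) (Qt a b)) ≠ 0 := by
  intro h0
  have h := nu_mul hab ((g⁻¹ : (Matrix (Fin 3) (Fin 3) (Qt a b))ˣ) :
      Matrix (Fin 3) (Fin 3) (Qt a b)) g
  rw [H64.units_inv_mul, nu_one, h0, mul_zero] at h
  exact one_ne_zero h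

include hab in
theorem cub_act {c : Fˣ} (g : (Matrix (Fin 3) (Fin 3) (Qt a b))ˣ) (κ : Qt a b)
    (h : nrd κ = nu (g : Matrix (Fin 3) (Fin 3) (Qt a b))) (x : Alb a b c) :
    Alb.cub (Alb.act g κ x) = nu (g : Matrix (Fin 3) (Fin 3) (Qt a b)) * Alb.cub x :=
  H64.cub_act two_ne_zero hab g h x

include hab in
theorem exists_kap' (g : Matrix (Fin 3) (Fin 3) (Qt a b)) : ∃ κ : Qt a b, nrd κ = nu g := by
  have h2 : (2 : F) ≠ 0 := two_ne_zero
  refine H64.mat3_induction' (H64.isUnit_or_zero hab) (P := fun M => ∃ κ : Qt a b, nrd κ = nu M)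
    ?_ ?_ g
  · rintro A B ⟨κ, h⟩ ⟨κ', h'⟩
    exact ⟨κ * κ', by rw [nrd_mul, h, h', nu_mul hab]⟩
  · intro i j q
    by_cases hij : i = j
    · subst hij
      refine ⟨1 + q, ?_⟩
      have h := H64.herN_single_diag' h2 (isHermitian_one : (1 : Matrix (Fin 3) (Fin 3)
        (Qt a b)).IsHermitian) (i := i) q
      rw [mul_one, H64.herN_one, mul_one] at h
      rw [H64.nu_eq, h]
    · refine ⟨1, ?_⟩
      have h := H64.herN_single' h2 (isHermitian_one : (1 : Matrix (Fin 3) (Fin 3)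
        (Qt a b)).IsHermitian) hij q
      rw [mul_one, H64.herN_one] at h
      rw [H64.nu_eq, h, nrd_one]

include hab in
theorem exists_kap (g : (Matrix (Fin 3) (Fin 3) (Qt a b))ˣ) :
    ∃ κ : Qt a b, nrd κ = nu (g : Matrix (Fin 3) (Fin 3) (Qt a b)) :=
  exists_kap' hab _

end E2

section act

variable {F : Type} [Field F] [NeZero (2 : F)] {a b c : Fˣ}

theorem mat_act (g : (Matrix (Fin 3) (Fin 3) (Qt a b))ˣ) (κ : Qt a b)
    (x : Alb a b c) : Alb.mat (Alb.act g κ x) = (g : Matrix (Fin 3) (Fin 3) (Qt a b)) *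
      Alb.mat x * (g : Matrix (Fin 3) (Fin 3) (Qt a b))ᴴ :=
  H64.mat_act two_ne_zero g κ x

theorem act_act (g g' : (Matrix (Fin 3) (Fin 3) (Qt a b))ˣ) (κ κ' : Qt a b)
    (x : Alb a b c) : Alb.act g κ (Alb.act g' κ' x) = Alb.act (g * g') (κ * κ') x :=
  H64.act_act two_ne_zero g g' κ κ' x

theorem act_one_one (x : Alb a b c) : Alb.act 1 1 x = x := H64.act_one_one two_ne_zero x

end act

section E2K

variable {k K : Type} [Field k] [NeZero (2 : k)] [Field K] [NeZero (2 : K)] [Algebra k K]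
  {σ : K ≃ₐ[k] K} {a b c : kˣ} {g g' : Fin 3 → kˣ}

omit [NeZero (2 : k)] in
/-- The matrices of the special unitary group act. -/
theorem exists_actU (hab : Aniso (up K a) (up K b))
    (m : (Matrix (Fin 3) (Fin 3) (Qt (up K a) (up K b)))ˣ)
    (hm : IsU σ g g (m : Matrix (Fin 3) (Fin 3) (Qt (up K a) (up K b))))
    (hn : nu (m : Matrix (Fin 3) (Fin 3) (Qt (up K a) (up K b))) = 1) :
    ∃ φ ∈ GE σ a b c g, ∀ x, φ x = Alb.act m 1 x :=
  ⟨H64.actL two_ne_zero m 1, H64.act_mem_GE two_ne_zero hab hm hn, fun _ => rfl⟩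

omit [NeZero (2 : k)] in
/-- The real matrices give changes of coordinates. -/
theorem isCoord_act (hab : Aniso (up K a) (up K b))
    {m : (Matrix (Fin 3) (Fin 3) (Qt (up K a) (up K b)))ˣ} {κ : Qt (up K a) (up K b)}
    (hm : IsU σ g g' (m : Matrix (Fin 3) (Fin 3) (Qt (up K a) (up K b))))
    (hmσ : (m : Matrix (Fin 3) (Fin 3) (Qt (up K a) (up K b))).map (qmap σ) = m)
    (hκσ : qmap σ κ = κ)
    (hκ : nrd κ = nu (m : Matrix (Fin 3) (Fin 3) (Qt (up K a) (up K b))))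
    (Ψ : AlbL K a b c ≃ₗ[K] AlbL K a b c) (h : ∀ x, Ψ x = Alb.act m κ x) : IsCoord σ g g' Ψ :=
  H64.isCoord_act' two_ne_zero hab hm hmσ hκσ hκ Ψ h

omit [NeZero (2 : k)] in
theorem amap_act (m : (Matrix (Fin 3) (Fin 3) (Qt (up K a) (up K b)))ˣ)
    (κ : Qt (up K a) (up K b)) (x : AlbL K a b c) :
    amap σ (Alb.act m κ x) = Alb.act (H64.umap σ m) (qmap σ κ) (amap σ x) :=
  H64.amap_act two_ne_zero σ m κ x

end E2K

end Vale.Agent.P011.E6
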