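import Vale.Agent.P011.E6.Refl
import Vale.Agent.P011.D4.NTS

/-!
Hermitian matrices of rank one over the ground field as images of the diagonal idempotents.
-/

open Matrix NumberField

namespace Vale.Agent.P011.E6

open Vale.Agent.P011.MPQ Vale.Agent.P011.D4 Vale.Agent.P011.D4.Oct

section field

variable {F : Type} [Field F]

/-- A symmetric matrix of rank one. -/
theorem rank_one (S : Matrix (Fin 3) (Fin 3) F) (hS : S.IsSymm) (h0 : S ≠ 0)
    (h01 : S 0 0 * S 1 1 = S 0 1 ^ 2) (h12 : S 1 1 * S 2 2 = S 1 2 ^ 2)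
    (h20 : S 2 2 * S 0 0 = S 2 0 ^ 2) (h0' : S 0 0 * S 1 2 = S 2 0 * S 0 1)
    (h1' : S 1 1 * S 2 0 = S 0 1 * S 1 2) (h2' : S 2 2 * S 0 1 = S 1 2 * S 2 0) :
    ∃ (t : Fˣ) (w : Fin 3 → F), ∀ i j, S i j = t * (w i * w j) := by
  have e10 : S 1 0 = S 0 1 := hS.apply 0 1
  have e21 : S 2 1 = S 1 2 := hS.apply 1 2
  have e02 : S 0 2 = S 2 0 := hS.apply 2 0
  have hd : S 0 0 ≠ 0 ∨ S 1 1 ≠ 0 ∨ S 2 2 ≠ 0 := by
    by_contra hc
    push Not at hc
    obtain ⟨c0, c1, c2⟩ := hc
    apply h0
    have d01 : S 0 1 = 0 := by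
      have := h01
      rw [c0, zero_mul] at this
      exact pow_eq_zero_iff (two_ne_zero) |>.mp this.symm
    have d12 : S 1 2 = 0 := by
      have := h12
      rw [c1, zero_mul] at this
      exact pow_eq_zero_iff (two_ne_zero) |>.mp this.symm
    have d20 : S 2 0 = 0 := by
      have := h20
      rw [c2, zero_mul] at this
      exact pow_eq_zero_iff (two_ne_zero) |>.mp this.symm
    ext i j
    fin_cases i <;> fin_cases j <;> simp [c0, c1, c2, d01, d12, d20, e10, e21, e02]
  have key : ∀ i : Fin 3, S i i ≠ 0 → (∀ j k, S i i * S j k = S j i * S k i) →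
      ∃ (t : Fˣ) (w : Fin 3 → F), ∀ i j, S i j = t * (w i * w j) := by
    intro i hi h
    refine ⟨Units.mk0 (S i i) hi, fun j => S j i / S i i, fun j k => ?_⟩
    rw [Units.val_mk0]
    field_simp
    linear_combination h j k
  rcases hd with h | h | h
  · refine key 0 h fun j k => ?_
    fin_cases j <;> fin_cases k <;> simp [e10, e21, e02] <;>
      first | ring1 | linear_combination h01 | linear_combination h20 | linear_combination h0'
  · refine key 1 h fun j k => ?_
    fin_cases j <;> fin_cases k <;> simp [e10, e21, e02] <;>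
      first | ring1 | linear_combination h01 | linear_combination h12 | linear_combination h1'
  · refine key 2 h fun j k => ?_
    fin_cases j <;> fin_cases k <;> simp [e10, e21, e02] <;>
      first | ring1 | linear_combination h20 | linear_combination h12 | linear_combination h2'

variable {a b c : Fˣ}

/-- A matrix over the ground field with vanishing adjoint has rank one. -/
theorem rank_one' [NeZero (2 : F)] (S : Matrix (Fin 3) (Fin 3) F) (hS : S.IsSymm) (h0 : S ≠ 0)
    (h : Alb.adj (Alb.ofF S : Alb a b c) = 0) :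
    ∃ (t : Fˣ) (w : Fin 3 → F), ∀ i j, S i j = t * (w i * w j) := by
  have hn : ∀ t : F, norm (t • (1 : Oct a b c)) = t ^ 2 := fun t => by
    rw [Oct.norm_smul, Oct.norm_one, mul_one]
  have h1 : ∀ s t u v : F, star ((s • (1 : Oct a b c)) * (t • (1 : Oct a b c))) -
      u • (v • (1 : Oct a b c)) = 0 → u * v = s * t := by
    intro s t u v e
    rw [mul_smul_oct, _root_.mul_one, star_smul_oct, star_smul_oct] at e
    have e1 := congrArg (fun x : Oct a b c => x.fst.re) e
    simp at e1
    linear_combination -e1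
  have a1 := congrArg Alb.d1 h
  have a2 := congrArg Alb.d2 h
  have a3 := congrArg Alb.d3 h
  have b1 := congrArg Alb.x1 h
  have b2 := congrArg Alb.x2 h
  have b3 := congrArg Alb.x3 h
  simp only [Alb.adj, Alb.ofF, Alb.d1_zero, Alb.d2_zero, Alb.d3_zero, Alb.x1_zero, Alb.x2_zero,
    Alb.x3_zero, hn] at a1 a2 a3 b1 b2 b3
  refine rank_one S hS h0 (by linear_combination a3) (by linear_combination a1)
    (by linear_combination a2) ?_ ?_ ?_
  · exact h1 _ _ _ _ b1
  · exact h1 _ _ _ _ b2
  · exact h1 _ _ _ _ b3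

theorem mat_e1 : Alb.mat (Alb.e1 : Alb a b c) = Matrix.single 0 0 (1 : Qt a b) := by
  ext i j : 1
  fin_cases i <;> fin_cases j <;> simp [Alb.mat, Alb.e1, Matrix.single]

theorem mat_e2 : Alb.mat (Alb.e2 : Alb a b c) = Matrix.single 1 1 (1 : Qt a b) := by
  ext i j : 1
  fin_cases i <;> fin_cases j <;> simp [Alb.mat, Alb.e2, Matrix.single]

theorem mat_e3 : Alb.mat (Alb.e3 : Alb a b c) = Matrix.single 2 2 (1 : Qt a b) := by
  ext i j : 1
  fin_cases i <;> fin_cases j <;> simp [Alb.mat, Alb.e3, Matrix.single]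

theorem vec_e1 : Alb.vec (Alb.e1 : Alb a b c) = 0 := by
  ext i : 1
  fin_cases i <;> simp [Alb.vec, Alb.e1]

theorem vec_e2 : Alb.vec (Alb.e2 : Alb a b c) = 0 := by
  ext i : 1
  fin_cases i <;> simp [Alb.vec, Alb.e2]

theorem vec_e3 : Alb.vec (Alb.e3 : Alb a b c) = 0 := by
  ext i : 1
  fin_cases i <;> simp [Alb.vec, Alb.e3]

/-- The image of a diagonal idempotent. -/
theorem act_single (m : (Matrix (Fin 3) (Fin 3) (Qt a b))ˣ) (κ : Qt a b) {x : Alb a b c}
    {i0 : Fin 3} (hx : Alb.mat x = Matrix.single i0 i0 1) (hx' : Alb.vec x = 0) {t : F}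
    {q : Qt a b} (hq : nrd q = t) {w : Fin 3 → F}
    (hm : ∀ i, (m : Matrix (Fin 3) (Fin 3) (Qt a b)) i i0 = w i • q) :
    Alb.act m κ x = Alb.ofF (Matrix.of fun i j => t * (w i * w j)) := by
  have h1 : ∀ i j, ((m : Matrix (Fin 3) (Fin 3) (Qt a b)) * Matrix.single i0 i0 (1 : Qt a b) *
      (m : Matrix (Fin 3) (Fin 3) (Qt a b)).conjTranspose : Matrix (Fin 3) (Fin 3) (Qt a b)) i j =
        ((t * (w i * w j) : F) : Qt a b) := by
    intro i j
    rw [Matrix.mul_apply, Finset.sum_eq_single i0]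
    · have h2 : star (w j • q) = w j • star q := by ext <;> simp
      rw [Matrix.mul_single_apply_same, conjTranspose_apply, hm, hm, mul_one, h2,
        smul_mul_smul_comm, H64.mul_star_qt, hq]
      ext <;> simp
      ring
    · intro l _ hl
      rw [Matrix.mul_single_apply_of_ne _ _ _ _ _ hl, zero_mul]
    · intro h
      exact absurd (Finset.mem_univ _) h
  rw [Alb.act, hx, hx']
  apply Alb.ext
  all_goals simp only [Alb.ofMV, Alb.ofF, h1, Matrix.of_apply, QuaternionAlgebra.re_coe]
  all_goals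
    apply Oct.ext
    · ext <;> simp
    · ext <;> simp

end field

section num

variable {k : Type} [Field k] {a b c : kˣ}

theorem nrd_smul' (t : k) (x : Qt a b) : nrd (t • x) = t ^ 2 * nrd x := by
  simp only [nrd, QuaternionAlgebra.re_smul, QuaternionAlgebra.imI_smul, QuaternionAlgebra.imJ_smul,
    QuaternionAlgebra.imK_smul, smul_eq_mul]
  ring

theorem nrd_nonneg (τ : k →+* ℝ) (ha : τ a < 0) (hb : τ b < 0) (x : Qt a b) : 0 ≤ τ (nrd x) := by
  simp only [nrd, map_sub, map_add, map_mul, map_pow]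
  have h1 := mul_nonneg (neg_nonneg.mpr ha.le) (sq_nonneg (τ x.imI))
  have h2 := mul_nonneg (neg_nonneg.mpr hb.le) (sq_nonneg (τ x.imJ))
  have h3 := mul_nonneg (mul_pos_of_neg_of_neg ha hb).le (sq_nonneg (τ x.imK))
  have h4 := sq_nonneg (τ x.re)
  nlinarith

theorem eq_zero_of_nrd (τ : k →+* ℝ) (ha : τ a < 0) (hb : τ b < 0) {x : Qt a b}
    (h : nrd x = 0) : x = 0 := by
  have h0 : τ (nrd x) = 0 := by rw [h, map_zero]
  simp only [nrd, map_sub, map_add, map_mul, map_pow] at h0
  have h1 := mul_nonneg (neg_nonneg.mpr ha.le) (sq_nonneg (τ x.imI))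
  have h2 := mul_nonneg (neg_nonneg.mpr hb.le) (sq_nonneg (τ x.imJ))
  have h3 := mul_nonneg (mul_pos_of_neg_of_neg ha hb).le (sq_nonneg (τ x.imK))
  have h4 := sq_nonneg (τ x.re)
  have e4 : τ x.re = 0 := by
    have : τ x.re ^ 2 = 0 := by nlinarith
    exact pow_eq_zero_iff (two_ne_zero) |>.mp this
  have e1 : τ x.imI = 0 := by
    have : -τ a * τ x.imI ^ 2 = 0 := by nlinarith
    have := (mul_eq_zero.mp this).resolve_left (by linarith)
    exact pow_eq_zero_iff (two_ne_zero) |>.mp this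
  have e2 : τ x.imJ = 0 := by
    have : -τ b * τ x.imJ ^ 2 = 0 := by nlinarith
    have := (mul_eq_zero.mp this).resolve_left (by linarith)
    exact pow_eq_zero_iff (two_ne_zero) |>.mp this
  have e3 : τ x.imK = 0 := by
    have : τ a * τ b * τ x.imK ^ 2 = 0 := by nlinarith
    have := (mul_eq_zero.mp this).resolve_left (mul_pos_of_neg_of_neg ha hb).ne'
    exact pow_eq_zero_iff (two_ne_zero) |>.mp this
  ext
  · exact (map_eq_zero τ).mp e4
  · exact (map_eq_zero τ).mp e1
  · exact (map_eq_zero τ).mp e2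
  · exact (map_eq_zero τ).mp e3

/-- The vector of quaternions attached to a hermitian matrix of rank one, and the unitary
matrix. -/
theorem exists_move [NumberField k] (g : Fin 3 → kˣ) (τ : k →+* ℝ) (ha : τ a < 0) (hb : τ b < 0)
    (hg : ∀ i, 0 < τ (g i)) (i0 : Fin 3) (t : kˣ) (w : Fin 3 → k)
    (htr : (t : k) * ∑ i, (g i : k) * w i ^ 2 = g i0)
    (ht : ∀ φ : k →+* ℝ, φ a < 0 → φ b < 0 → 0 < φ t) :
    ∃ (m : (Matrix (Fin 3) (Fin 3) (Qt a b))ˣ) (q : Qt a b), nrd q = t ∧
      (m : Matrix (Fin 3) (Fin 3) (Qt a b))ᴴ * dg a b g * (m : Matrix (Fin 3) (Fin 3) (Qt a b)) =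
        dg a b g ∧
      (∀ i, (m : Matrix (Fin 3) (Fin 3) (Qt a b)) i i0 = w i • q) ∧
      (∀ j, j ≠ i0 → w j = 0 → ∀ i, (m : Matrix (Fin 3) (Fin 3) (Qt a b)) i j =
        (1 : Matrix (Fin 3) (Fin 3) (Qt a b)) i j) ∧
      ∀ {F' : Type} [Field F'] [Algebra k F'] (f : Qt a b →ₐ[k] Matrix (Fin 2) (Fin 2) F'),
        (∀ x, (f x).det = algebraMap k F' (nrd x)) →
          H64.rN f (m : Matrix (Fin 3) (Fin 3) (Qt a b)) = 1 := by
  obtain ⟨q, hq⟩ := exists_nrd t ht
  have hu : ∑ j, (g j : k) * nrd (w j • q) = g i0 := by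
    rw [← htr, Finset.mul_sum]
    refine Finset.sum_congr rfl fun j _ => ?_
    rw [nrd_smul', hq]
    ring
  have h0 : nrd (1 - w i0 • q) ≠ 0 ∨ (fun j => w j • q) = Pi.single i0 1 := by
    by_cases h : nrd (1 - w i0 • q) = 0
    · right
      have h1 : w i0 • q = 1 := (sub_eq_zero.mp (eq_zero_of_nrd τ ha hb h)).symm
      have h2 : ∀ j, j ≠ i0 → w j • q = 0 := by
        have h3 : ∑ j, (if j = i0 then 0 else τ ((g j : k) * nrd (w j • q))) = 0 := by
          have h4 : ∀ j, τ ((g j : k) * nrd (w j • q)) =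
              (if j = i0 then 0 else τ ((g j : k) * nrd (w j • q))) +
                if j = i0 then τ (g i0 : k) else 0 := by
            intro j
            by_cases hj : j = i0
            · subst hj
              rw [if_pos rfl, if_pos rfl, h1, nrd_one, mul_one, zero_add]
            · rw [if_neg hj, if_neg hj, add_zero]
          have h5 := congrArg τ hu
          rw [map_sum, Finset.sum_congr rfl fun j _ => h4 j, Finset.sum_add_distrib,
            Finset.sum_ite_eq' Finset.univ i0, if_pos (Finset.mem_univ _)] at h5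
          linarith
        intro j hj
        have h6 := (Finset.sum_eq_zero_iff_of_nonneg (fun j _ => by
          split_ifs
          · exact le_rfl
          · rw [map_mul]
            exact mul_nonneg (hg j).le (nrd_nonneg τ ha hb _))).mp h3 j (Finset.mem_univ _)
        rw [if_neg hj, map_eq_zero, mul_eq_zero] at h6
        exact eq_zero_of_nrd τ ha hb (h6.resolve_left (g j).ne_zero)
      funext j
      by_cases hj : j = i0
      · subst hj
        rw [Pi.single_eq_same]
        exact h1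
      · rw [Pi.single_eq_of_ne hj]
        exact h2 j hj
    · exact Or.inl h
  obtain ⟨m, h1, h2, h3, h4⟩ := exists_refl g (fun j => w j • q) i0 hu h0
  refine ⟨m, q, hq, h1, h2, fun j hj hwj i => h3 j hj ?_ i, h4⟩
  simp only [hwj, zero_smul]

end num

end Vale.Agent.P011.E6
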