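import Vale.Agent.P011.E6.FixA
import Vale.Agent.P011.E6.Pos3
import Vale.Agent.P011.E6.Act
import Vale.Agent.P011.E6.Move
import Vale.Agent.P011.E6.Five

/-!
Real matrices over the quaternions acting on hermitian matrices of degree three, and idempotents.
-/

open NumberField Topology Matrix

namespace Vale.Agent.P011.E6

open Vale.Agent.P011.MPQ Vale.Agent.P011.D4 Vale.Agent.P011.D4.Oct Alb

/-- A division octonion algebra over a number field is definite at some real place. -/
theorem exists_dfn {K : Type} [Field K] [NumberField K] {a b c : Kˣ} (hdiv : Division a b c) :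
    ∃ w : K →+* ℝ, Dfn w a b c := by
  by_contra hcon
  push Not at hcon
  obtain ⟨q, hq⟩ := exists_nrd (a := a) (b := b) c fun φ ha hb => by
    have h1 : ¬ φ c < 0 := fun h => hcon φ ⟨ha, hb, h⟩
    have h2 : φ c ≠ 0 := by
      rw [Ne, map_eq_zero]
      exact c.ne_zero
    exact lt_of_le_of_ne (not_lt.mp h1) h2.symm
  have h := hdiv ⟨q, 1⟩ (by
    have e : nrd (1 : Qt a b) = 1 := nrd_one
    rw [Oct.norm, hq, e, mul_one, sub_self])
  have h1 : (1 : Qt a b) = 0 := congrArg Oct.snd h
  have h2 : (1 : K) = 0 := by simpa using congrArg (fun x : Qt a b => x.re) h1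
  exact one_ne_zero h2

theorem aniso_of_division {F : Type} [Field F] {a b c : Fˣ} (hdiv : Division a b c) :
    Aniso a b := by
  intro x hx
  have h := hdiv ⟨x, 0⟩ (by
    have e : nrd (0 : Qt a b) = 0 := by simp [nrd]
    rw [Oct.norm, hx, e, mul_zero, sub_zero])
  exact congrArg Oct.fst h

section up

variable {k K : Type} [Field k] [Field K] [Algebra k K] {a b c : kˣ}

/-- The extension of scalars for quaternions, as a ring homomorphism. -/
def qupH (K : Type) [Field K] [Algebra k K] (a b : kˣ) : Qt a b →+* Qt (up K a) (up K b) where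
  toFun := qup K
  map_one' := qup_one
  map_mul' := qup_mul
  map_zero' := qup_zero
  map_add' := qup_add

/-- The extension of scalars for invertible matrices. -/
def upU (K : Type) [Field K] [Algebra k K] {a b : kˣ} :
    (Matrix (Fin 3) (Fin 3) (Qt a b))ˣ →* (Matrix (Fin 3) (Fin 3) (Qt (up K a) (up K b)))ˣ :=
  Units.map ((qupH K a b).mapMatrix (m := Fin 3)).toMonoidHom

theorem upU_val (m : (Matrix (Fin 3) (Fin 3) (Qt a b))ˣ) :
    (upU K m : Matrix (Fin 3) (Fin 3) (Qt (up K a) (up K b))) =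
      (m : Matrix (Fin 3) (Fin 3) (Qt a b)).map (qup K) := rfl

theorem map_mul_qup {l m n : Type} [Fintype m] (A : Matrix l m (Qt a b))
    (B : Matrix m n (Qt a b)) : (A * B).map (qup K) = A.map (qup K) * B.map (qup K) :=
  Matrix.map_mul (f := qupH K a b)

theorem map_qup_conjTranspose {l m : Type} (A : Matrix l m (Qt a b)) :
    Aᴴ.map (qup K) = (A.map (qup K))ᴴ := by
  apply Matrix.ext
  intro i j
  exact qup_star _

theorem map_qup_dg (g : Fin 3 → kˣ) :
    (dg a b g).map (qup K) = dg (up K a) (up K b) (upG K g) := by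
  apply Matrix.ext
  intro i j
  by_cases h : i = j
  · subst h
    rw [dg, dg, Matrix.map_apply, Matrix.diagonal_apply_eq, Matrix.diagonal_apply_eq]
    exact QuaternionAlgebra.ext rfl (map_zero _) (map_zero _) (map_zero _)
  · rw [dg, dg, Matrix.map_apply, Matrix.diagonal_apply_ne _ h, Matrix.diagonal_apply_ne _ h]
    exact qup_zero

theorem upU_qmap (σ : K ≃ₐ[k] K) (m : (Matrix (Fin 3) (Fin 3) (Qt a b))ˣ) :
    (upU K m : Matrix (Fin 3) (Fin 3) (Qt (up K a) (up K b))).map (qmap σ) = upU K m := by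
  rw [upU_val]
  apply Matrix.ext
  intro i j
  exact qmap_qup σ _

theorem isU_upU (σ : K ≃ₐ[k] K) {g g' : Fin 3 → kˣ} {m : (Matrix (Fin 3) (Fin 3) (Qt a b))ˣ}
    (h : (m : Matrix (Fin 3) (Fin 3) (Qt a b))ᴴ * dg a b g * (m : Matrix (Fin 3) (Fin 3) (Qt a b)) =
      dg a b g') : IsU σ g g' (upU K m : Matrix (Fin 3) (Fin 3) (Qt (up K a) (up K b))) := by
  rw [IsU, upU_qmap, upU_val, ← map_qup_conjTranspose, ← map_qup_dg, ← map_mul_qup,
    ← map_mul_qup, h, map_qup_dg]

theorem mat_aup (x : Alb a b c) : mat (aup K x) = (mat x).map (qup K) := by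
  have h : ∀ t : k, (algebraMap K (Qt (up K a) (up K b)) (algebraMap k K t)) =
      qup K (algebraMap k (Qt a b) t) := by
    intro t
    exact QuaternionAlgebra.ext rfl (map_zero _).symm (map_zero _).symm (map_zero _).symm
  apply Matrix.ext
  intro i j
  fin_cases i <;> fin_cases j <;> simp [mat, aup, oup, qup_star] <;> exact h _

theorem vec_aup (x : Alb a b c) (i : Fin 3) : Alb.vec (aup K x) i = qup K (Alb.vec x i) := by
  fin_cases i <;> rfl

/-- The action of real matrices and extension of scalars. -/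
theorem act_upU [NeZero (2 : K)] [NeZero (2 : k)] (m : (Matrix (Fin 3) (Fin 3) (Qt a b))ˣ)
    (x : Alb a b c) :
    Alb.act (upU K m) 1 (aup K x) = aup K (Alb.act m 1 x) := by
  apply H64.ext_mat_vec
  · rw [H64.mat_act two_ne_zero, mat_aup, mat_aup, H64.mat_act two_ne_zero, map_mul_qup,
      map_mul_qup, upU_val, map_qup_conjTranspose]
  · have hr : ∀ y : Alb a b c, H64.row (Alb.vec (aup K y)) = (H64.row (Alb.vec y)).map (qup K) := by
      intro y
      apply Matrix.ext
      intro i j
      exact vec_aup y j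
    have h1 : (H64.q1 (1 : Qt a b)).map (qup K) = H64.q1 (1 : Qt (up K a) (up K b)) := by
      apply Matrix.ext
      intro i j
      exact qup_one
    rw [H64.row_vec_act, hr, hr, H64.row_vec_act, map_mul_qup, map_mul_qup, h1, ← map_inv, upU_val]

/-- The unitary matrices over the ground field have reduced norm one. -/
theorem nu_upU [NeZero (2 : K)] (hab : Aniso (up K a) (up K b)) (c : kˣ) {g : Fin 3 → kˣ}
    {m : (Matrix (Fin 3) (Fin 3) (Qt a b))ˣ}
    (h : (m : Matrix (Fin 3) (Fin 3) (Qt a b))ᴴ * dg a b g * (m : Matrix (Fin 3) (Fin 3) (Qt a b)) =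
      dg a b g) : nu (upU K m : Matrix (Fin 3) (Fin 3) (Qt (up K a) (up K b))) = 1 := by
  obtain ⟨κ, hκ⟩ := exists_kap hab (upU K m)
  have h1 : (upU K m : Matrix (Fin 3) (Fin 3) (Qt (up K a) (up K b)))ᴴ *
      dg (up K a) (up K b) (upG K g) * (upU K m : Matrix (Fin 3) (Fin 3) (Qt (up K a) (up K b))) =
        dg (up K a) (up K b) (upG K g) := by
    rw [upU_val, ← map_qup_conjTranspose, ← map_qup_dg, ← map_mul_qup, ← map_mul_qup, h]
  have h2 := H64.act_one (c := up K c) two_ne_zero h1 κ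
  have h3 := cub_act hab (upU K m) κ hκ (Alb.one _ _ (up K c) (upG K g))
  rw [h2] at h3
  have h4 : cub (Alb.one (up K a) (up K b) (up K c) (upG K g)) ≠ 0 := by
    rw [cub_one]
    exact inv_ne_zero (gam_ne _)
  exact (mul_right_cancel₀ h4 (by rw [one_mul]; exact h3)).symm

end up

section idem

variable {k K : Type} [Field k] [Field K] [Algebra k K] {σ : K ≃ₐ[k] K} {a b c : kˣ}
  {g : Fin 3 → kˣ} {φ : AlbL K a b c ≃ₗ[K] AlbL K a b c}

/-- The elements of the group that fix the base point preserve the polarised adjoint. -/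
theorem ge_cross [NeZero (2 : K)] (hσ : ∀ t, σ (σ t) = t) (hφ : φ ∈ GE σ a b c g)
    (h1 : φ (Alb.one _ _ _ (upG K g)) = Alb.one _ _ _ (upG K g)) (x y : AlbL K a b c) :
    φ (wt (upG K g)⁻¹ (cross x y)) = wt (upG K g)⁻¹ (cross (φ x) (φ y)) := by
  have hr := ge_real hσ hφ h1
  have e1 := ge_shG hσ hφ hr (x + y)
  have e2 := ge_shG hσ hφ hr x
  have e3 := ge_shG hσ hφ hr y
  simp only [shG] at e1 e2 e3
  rw [adj_add, wt_add, wt_add, smul_add, smul_add, map_add, map_add, e2, e3, map_add, adj_add,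
    wt_add, wt_add, smul_add, smul_add] at e1
  have e4 := add_left_cancel (add_right_cancel e1)
  rw [map_smul] at e4
  exact smul_right_injective _ (gam_ne (upG K g)) e4

/-- The image of the second idempotent lies in the block of the last two indices. -/
theorem block [NeZero (2 : K)] (hσ : ∀ t, σ (σ t) = t) (hφ : φ ∈ GE σ a b c g)
    (h1 : φ (Alb.one _ _ _ (upG K g)) = Alb.one _ _ _ (upG K g)) (he : φ e1 = e1) :
    (φ e2).d1 = 0 ∧ (φ e2).x2 = 0 ∧ (φ e2).x3 = 0 := by
  have h2 : (e2 : AlbL K a b c) = ((upG K g 1 : K) ^ 2) • wt (upG K g)⁻¹ (cross e1 e3) := by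
    have h0 := (upG K g 1).ne_zero
    ext1
    · simp [cross, wt, e1, e2, e3]
    · simp only [cross, wt, e1, e2, e3, d2_smul, Pi.inv_apply, Units.val_inv_eq_inv_val]
      field_simp
      simp
    · simp [cross, wt, e1, e2, e3]
    · simp [cross, wt, e1, e2, e3]
    · simp [cross, wt, e1, e2, e3]
    · simp [cross, wt, e1, e2, e3]
  have h3 : φ e2 = ((upG K g 1 : K) ^ 2) • wt (upG K g)⁻¹ (cross e1 (φ e3)) := by
    conv_lhs => rw [h2]
    rw [map_smul, ge_cross hσ hφ h1, he]
  rw [h3]
  refine ⟨?_, ?_, ?_⟩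
  · simp [cross, wt, e1]
  · simp [cross, wt, e1]
  · simp [cross, wt, e1]

/-- The adjoint of the image of an element with vanishing adjoint. -/
theorem adj_image [NeZero (2 : K)] (hσ : ∀ t, σ (σ t) = t) (hφ : φ ∈ GE σ a b c g)
    (h1 : φ (Alb.one _ _ _ (upG K g)) = Alb.one _ _ _ (upG K g)) {x : AlbL K a b c}
    (hx : adj x = 0) : adj (φ x) = 0 := by
  have e := ge_shG hσ hφ (ge_real hσ hφ h1) x
  simp only [shG] at e
  rw [hx, wt_zero, smul_zero, map_zero] at e
  have e2 := (smul_eq_zero.mp e.symm).resolve_left (gam_ne _)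
  apply wt_injective (upG K g)⁻¹
  rw [e2, wt_zero]

end idem

end Vale.Agent.P011.E6
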