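import Vale.Agent.P011.E6.Ids2

/-!
The hermitian form, elements over the ground field, and the adjoint under the elements of the
group.
-/

open NumberField Topology

namespace Vale.Agent.P011.E6

open Vale.Agent.P011.MPQ Vale.Agent.P011.D4 Vale.Agent.P011.D4.Oct

variable {k K : Type} [Field k] [Field K] [Algebra k K] {a b c : kˣ}

namespace Alb

/-! Elements over the ground field. -/

theorem aup_add (x y : Alb a b c) : aup K (x + y) = aup K x + aup K y := by
  ext1
  · exact map_add _ _ _
  · exact map_add _ _ _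
  · exact map_add _ _ _
  · exact oup_add _ _
  · exact oup_add _ _
  · exact oup_add _ _

theorem aup_smul (t : k) (x : Alb a b c) : aup K (t • x) = algebraMap k K t • aup K x := by
  ext1
  · exact map_mul _ _ _
  · exact map_mul _ _ _
  · exact map_mul _ _ _
  · exact oup_smul _ _
  · exact oup_smul _ _
  · exact oup_smul _ _

@[simp] theorem aup_zero : aup K (0 : Alb a b c) = 0 := by
  have := aup_smul (K := K) (0 : k) (0 : Alb a b c)
  rwa [zero_smul, map_zero, zero_smul] at this

theorem aup_neg (x : Alb a b c) : aup K (-x) = -aup K x := by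
  have := aup_smul (K := K) (-1 : k) x
  rwa [neg_one_smul, map_neg, map_one, neg_one_smul] at this

theorem aup_sub (x y : Alb a b c) : aup K (x - y) = aup K x - aup K y := by
  rw [sub_eq_add_neg, aup_add, aup_neg, sub_eq_add_neg]

theorem qup_injective : Function.Injective (qup K : Qt a b → Qt (up K a) (up K b)) := by
  intro x y h
  apply QuaternionAlgebra.ext
  · exact (algebraMap k K).injective (congrArg QuaternionAlgebra.re h)
  · exact (algebraMap k K).injective (congrArg QuaternionAlgebra.imI h)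
  · exact (algebraMap k K).injective (congrArg QuaternionAlgebra.imJ h)
  · exact (algebraMap k K).injective (congrArg QuaternionAlgebra.imK h)

theorem oup_injective : Function.Injective (oup K : Oct a b c → OctL K a b c) := by
  intro x y h
  ext1
  · exact qup_injective (congrArg Oct.fst h)
  · exact qup_injective (congrArg Oct.snd h)

theorem aup_injective : Function.Injective (aup K : Alb a b c → AlbL K a b c) := by
  intro x y h
  ext1
  · exact (algebraMap k K).injective (congrArg Alb.d1 h)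
  · exact (algebraMap k K).injective (congrArg Alb.d2 h)
  · exact (algebraMap k K).injective (congrArg Alb.d3 h)
  · exact oup_injective (congrArg Alb.x1 h)
  · exact oup_injective (congrArg Alb.x2 h)
  · exact oup_injective (congrArg Alb.x3 h)

theorem cub_aup (x : Alb a b c) : cub (aup K x) = algebraMap k K (cub x) := by
  have h1 : (1 : OctL K a b c) = oup K 1 := oup_one.symm
  simp only [cub, aup]
  rw [h1, ← oup_mul, ← oup_mul, bil_up, norm_oup, norm_oup, norm_oup]
  simp only [map_add, map_sub, map_mul]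

theorem adj_aup (x : Alb a b c) : adj (aup K x) = aup K (adj x) := by
  ext1
  · simp only [adj, aup, norm_oup, map_sub, map_mul]
  · simp only [adj, aup, norm_oup, map_sub, map_mul]
  · simp only [adj, aup, norm_oup, map_sub, map_mul]
  · simp only [adj, aup, oup_sub, oup_smul, oup_star, oup_mul]
  · simp only [adj, aup, oup_sub, oup_smul, oup_star, oup_mul]
  · simp only [adj, aup, oup_sub, oup_smul, oup_star, oup_mul]

theorem tf_aup (x y : Alb a b c) : tf (aup K x) (aup K y) = algebraMap k K (tf x y) := by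
  simp only [tf, aup, bil_up, map_add, map_mul]

theorem cross_aup (x y : Alb a b c) : cross (aup K x) (aup K y) = aup K (cross x y) := by
  ext1
  · simp only [cross, aup, bil_up, map_add, map_sub, map_mul]
  · simp only [cross, aup, bil_up, map_add, map_sub, map_mul]
  · simp only [cross, aup, bil_up, map_add, map_sub, map_mul]
  · simp only [cross, aup, oup_add, oup_sub, oup_smul, oup_star, oup_mul]
  · simp only [cross, aup, oup_add, oup_sub, oup_smul, oup_star, oup_mul]
  · simp only [cross, aup, oup_add, oup_sub, oup_smul, oup_star, oup_mul]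

theorem wt_adj_wt {F : Type} [Field F] {a b c : Fˣ} (g : Fin 3 → Fˣ) (x : Alb a b c) :
    wt g (adj (wt g x)) = gam g ^ 2 • adj x := by
  rw [adj_wt, wt_smul, wt_wt_inv]

theorem val_up (t : kˣ) : (up K t : K) = algebraMap k K t := rfl

theorem wt_aup (g : Fin 3 → kˣ) (x : Alb a b c) : wt (upG K g) (aup K x) = aup K (wt g x) := by
  ext1
  · simp only [wt, aup, upG, map_mul, map_pow, val_up]
  · simp only [wt, aup, upG, map_mul, map_pow, val_up]
  · simp only [wt, aup, upG, map_mul, map_pow, val_up]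
  · simp only [wt, aup, upG, oup_smul, map_mul, val_up]
  · simp only [wt, aup, upG, oup_smul, map_mul, val_up]
  · simp only [wt, aup, upG, oup_smul, map_mul, val_up]

theorem one_aup (g : Fin 3 → kˣ) :
    aup K (one a b c g) = one (up K a) (up K b) (up K c) (upG K g) := by
  ext1
  · simp only [aup, d1_one, map_inv₀, upG, val_up]
  · simp only [aup, d2_one, map_inv₀, upG, val_up]
  · simp only [aup, d3_one, map_inv₀, upG, val_up]
  · simp only [aup, x1_one, oup_zero]
  · simp only [aup, x2_one, oup_zero]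
  · simp only [aup, x3_one, oup_zero]

theorem gam_up (g : Fin 3 → kˣ) : gam (upG K g) = algebraMap k K (gam g) := by
  simp only [gam, upG, map_mul, val_up]

theorem shG_aup (g : Fin 3 → kˣ) (x : Alb a b c) :
    shG (upG K g) (aup K x) = aup K (shG g x) := by
  rw [shG, shG, adj_aup, upG_inv, wt_aup, aup_smul, gam_up]

theorem NG_aup (g : Fin 3 → kˣ) (x : Alb a b c) :
    NG (upG K g) (aup K x) = algebraMap k K (NG g x) := by
  rw [NG, NG, cub_aup, map_mul, gam_up]

theorem tG_aup (g : Fin 3 → kˣ) (x : Alb a b c) :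
    tG (upG K g) (aup K x) = algebraMap k K (tG g x) := by
  simp only [tG, aup, upG, map_add, map_mul, val_up]

variable (σ : K ≃ₐ[k] K)

@[simp] theorem amap_aup (x : Alb a b c) : amap σ (aup K x) = aup K x := by
  ext1
  · exact σ.commutes _
  · exact σ.commutes _
  · exact σ.commutes _
  · exact omap_oup σ _
  · exact omap_oup σ _
  · exact omap_oup σ _

/-- A real element comes from the ground field. -/
theorem exists_aup (hfix : ∀ t : K, σ t = t → ∃ s : k, algebraMap k K s = t)
    {x : AlbL K a b c} (hx : amap σ x = x) : ∃ y : Alb a b c, aup K y = x := by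
  have hq : ∀ {a b : kˣ} {z : Qt (up K a) (up K b)}, qmap σ z = z →
      ∃ w : Qt a b, qup K w = z := by
    intro a b z hz
    obtain ⟨r, hr⟩ := hfix _ (congrArg QuaternionAlgebra.re hz)
    obtain ⟨i, hi⟩ := hfix _ (congrArg QuaternionAlgebra.imI hz)
    obtain ⟨j, hj⟩ := hfix _ (congrArg QuaternionAlgebra.imJ hz)
    obtain ⟨l, hl⟩ := hfix _ (congrArg QuaternionAlgebra.imK hz)
    exact ⟨⟨r, i, j, l⟩, QuaternionAlgebra.ext hr hi hj hl⟩
  have ho : ∀ {z : OctL K a b c}, omap σ z = z → ∃ w : Oct a b c, oup K w = z := by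
    intro z hz
    obtain ⟨u, hu⟩ := hq (congrArg Oct.fst hz)
    obtain ⟨v, hv⟩ := hq (congrArg Oct.snd hz)
    refine ⟨⟨u, v⟩, ?_⟩
    ext1
    · exact hu
    · exact hv
  obtain ⟨r1, hr1⟩ := hfix _ (congrArg Alb.d1 hx)
  obtain ⟨r2, hr2⟩ := hfix _ (congrArg Alb.d2 hx)
  obtain ⟨r3, hr3⟩ := hfix _ (congrArg Alb.d3 hx)
  obtain ⟨y1, hy1⟩ := ho (congrArg Alb.x1 hx)
  obtain ⟨y2, hy2⟩ := ho (congrArg Alb.x2 hx)
  obtain ⟨y3, hy3⟩ := ho (congrArg Alb.x3 hx)
  refine ⟨⟨r1, r2, r3, y1, y2, y3⟩, ?_⟩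
  ext1
  · exact hr1
  · exact hr2
  · exact hr3
  · exact hy1
  · exact hy2
  · exact hy3

end Alb

open Alb

variable (σ : K ≃ₐ[k] K) (g : Fin 3 → kˣ)

/-! The hermitian form. -/

theorem herm_add_left (x y z : AlbL K a b c) :
    herm σ g (x + y) z = herm σ g x z + herm σ g y z := by
  rw [herm, wt_add, tf_add_left, herm, herm]

theorem herm_add_right (x y z : AlbL K a b c) :
    herm σ g x (y + z) = herm σ g x y + herm σ g x z := by
  rw [herm, amap_add, tf_add_right, herm, herm]

theorem herm_smul_left (t : K) (x y : AlbL K a b c) :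
    herm σ g (t • x) y = t * herm σ g x y := by
  rw [herm, wt_smul, tf_smul_left, herm]

theorem herm_smul_right (t : K) (x y : AlbL K a b c) :
    herm σ g x (t • y) = σ t * herm σ g x y := by
  rw [herm, amap_smul, tf_smul_right, herm]

@[simp] theorem herm_zero_left (y : AlbL K a b c) : herm σ g 0 y = 0 := by
  rw [herm, wt_zero, tf_zero_left]

@[simp] theorem herm_zero_right (y : AlbL K a b c) : herm σ g y 0 = 0 := by
  rw [herm, amap_zero, tf_zero_right]

theorem herm_neg_left (x y : AlbL K a b c) : herm σ g (-x) y = -herm σ g x y := by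
  rw [herm, wt_neg, tf_neg_left, herm]

theorem herm_neg_right (x y : AlbL K a b c) : herm σ g x (-y) = -herm σ g x y := by
  rw [herm, amap_neg, tf_neg_right, herm]

theorem herm_sub_left (x y z : AlbL K a b c) :
    herm σ g (x - y) z = herm σ g x z - herm σ g y z := by
  rw [herm, wt_sub, tf_sub_left, herm, herm]

theorem herm_sub_right (x y z : AlbL K a b c) :
    herm σ g x (y - z) = herm σ g x y - herm σ g x z := by
  rw [herm, amap_sub, tf_sub_right, herm, herm]

theorem herm_star (hσ : ∀ t, σ (σ t) = t) (x y : AlbL K a b c) :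
    herm σ g y x = σ (herm σ g x y) := by
  rw [herm, herm, ← tf_amap, amap_amap σ hσ, ← wt_amap, tf_wt, tf_comm]

theorem eq_of_herm [NeZero (2 : K)] {x y : AlbL K a b c}
    (h : ∀ z, herm σ g z x = herm σ g z y) : x = y := by
  apply amap_injective σ
  apply eq_of_tf
  intro z
  have h1 := h (wt (upG K g)⁻¹ z)
  rw [herm, herm, wt_wt_inv, tf_comm, tf_comm z] at h1
  exact h1

/-! The conjugate adjoint. -/

/-- The conjugate of the adjoint: the semiquadratic map which commutes with the elements of the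
group. -/
def cj (σ : K ≃ₐ[k] K) (g : Fin 3 → kˣ) (x : AlbL K a b c) : AlbL K a b c :=
  amap σ (wt (upG K g)⁻¹ (adj x))

theorem herm_cj (hσ : ∀ t, σ (σ t) = t) (x y : AlbL K a b c) :
    herm σ g y (cj σ g x) = tf (adj x) y := by
  rw [herm, cj, amap_amap σ hσ, tf_wt, wt_wt_inv, tf_comm]

variable {σ g}

theorem tf_adj_of_cub {F : Type} [Field F] [NeZero (2 : F)] {a b c a' b' c' : Fˣ}
    {φ : Alb a b c →ₗ[F] Alb a' b' c'} {μ : F} (h : ∀ x, cub (φ x) = μ * cub x)
    (x y : Alb a b c) : tf (adj (φ x)) (φ y) = μ * tf (adj x) y := by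
  have h1 := h (x + y)
  have h2 := h (x - y)
  rw [map_add, cub_add, cub_add, h, h] at h1
  rw [sub_eq_add_neg, map_add, cub_add, cub_add, map_neg, adj_neg, adj_neg, tf_neg_right,
    tf_neg_right, cub_neg, cub_neg, h, h] at h2
  have h4 : (2 : F) ≠ 0 := NeZero.ne 2
  apply mul_left_cancel₀ h4
  linear_combination h1 - h2

/-- The elements of the group commute with the conjugate adjoint. -/
theorem ge_cj [NeZero (2 : K)] (hσ : ∀ t, σ (σ t) = t) {φ : AlbL K a b c ≃ₗ[K] AlbL K a b c}
    (hφ : φ ∈ GE σ a b c g) (x : AlbL K a b c) : φ (E6.cj σ g x) = E6.cj σ g (φ x) := by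
  apply eq_of_herm σ g
  intro z
  obtain ⟨w, rfl⟩ := φ.surjective z
  rw [hφ.2, herm_cj σ g hσ, herm_cj σ g hσ]
  have h := tf_adj_of_cub (φ := φ.toLinearMap) (μ := 1)
    (fun x => by rw [one_mul]; exact hφ.1 x) x w
  rw [one_mul] at h
  exact h.symm

/-- The elements of the group and the adjoint. -/
theorem sh_map [NeZero (2 : K)] {φ : AlbL K a b c ≃ₗ[K] AlbL K a b c} (hφ : φ ∈ GE σ a b c g)
    (hσ : ∀ x, σ (σ x) = x) (x : AlbL K a b c) : ∃ y : AlbL K a b c,
      Alb.wt (upG K g) y = amap σ (Alb.adj x) ∧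
      Alb.wt (upG K g) (φ y) = amap σ (Alb.adj (φ x)) := by
  refine ⟨E6.cj σ g x, ?_, ?_⟩
  · rw [E6.cj, wt_amap, wt_wt_inv]
  · rw [ge_cj hσ hφ, E6.cj, wt_amap, wt_wt_inv]

theorem cj_one : E6.cj σ g (one (up K a) (up K b) (up K c) (upG K g)) =
    (gam (upG K g))⁻¹ • one (up K a) (up K b) (up K c) (upG K g) := by
  rw [E6.cj, adj_one, wt_smul, wt_inv_wt, amap_smul, one_amap, map_inv₀, sigma_gam]

theorem shG_eq (hσ : ∀ t, σ (σ t) = t) (x : AlbL K a b c) :
    shG (upG K g) x = gam (upG K g) • amap σ (E6.cj σ g x) := by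
  rw [E6.cj, amap_amap σ hσ, shG]

/-- An element of the group which is real and fixes the base point preserves the adjoint. -/
theorem ge_shG [NeZero (2 : K)] (hσ : ∀ t, σ (σ t) = t) {φ : AlbL K a b c ≃ₗ[K] AlbL K a b c}
    (hφ : φ ∈ GE σ a b c g) (hr : ∀ x, φ (amap σ x) = amap σ (φ x)) (x : AlbL K a b c) :
    φ (Alb.shG (upG K g) x) = Alb.shG (upG K g) (φ x) := by
  rw [shG_eq (σ := σ) hσ, shG_eq (σ := σ) hσ, map_smul, hr, ge_cj hσ hφ]

/-! Changes of coordinates. -/

section coord

variable {a' b' c' : kˣ} {g' : Fin 3 → kˣ} {ψ : AlbL K a' b' c' ≃ₗ[K] AlbL K a b c}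

theorem coord_cub (h : IsCoord σ g g' ψ) (x : AlbL K a' b' c') :
    cub (ψ x) = (gam (upG K g') / gam (upG K g)) * cub x := by
  obtain ⟨μ, -, h1⟩ := h.cub
  have h2 := h1 (one _ _ _ (upG K g'))
  rw [h.one, cub_one, cub_one] at h2
  have h3 := gam_ne (upG K g)
  have h4 := gam_ne (upG K g')
  have h5 : μ = gam (upG K g') / gam (upG K g) := by
    field_simp at h2 ⊢
    exact h2.symm
  rw [h1, h5]

theorem coord_NG (h : IsCoord σ g g' ψ) (x : AlbL K a' b' c') :
    NG (upG K g) (ψ x) = NG (upG K g') x := by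
  have h3 := gam_ne (upG K g)
  rw [Alb.NG, coord_cub h, Alb.NG]
  field_simp

theorem coord_tf [NeZero (2 : K)] (hσ : ∀ t, σ (σ t) = t) (h : IsCoord σ g g' ψ)
    (x y : AlbL K a' b' c') : tf (wt (upG K g) (ψ x)) (ψ y) = tf (wt (upG K g') x) y := by
  have h1 := h.herm x (amap σ y)
  rw [h.real, herm, herm, amap_amap σ hσ, amap_amap σ hσ] at h1
  exact h1

theorem coord_shG [NeZero (2 : K)] (hσ : ∀ t, σ (σ t) = t) (h : IsCoord σ g g' ψ)
    (x : AlbL K a' b' c') : shG (upG K g) (ψ x) = ψ (shG (upG K g') x) := by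
  apply wt_injective (upG K g)
  apply eq_of_tf
  intro z
  obtain ⟨w, rfl⟩ := ψ.surjective z
  rw [coord_tf hσ h, tf_wt_shG, tf_wt_shG]
  have h1 := tf_adj_of_cub (φ := ψ.toLinearMap) (coord_cub h) x w
  have h3 := gam_ne (upG K g)
  have h2 : tf (adj (ψ x)) (ψ w) = (gam (upG K g') / gam (upG K g)) * tf (adj x) w := h1
  rw [h2]
  field_simp

theorem coord_tG [NeZero (2 : K)] (hσ : ∀ t, σ (σ t) = t) (h : IsCoord σ g g' ψ)
    (x : AlbL K a' b' c') : tG (upG K g) (ψ x) = tG (upG K g') x := by
  rw [← tf_wt_one, ← tf_wt_one, ← h.one, coord_tf hσ h]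

theorem coord_cj [NeZero (2 : K)] (hσ : ∀ t, σ (σ t) = t) (h : IsCoord σ g g' ψ)
    (x : AlbL K a' b' c') : E6.cj σ g (ψ x) =
      (gam (upG K g') / gam (upG K g)) • ψ (E6.cj σ g' x) := by
  have h1 := coord_shG hσ h x
  rw [shG_eq (σ := σ) hσ, shG_eq (σ := σ) hσ, map_smul, h.real] at h1
  have h3 := gam_ne (upG K g)
  have h2 := congrArg (fun z => amap σ ((gam (upG K g))⁻¹ • z)) h1
  simp only [smul_smul, inv_mul_cancel₀ h3, one_smul, amap_smul, map_mul, map_inv₀, sigma_gam,
    amap_amap σ hσ] at h2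
  rw [h2]
  congr 1
  field_simp

end coord

end Vale.Agent.P011.E6
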