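import Vale.Agent.P011.E6.Rel
import Vale.Agent.P011.E6.Herm
import Vale.Agent.P011.D4.Emb

/-!
The elements of the group that fix the diagonal idempotents are given by related triples.
-/

namespace Vale.Agent.P011.E6.Rl

open Vale.Agent.P011.MPQ Vale.Agent.P011.D4 Vale.Agent.P011.D4.Oct Alb

section one

variable {F : Type} [Field F] {a b c : Fˣ}

/-- The action of related triples. -/
def ract (r : Rel a b c) (x : Alb a b c) : Alb a b c :=
  ⟨x.d1, x.d2, x.d3, r.1.1 x.x1, r.1.2.1 x.x2, r.1.2.2 x.x3⟩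

theorem ract_mul (r s : Rel a b c) (x : Alb a b c) : ract (r * s) x = ract r (ract s x) := rfl

theorem ract_one (x : Alb a b c) : ract 1 x = x := rfl

variable [NeZero (2 : F)]

/-- The linear automorphisms that preserve the cubic norm and fix the diagonal idempotents. -/
theorem exists_rel (hdiv : Division a b c) {f : Alb a b c ≃ₗ[F] Alb a b c}
    (hf : ∀ x, cub (f x) = cub x) (h1 : f e1 = e1) (h2 : f e2 = e2) (h3 : f e3 = e3) :
    ∃ r : Rel a b c, ∀ x, f x = ract r x := by
  have hA : ∀ x y, tf (adj (f x)) (f y) = tf (adj x) y := by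
    intro x y
    have := tf_adj_of_cub (φ := f.toLinearMap) (μ := 1)
      (fun x => by rw [one_mul]; exact hf x) x y
    rwa [one_mul] at this
  have q1 : ∀ x, (f x).d2 * (f x).d3 - norm (f x).x1 = x.d2 * x.d3 - norm x.x1 := by
    intro x
    have := hA x e1
    rw [h1] at this
    simpa [tf, e1, adj] using this
  have q2 : ∀ x, (f x).d3 * (f x).d1 - norm (f x).x2 = x.d3 * x.d1 - norm x.x2 := by
    intro x
    have := hA x e2
    rw [h2] at this
    simpa [tf, e2, adj] using this
  have q3 : ∀ x, (f x).d1 * (f x).d2 - norm (f x).x3 = x.d1 * x.d2 - norm x.x3 := by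
    intro x
    have := hA x e3
    rw [h3] at this
    simpa [tf, e3, adj] using this
  have d3 : ∀ x, (f x).d3 = x.d3 := by
    intro x
    have e := q1 (x + e2)
    rw [map_add, h2] at e
    simp only [d2_add, d3_add, x1_add, e2, add_zero] at e
    linear_combination e - q1 x
  have d2 : ∀ x, (f x).d2 = x.d2 := by
    intro x
    have e := q1 (x + e3)
    rw [map_add, h3] at e
    simp only [d2_add, d3_add, x1_add, e3, add_zero] at e
    linear_combination e - q1 x
  have d1 : ∀ x, (f x).d1 = x.d1 := by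
    intro x
    have e := q2 (x + e3)
    rw [map_add, h3] at e
    simp only [d1_add, d3_add, x2_add, e3, add_zero] at e
    linear_combination e - q2 x
  have n1 : ∀ x, norm (f x).x1 = norm x.x1 := by
    intro x
    have := q1 x
    rw [d2, d3] at this
    linear_combination -this
  have n2 : ∀ x, norm (f x).x2 = norm x.x2 := by
    intro x
    have := q2 x
    rw [d1, d3] at this
    linear_combination -this
  have n3 : ∀ x, norm (f x).x3 = norm x.x3 := by
    intro x
    have := q3 x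
    rw [d2, d1] at this
    linear_combination -this
  have z1 : ∀ x, x.x1 = 0 → (f x).x1 = 0 := fun x hx => hdiv _ (by rw [n1, hx, Oct.norm_zero])
  have z2 : ∀ x, x.x2 = 0 → (f x).x2 = 0 := fun x hx => hdiv _ (by rw [n2, hx, Oct.norm_zero])
  have z3 : ∀ x, x.x3 = 0 → (f x).x3 = 0 := fun x hx => hdiv _ (by rw [n3, hx, Oct.norm_zero])
  let t1 : Oct a b c →ₗ[F] Oct a b c :=
    { toFun := fun x => (f ⟨0, 0, 0, x, 0, 0⟩).x1
      map_add' := fun x y => by
        rw [← x1_add, ← map_add]
        congr 2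
        ext1 <;> simp
      map_smul' := fun t x => by
        rw [RingHom.id_apply, ← x1_smul, ← map_smul]
        congr 2
        ext1 <;> simp }
  let t2 : Oct a b c →ₗ[F] Oct a b c :=
    { toFun := fun x => (f ⟨0, 0, 0, 0, x, 0⟩).x2
      map_add' := fun x y => by
        rw [← x2_add, ← map_add]
        congr 2
        ext1 <;> simp
      map_smul' := fun t x => by
        rw [RingHom.id_apply, ← x2_smul, ← map_smul]
        congr 2
        ext1 <;> simp }
  let t3 : Oct a b c →ₗ[F] Oct a b c :=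
    { toFun := fun x => (f ⟨0, 0, 0, 0, 0, x⟩).x3
      map_add' := fun x y => by
        rw [← x3_add, ← map_add]
        congr 2
        ext1 <;> simp
      map_smul' := fun t x => by
        rw [RingHom.id_apply, ← x3_smul, ← map_smul]
        congr 2
        ext1 <;> simp }
  have m1 : ∀ x, norm (t1 x) = norm x := fun x => n1 _
  have m2 : ∀ x, norm (t2 x) = norm x := fun x => n2 _
  have m3 : ∀ x, norm (t3 x) = norm x := fun x => n3 _
  have i1 : Function.Injective t1 := by
    rw [injective_iff_map_eq_zero]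
    intro x hx
    exact hdiv x (by rw [← m1, hx, Oct.norm_zero])
  have i2 : Function.Injective t2 := by
    rw [injective_iff_map_eq_zero]
    intro x hx
    exact hdiv x (by rw [← m2, hx, Oct.norm_zero])
  have i3 : Function.Injective t3 := by
    rw [injective_iff_map_eq_zero]
    intro x hx
    exact hdiv x (by rw [← m3, hx, Oct.norm_zero])
  have p1 : ∀ x, (f x).x1 = t1 x.x1 := by
    intro x
    have e : x = ⟨0, 0, 0, x.x1, 0, 0⟩ + ⟨x.d1, x.d2, x.d3, 0, x.x2, x.x3⟩ := by
      ext1 <;> simp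
    conv_lhs => rw [e, map_add, x1_add, z1 ⟨x.d1, x.d2, x.d3, 0, x.x2, x.x3⟩ rfl, add_zero]
    rfl
  have p2 : ∀ x, (f x).x2 = t2 x.x2 := by
    intro x
    have e : x = ⟨0, 0, 0, 0, x.x2, 0⟩ + ⟨x.d1, x.d2, x.d3, x.x1, 0, x.x3⟩ := by
      ext1 <;> simp
    conv_lhs => rw [e, map_add, x2_add, z2 ⟨x.d1, x.d2, x.d3, x.x1, 0, x.x3⟩ rfl, add_zero]
    rfl
  have p3 : ∀ x, (f x).x3 = t3 x.x3 := by
    intro x
    have e : x = ⟨0, 0, 0, 0, 0, x.x3⟩ + ⟨x.d1, x.d2, x.d3, x.x1, x.x2, 0⟩ := by
      ext1 <;> simp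
    conv_lhs => rw [e, map_add, x3_add, z3 ⟨x.d1, x.d2, x.d3, x.x1, x.x2, 0⟩ rfl, add_zero]
    rfl
  refine ⟨⟨(LinearEquiv.ofInjectiveEndo t1 i1, LinearEquiv.ofInjectiveEndo t2 i2,
    LinearEquiv.ofInjectiveEndo t3 i3), m1, m2, m3, fun x y z => ?_⟩, fun x => ?_⟩
  · change bil (t1 x * t2 y * t3 z) 1 = _
    have e : ∀ w : Alb a b c, w.d1 = 0 → w.d2 = 0 → w.d3 = 0 →
        cub w = bil (w.x1 * w.x2 * w.x3) 1 := by
      intro w w1 w2 w3
      rw [cub, w1, w2, w3]
      ring
    have h4 := hf ⟨0, 0, 0, x, y, z⟩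
    rw [e _ (d1 _) (d2 _) (d3 _), e _ rfl rfl rfl, p1, p2, p3] at h4
    exact h4
  · ext1
    · exact d1 x
    · exact d2 x
    · exact d3 x
    · exact p1 x
    · exact p2 x
    · exact p3 x

end one

section ext

variable {k K : Type} [Field k] [Field K] [Algebra k K] {a b c : kˣ}

theorem extE_bil {f : OE a b c} (hf : ∀ x y, bil (f x) (f y) = bil x y) (x y : OctL K a b c) :
    bil (Em.extE K f x) (Em.extE K f y) = bil x y := by
  induction x using Em.oup_induction with
  | h0 x =>
    induction y using Em.oup_induction with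
    | h0 y => rw [Em.extE_oup, Em.extE_oup, bil_up, hf, bil_up]
    | hadd y z hy hz => rw [map_add, bil_add_right, bil_add_right, hy, hz]
    | hsmul t y hy => rw [map_smul, bil_smul_right, bil_smul_right, hy]
  | hadd x z hx hz => rw [map_add, bil_add_left, bil_add_left, hx, hz]
  | hsmul t x hx => rw [map_smul, bil_smul_left, bil_smul_left, hx]

theorem extE_norm [NeZero (2 : K)] {f : OE a b c} (hf : ∀ x, norm (f x) = norm x)
    (x : OctL K a b c) : norm (Em.extE K f x) = norm x := by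
  have h := extE_bil (K := K) (bil_of_norm hf) x x
  rw [bil_self, bil_self] at h
  exact mul_left_cancel₀ (NeZero.ne 2) h

theorem extE_tri {f g h : OE a b c}
    (H : ∀ x y z, bil (f x * g y * h z) 1 = bil (x * y * z) 1) (x y z : OctL K a b c) :
    bil (Em.extE K f x * Em.extE K g y * Em.extE K h z) 1 = bil (x * y * z) 1 := by
  induction x using Em.oup_induction with
  | h0 x =>
    induction y using Em.oup_induction with
    | h0 y =>
      induction z using Em.oup_induction with
      | h0 z =>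
        rw [Em.extE_oup, Em.extE_oup, Em.extE_oup, ← oup_mul, ← oup_mul, ← oup_mul, ← oup_mul,
          ← oup_one, bil_up, bil_up, H]
      | hadd z w hz hw => rw [map_add, mul_add, mul_add, bil_add_left, bil_add_left, hz, hw]
      | hsmul t z hz =>
        rw [map_smul, mul_smul_oct, mul_smul_oct, bil_smul_left, bil_smul_left, hz]
    | hadd y w hy hw =>
      rw [map_add, mul_add, mul_add, add_mul, add_mul, bil_add_left, bil_add_left, hy, hw]
    | hsmul t y hy =>
      rw [map_smul, mul_smul_oct, mul_smul_oct, smul_mul_oct, smul_mul_oct, bil_smul_left,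
        bil_smul_left, hy]
  | hadd x w hx hw =>
    rw [map_add, add_mul, add_mul, add_mul, add_mul, bil_add_left, bil_add_left, hx, hw]
  | hsmul t x hx =>
    rw [map_smul, smul_mul_oct, smul_mul_oct, smul_mul_oct, smul_mul_oct, bil_smul_left,
      bil_smul_left, hx]

/-- The extension of scalars of a related triple. -/
def rlin (K : Type) [Field K] [Algebra k K] (r : Rel a b c) : AlbL K a b c ≃ₗ[K] AlbL K a b c where
  toFun x := ⟨x.d1, x.d2, x.d3, Em.extE K r.1.1 x.x1, Em.extE K r.1.2.1 x.x2,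
    Em.extE K r.1.2.2 x.x3⟩
  invFun x := ⟨x.d1, x.d2, x.d3, (Em.extE K r.1.1).symm x.x1, (Em.extE K r.1.2.1).symm x.x2,
    (Em.extE K r.1.2.2).symm x.x3⟩
  left_inv x := by simp only [LinearEquiv.symm_apply_apply]
  right_inv x := by simp only [LinearEquiv.apply_symm_apply]
  map_add' x y := by ext1 <;> simp
  map_smul' t x := by ext1 <;> simp

theorem rlin_apply (r : Rel a b c) (x : AlbL K a b c) : rlin K r x =
    ⟨x.d1, x.d2, x.d3, Em.extE K r.1.1 x.x1, Em.extE K r.1.2.1 x.x2,
      Em.extE K r.1.2.2 x.x3⟩ := rfl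

theorem rlin_aup (r : Rel a b c) (x : Alb a b c) : rlin K r (aup K x) = aup K (ract r x) := by
  rw [rlin_apply, ract]
  simp only [aup, Em.extE_oup]

theorem omap_extE (σ : K ≃ₐ[k] K) (f : OE a b c) (x : OctL K a b c) :
    omap σ (Em.extE K f x) = Em.extE K f (omap σ x) := Em.omap_extL σ _ x

/-- The related triples belong to the group. -/
theorem rlin_mem [NeZero (2 : K)] (σ : K ≃ₐ[k] K) (g : Fin 3 → kˣ) (r : Rel a b c) :
    rlin K r ∈ GE σ a b c g := by
  obtain ⟨n1, n2, n3, H⟩ := r.2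
  refine ⟨fun x => ?_, fun x y => ?_⟩
  · rw [rlin_apply]
    simp only [cub]
    rw [extE_norm n1, extE_norm n2, extE_norm n3, extE_tri H]
  · rw [herm, herm, rlin_apply, rlin_apply]
    simp only [tf, wt, amap, omap_extE, bil_smul_left]
    rw [extE_bil (bil_of_norm n1), extE_bil (bil_of_norm n2), extE_bil (bil_of_norm n3)]

/-- Two linear maps that agree on the elements over the ground field agree. -/
theorem alb_unique {M : Type} [AddCommGroup M] [Module K M] {f g : AlbL K a b c →ₗ[K] M}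
    (h : ∀ x : Alb a b c, f (aup K x) = g (aup K x)) : f = g := by
  apply LinearMap.ext
  intro x
  have e : x = x.d1 • aup K e1 + x.d2 • aup K e2 + x.d3 • aup K e3 + ⟨0, 0, 0, x.x1, 0, 0⟩ +
      ⟨0, 0, 0, 0, x.x2, 0⟩ + ⟨0, 0, 0, 0, 0, x.x3⟩ := by
    ext1 <;> simp [aup, e1, e2, e3]
  have k1 : ∀ z : OctL K a b c, f ⟨0, 0, 0, z, 0, 0⟩ = g ⟨0, 0, 0, z, 0, 0⟩ := by
    intro z
    induction z using Em.oup_induction with
    | h0 z =>
      have := h ⟨0, 0, 0, z, 0, 0⟩
      simpa [aup] using this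
    | hadd z w hz hw =>
      have e : (⟨0, 0, 0, z + w, 0, 0⟩ : AlbL K a b c) = ⟨0, 0, 0, z, 0, 0⟩ +
          ⟨0, 0, 0, w, 0, 0⟩ := by
        ext1 <;> simp
      rw [e, map_add, map_add, hz, hw]
    | hsmul t z hz =>
      have e : (⟨0, 0, 0, t • z, 0, 0⟩ : AlbL K a b c) = t • ⟨0, 0, 0, z, 0, 0⟩ := by
        ext1 <;> simp
      rw [e, map_smul, map_smul, hz]
  have k2 : ∀ z : OctL K a b c, f ⟨0, 0, 0, 0, z, 0⟩ = g ⟨0, 0, 0, 0, z, 0⟩ := by
    intro z
    induction z using Em.oup_induction with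
    | h0 z =>
      have := h ⟨0, 0, 0, 0, z, 0⟩
      simpa [aup] using this
    | hadd z w hz hw =>
      have e : (⟨0, 0, 0, 0, z + w, 0⟩ : AlbL K a b c) = ⟨0, 0, 0, 0, z, 0⟩ +
          ⟨0, 0, 0, 0, w, 0⟩ := by
        ext1 <;> simp
      rw [e, map_add, map_add, hz, hw]
    | hsmul t z hz =>
      have e : (⟨0, 0, 0, 0, t • z, 0⟩ : AlbL K a b c) = t • ⟨0, 0, 0, 0, z, 0⟩ := by
        ext1 <;> simp
      rw [e, map_smul, map_smul, hz]
  have k3 : ∀ z : OctL K a b c, f ⟨0, 0, 0, 0, 0, z⟩ = g ⟨0, 0, 0, 0, 0, z⟩ := by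
    intro z
    induction z using Em.oup_induction with
    | h0 z =>
      have := h ⟨0, 0, 0, 0, 0, z⟩
      simpa [aup] using this
    | hadd z w hz hw =>
      have e : (⟨0, 0, 0, 0, 0, z + w⟩ : AlbL K a b c) = ⟨0, 0, 0, 0, 0, z⟩ +
          ⟨0, 0, 0, 0, 0, w⟩ := by
        ext1 <;> simp
      rw [e, map_add, map_add, hz, hw]
    | hsmul t z hz =>
      have e : (⟨0, 0, 0, 0, 0, t • z⟩ : AlbL K a b c) = t • ⟨0, 0, 0, 0, 0, z⟩ := by
        ext1 <;> simp
      rw [e, map_smul, map_smul, hz]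
  rw [e]
  simp only [map_add, map_smul, h, k1, k2, k3]

theorem alb_unique' {a' b' c' : kˣ} {f g : AlbL K a b c ≃ₗ[K] AlbL K a' b' c'}
    (h : ∀ x : Alb a b c, f (aup K x) = g (aup K x)) : f = g :=
  LinearEquiv.toLinearMap_injective (alb_unique h)

end ext

end Vale.Agent.P011.E6.Rl
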