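import Vale.Agent.P011.E6.Twist
import Vale.Agent.P011.E6.GoodQ

/-!
The weights can be made positive at all real places of the quadratic extension.
-/

open NumberField

namespace Vale.Agent.P011.E6

open Vale.Agent.P011.MPQ Vale.Agent.P011.D4 Vale.Agent.P011.D4.Oct

/-- The nontrivial automorphism of a quadratic extension is an involution. -/
theorem sigma_sigma {k K : Type} [Field k] [Field K] [Algebra k K]
    (h2 : Module.finrank k K = 2) {σ : K ≃ₐ[k] K} (hσ : σ ≠ 1) (t : K) : σ (σ t) = t := by
  have hfd : FiniteDimensional k K := Module.finite_of_finrank_pos (by rw [h2]; norm_num)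
  have h1 : σ * σ = 1 := by
    by_contra hne
    let f : Fin 3 → (K ≃ₐ[k] K) := ![1, σ, σ * σ]
    have hf : Function.Injective f := by
      intro i j hij
      fin_cases i <;> fin_cases j <;> first
        | rfl
        | exact absurd hij (fun h => hσ h.symm)
        | exact absurd hij (fun h => hσ h)
        | exact absurd hij (fun h => hne h.symm)
        | exact absurd hij (fun h => hne h)
        | exact absurd hij (fun h => hσ (mul_left_cancel
            (show σ * σ = σ * 1 by rw [mul_one]; exact h.symm)))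
        | exact absurd hij (fun h => hσ (mul_left_cancel
            (show σ * σ = σ * 1 by rw [mul_one]; exact h)))
    have h3 := Fintype.card_le_of_injective f hf
    have h4 : Fintype.card (K ≃ₐ[k] K) ≤ Module.finrank k K := AlgEquiv.card_le
    rw [Fintype.card_fin] at h3
    omega
  exact congrArg (fun f : K ≃ₐ[k] K => f t) h1

theorem exists_delta_tw {k K : Type} [Field k] [Field K] [Algebra k K]
    (h2 : Module.finrank k K = 2) {σ : K ≃ₐ[k] K} (hσ : σ ≠ 1) :
    ∃ δ : K, σ δ = -δ ∧ δ ≠ 0 := by
  have h1 : ∃ x, σ x ≠ x := by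
    by_contra h
    push Not at h
    exact hσ (AlgEquiv.ext h)
  obtain ⟨x, hx⟩ := h1
  refine ⟨x - σ x, ?_, ?_⟩
  · rw [map_sub, sigma_sigma h2 hσ, neg_sub]
  · exact sub_ne_zero.2 (Ne.symm hx)

/-- The norms which make the weights positive. -/
theorem exists_tw1 {k K : Type} [Field k] [Field K] [NumberField K] [Algebra k K]
    {σ : K ≃ₐ[k] K} (hσ2 : ∀ t, σ (σ t) = t) (hfix : ∀ t : K, σ t = t → ∃ s, algebraMap k K s = t)
    {δ : K} (hδ : σ δ = -δ) (hδ0 : δ ≠ 0) (g : kˣ) :
    ∃ (t : Kˣ) (g' : kˣ), algebraMap k K g' = algebraMap k K g * ((t : K) * σ t) ∧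
      ∀ w : K →+* ℝ, 0 < w (algebraMap k K g') := by
  classical
  have hg0 : ∀ w : K →+* ℝ, w (algebraMap k K g) ≠ 0 := fun w h =>
    g.ne_zero (((w.comp (algebraMap k K)).injective) (by rw [map_zero]; exact h))
  let z : (K →+* ℝ) → K := fun w => if 0 < w (algebraMap k K g) then 1 else δ
  have hz0 : ∀ w : K →+* ℝ, w (z w) ≠ 0 := by
    intro w
    simp only [z]
    split_ifs
    · rw [map_one]; exact one_ne_zero
    · exact fun h => hδ0 (w.injective (by rw [h, map_zero]))
  obtain ⟨f, hf⟩ := real_approx z (fun w => |w (z w)|) (fun w => abs_pos.2 (hz0 w))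
  -- the sign of `f` at a real place
  have hs : ∀ w : K →+* ℝ, 0 < w f * w (z w) := by
    intro w
    have h1 := hf w
    rcases lt_or_gt_of_ne (hz0 w) with h | h
    · rw [abs_of_neg h] at h1
      have h3 := (abs_lt.1 h1).2
      exact mul_pos_of_neg_of_neg (by linarith) h
    · rw [abs_of_pos h] at h1
      have h3 := (abs_lt.1 h1).1
      exact mul_pos (by linarith) h
  -- a unit
  obtain ⟨t, ht⟩ : ∃ t : Kˣ, ∀ w : K →+* ℝ, 0 < w t * w (z w) := by
    by_cases h0 : f = 0
    · refine ⟨1, fun w => ?_⟩
      have := hs w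
      rw [h0, map_zero, zero_mul] at this
      exact absurd this (lt_irrefl _)
    · exact ⟨Units.mk0 f h0, hs⟩
  have hne : (t : K) * σ t ≠ 0 := mul_ne_zero t.ne_zero (by simp)
  obtain ⟨n, hn⟩ := hfix ((t : K) * σ t) (by rw [map_mul, hσ2, mul_comm])
  have hn0 : n ≠ 0 := by
    rintro rfl
    rw [map_zero] at hn
    exact hne hn.symm
  refine ⟨t, g * Units.mk0 n hn0, ?_, fun w => ?_⟩
  · rw [Units.val_mul, map_mul, Units.val_mk0, hn]
  · rw [Units.val_mul, map_mul, Units.val_mk0, hn, map_mul, map_mul]
    have h1 := ht w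
    have h2 : 0 < w (σ t) * w (σ (z w)) := by
      have h3 := ht (w.comp (σ : K →+* K))
      have h4 : z (w.comp (σ : K →+* K)) = z w := by
        simp only [z]
        have h5 : (w.comp (σ : K →+* K)) (algebraMap k K g) = w (algebraMap k K g) :=
          congrArg w (σ.commutes _)
        rw [h5]
      rw [h4] at h3
      exact h3
    by_cases hp : 0 < w (algebraMap k K g)
    · have h5 : z w = 1 := if_pos hp
      rw [h5, map_one, mul_one] at h1
      rw [h5, map_one, map_one, mul_one] at h2
      exact mul_pos hp (mul_pos h1 h2)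
    · have h5 : z w = δ := if_neg hp
      rw [h5] at h1
      rw [h5, hδ, map_neg, mul_neg] at h2
      have h6 : w (algebraMap k K g) < 0 := lt_of_le_of_ne (not_lt.1 hp) (hg0 w)
      have h7 : w t * w (σ t) < 0 := by
        have h8 : 0 < -((w t * w (σ t)) * (w δ) ^ 2) := by
          have := mul_pos h1 h2
          linarith
        have h9 : 0 < (w δ) ^ 2 := by
          have : w δ ≠ 0 := fun h => hδ0 (w.injective (by rw [h, map_zero]))
          positivity
        by_contra hcon
        push Not at hcon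
        have := mul_nonneg hcon h9.le
        linarith
      exact mul_pos_of_neg_of_neg h6 h7

/-- The weights can be made positive at all real places of the quadratic extension. -/
theorem exists_tw {k K : Type} [Field k] [Field K] [NumberField K] [Algebra k K]
    {σ : K ≃ₐ[k] K} (hσ2 : ∀ t, σ (σ t) = t) (hfix : ∀ t : K, σ t = t → ∃ s, algebraMap k K s = t)
    {δ : K} (hδ : σ δ = -δ) (hδ0 : δ ≠ 0) (g : Fin 3 → kˣ) :
    ∃ (t : Fin 3 → Kˣ) (g' : Fin 3 → kˣ),
      (∀ i, algebraMap k K (g' i) = algebraMap k K (g i) * ((t i : K) * σ (t i))) ∧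
      ∀ (w : K →+* ℝ) (i : Fin 3), 0 < w (algebraMap k K (g' i)) := by
  choose t g' h1 h2 using fun i => exists_tw1 hσ2 hfix hδ hδ0 (g i)
  exact ⟨t, g', h1, fun w i => h2 i w⟩

end Vale.Agent.P011.E6
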