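import Vale.Agent.P011.E6.Rel3
import Vale.Agent.P011.E6.Rel4
import Vale.Agent.P011.E6.FixA
import Vale.Agent.P011.E6.FixB
import Vale.Agent.P011.E6.Five
import Vale.Agent.P011.E6.Tw

/-!
The elements of the group that fix the diagonal idempotents belong to every normal subgroup that
contains the special unitary groups.
-/

open NumberField Matrix

namespace Vale.Agent.P011.E6

open Vale.Agent.P011.MPQ Vale.Agent.P011.D4 Vale.Agent.P011.D4.Oct Alb

namespace Rl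

section diag

variable {F : Type} [Field F] {a b c : Fˣ}

/-- The diagonal matrices. -/
def diagU (u : Fin 3 → SL1 a b) : (Matrix (Fin 3) (Fin 3) (Qt a b))ˣ where
  val := Matrix.diagonal fun i => ((u i : (Qt a b)ˣ) : Qt a b)
  inv := Matrix.diagonal fun i => (((u i : (Qt a b)ˣ)⁻¹ : (Qt a b)ˣ) : Qt a b)
  val_inv := by
    rw [diagonal_mul_diagonal, ← diagonal_one]
    congr 1
    funext i
    exact Units.mul_inv _
  inv_val := by
    rw [diagonal_mul_diagonal, ← diagonal_one]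
    congr 1
    funext i
    exact Units.inv_mul _

theorem SL1_mul_coe (t : SL1 a b) (s : F) : ((t : (Qt a b)ˣ) : Qt a b) * algebraMap F (Qt a b) s *
    star ((t : (Qt a b)ˣ) : Qt a b) = algebraMap F (Qt a b) s := by
  rw [← Algebra.commutes, mul_assoc, ← SL1_inv, Units.mul_inv, mul_one]

theorem act_diagU (u : Fin 3 → SL1 a b) (x : Alb a b c) :
    act (diagU u) 1 x = ⟨x.d1, x.d2, x.d3,
      mulE c (u 1 : (Qt a b)ˣ) (u 2 : (Qt a b)ˣ)⁻¹ 1 (u 0 : (Qt a b)ˣ)⁻¹ x.x1,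
      mulE c (u 2 : (Qt a b)ˣ) (u 0 : (Qt a b)ˣ)⁻¹ 1 (u 1 : (Qt a b)ˣ)⁻¹ x.x2,
      mulE c (u 0 : (Qt a b)ˣ) (u 1 : (Qt a b)ˣ)⁻¹ 1 (u 2 : (Qt a b)ˣ)⁻¹ x.x3⟩ := by
  unfold act
  have hinv : (((diagU u)⁻¹ : (Matrix (Fin 3) (Fin 3) (Qt a b))ˣ) :
      Matrix (Fin 3) (Fin 3) (Qt a b)) =
        diagonal fun i => (((u i : (Qt a b)ˣ)⁻¹ : (Qt a b)ˣ) : Qt a b) := rfl
  have hval : ((diagU u : (Matrix (Fin 3) (Fin 3) (Qt a b))ˣ) :
      Matrix (Fin 3) (Fin 3) (Qt a b)) = diagonal fun i => ((u i : (Qt a b)ˣ) : Qt a b) := rfl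
  rw [hinv, hval]
  set d : Fin 3 → Qt a b := fun i => ((u i : (Qt a b)ˣ) : Qt a b) with hd
  have hS : ∀ i j, (diagonal d * mat x * (diagonal d).conjTranspose) i j =
      d i * mat x i j * star (d j) := by
    intro i j
    rw [diagonal_conjTranspose, mul_diagonal, diagonal_mul]
    rfl
  have hst : ∀ i, star (d i) = (((u i : (Qt a b)ˣ)⁻¹ : (Qt a b)ˣ) : Qt a b) := fun i =>
    (SL1_inv (u i)).symm
  apply Alb.ext
  · change ((diagonal d * mat x * (diagonal d).conjTranspose) 0 0).re = x.d1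
    rw [hS]
    change (d 0 * algebraMap F (Qt a b) x.d1 * star (d 0)).re = x.d1
    rw [hd, SL1_mul_coe]
    rfl
  · change ((diagonal d * mat x * (diagonal d).conjTranspose) 1 1).re = x.d2
    rw [hS]
    change (d 1 * algebraMap F (Qt a b) x.d2 * star (d 1)).re = x.d2
    rw [hd, SL1_mul_coe]
    rfl
  · change ((diagonal d * mat x * (diagonal d).conjTranspose) 2 2).re = x.d3
    rw [hS]
    change (d 2 * algebraMap F (Qt a b) x.d3 * star (d 2)).re = x.d3
    rw [hd, SL1_mul_coe]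
    rfl
  · apply Oct.ext
    · change (diagonal d * mat x * (diagonal d).conjTranspose) 1 2 = _
      rw [hS, hst]
      rfl
    · change (1 : Qt a b) * Matrix.vecMul (vec x)
        (diagonal fun i => (((u i : (Qt a b)ˣ)⁻¹ : (Qt a b)ˣ) : Qt a b)) 0 = _
      rw [vecMul_diagonal, one_mul, snd_mulE, Units.val_one, one_mul]
      rfl
  · apply Oct.ext
    · change (diagonal d * mat x * (diagonal d).conjTranspose) 2 0 = _
      rw [hS, hst]
      rfl
    · change (1 : Qt a b) * Matrix.vecMul (vec x)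
        (diagonal fun i => (((u i : (Qt a b)ˣ)⁻¹ : (Qt a b)ˣ) : Qt a b)) 1 = _
      rw [vecMul_diagonal, one_mul, snd_mulE, Units.val_one, one_mul]
      rfl
  · apply Oct.ext
    · change (diagonal d * mat x * (diagonal d).conjTranspose) 0 1 = _
      rw [hS, hst]
      rfl
    · change (1 : Qt a b) * Matrix.vecMul (vec x)
        (diagonal fun i => (((u i : (Qt a b)ˣ)⁻¹ : (Qt a b)ˣ) : Qt a b)) 2 = _
      rw [vecMul_diagonal, one_mul, snd_mulE, Units.val_one, one_mul]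
      rfl

theorem unitary_diagU (u : Fin 3 → SL1 a b) (g : Fin 3 → Fˣ) :
    (diagU u : Matrix (Fin 3) (Fin 3) (Qt a b)).conjTranspose * dg a b g *
      (diagU u : Matrix (Fin 3) (Fin 3) (Qt a b)) = dg a b g := by
  have hval : ((diagU u : (Matrix (Fin 3) (Fin 3) (Qt a b))ˣ) :
      Matrix (Fin 3) (Fin 3) (Qt a b)) = diagonal fun i => ((u i : (Qt a b)ˣ) : Qt a b) := rfl
  rw [hval, dg, diagonal_conjTranspose, diagonal_mul_diagonal, diagonal_mul_diagonal]
  congr 1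
  funext i
  change star ((u i : (Qt a b)ˣ) : Qt a b) * algebraMap F (Qt a b) (g i) *
    ((u i : (Qt a b)ˣ) : Qt a b) = _
  rw [← Algebra.commutes, mul_assoc, ← SL1_inv, Units.inv_mul, mul_one]

theorem ract_A1 (t : SL1 a b) (x : Alb a b c) :
    act (diagU ![t⁻¹, 1, 1]) 1 x = ract (A1 c t) x := by
  rw [act_diagU]
  apply Alb.ext
  · rfl
  · rfl
  · rfl
  · change mulE c (1 : (Qt a b)ˣ) (1 : (Qt a b)ˣ)⁻¹ 1 (((t⁻¹ : SL1 a b) : (Qt a b)ˣ))⁻¹ x.x1 =
      mulE c 1 1 1 t x.x1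
    rw [inv_one, Subgroup.coe_inv, inv_inv]
  · change mulE c (1 : (Qt a b)ˣ) (((t⁻¹ : SL1 a b) : (Qt a b)ˣ))⁻¹ 1 (1 : (Qt a b)ˣ)⁻¹ x.x2 =
      mulE c 1 t 1 1 x.x2
    rw [inv_one, Subgroup.coe_inv, inv_inv]
  · change mulE c ((t⁻¹ : SL1 a b) : (Qt a b)ˣ) (1 : (Qt a b)ˣ)⁻¹ 1 (1 : (Qt a b)ˣ)⁻¹ x.x3 =
      mulE c t⁻¹ 1 1 1 x.x3
    rw [inv_one, Subgroup.coe_inv]

theorem ract_A2 (t : SL1 a b) (x : Alb a b c) :
    act (diagU ![1, t⁻¹, 1]) 1 x = ract (A2 c t) x := by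
  rw [act_diagU]
  apply Alb.ext
  · rfl
  · rfl
  · rfl
  · change mulE c ((t⁻¹ : SL1 a b) : (Qt a b)ˣ) (1 : (Qt a b)ˣ)⁻¹ 1 (1 : (Qt a b)ˣ)⁻¹ x.x1 =
      mulE c t⁻¹ 1 1 1 x.x1
    rw [inv_one, Subgroup.coe_inv]
  · change mulE c (1 : (Qt a b)ˣ) (1 : (Qt a b)ˣ)⁻¹ 1 (((t⁻¹ : SL1 a b) : (Qt a b)ˣ))⁻¹ x.x2 =
      mulE c 1 1 1 t x.x2
    rw [inv_one, Subgroup.coe_inv, inv_inv]
  · change mulE c (1 : (Qt a b)ˣ) (((t⁻¹ : SL1 a b) : (Qt a b)ˣ))⁻¹ 1 (1 : (Qt a b)ˣ)⁻¹ x.x3 =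
      mulE c 1 t 1 1 x.x3
    rw [inv_one, Subgroup.coe_inv, inv_inv]

/-- A multiplicative isomorphism is given by a basic triple. -/
theorem hom_emb {a' b' c' : Fˣ} {Φ : Oct a' b' c' ≃ₗ[F] Oct a b c}
    (hΦ : ∀ x y, Φ (x * y) = Φ x * Φ y) (x : Oct a' b' c') :
    Φ x = emb (Φ gi) (Φ gj) (Φ gl) x := by
  conv_lhs => rw [eq_gen x]
  simp only [map_add, map_smul, hΦ, hom_one hΦ]
  rfl

end diag

section main

variable {k K : Type} [Field k] [Field K] [Algebra k K] {a b c : kˣ}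

/-- The embedding of the related triples. -/
def rhom (K : Type) [Field K] [Algebra k K] (a b c : kˣ) :
    Rel a b c →* (AlbL K a b c ≃ₗ[K] AlbL K a b c) where
  toFun := rlin K
  map_one' := alb_unique' fun x => by
    rw [rlin_aup, ract_one]
    rfl
  map_mul' r s := alb_unique' fun x => by
    rw [rlin_aup, ract_mul, LinearEquiv.mul_apply, rlin_aup, rlin_aup]

theorem division_down (hdiv : Division (up K a) (up K b) (up K c)) : Division a b c := by
  intro x hx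
  have h := hdiv (oup K x) (by rw [norm_oup, hx, map_zero])
  apply oup_injective (K := K)
  rw [h, oup_zero]

variable [NeZero (2 : k)] [NeZero (2 : K)] {σ : K ≃ₐ[k] K} {g : Fin 3 → kˣ}

/-- The special unitary groups contain the root subgroups. -/
theorem hasR_comap (hdiv : Division (up K a) (up K b) (up K c))
    {N : Subgroup (AlbL K a b c ≃ₗ[K] AlbL K a b c)} (hA : HasA σ g N) :
    HasR (N.comap (rhom K a b c)) := by
  intro a' b' c' Φ hΦ t
  have ht : Trip a' b' c' (Φ gi) (Φ gj) (Φ gl) := trip_map trip_std hΦ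
  have hdiv' : Division (up K a') (up K b') (up K c') := by
    intro x hx
    have h := hdiv (tripO K ht x) (by rw [hom_norm (tripO_mul ht), hx])
    apply (tripO K ht).injective
    rw [h, map_zero]
  have hq : Aniso (up K a') (up K b') := hdiv'.aniso
  have key : ∀ (u : Fin 3 → SL1 a' b') (r : Rel a' b' c'),
      (∀ x : Alb a' b' c', act (diagU u) 1 x = ract r x) →
        conjR Φ hΦ r ∈ N.comap (rhom K a b c) := by
    intro u r hr
    change rlin K (conjR Φ hΦ r) ∈ N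
    have hm := unitary_diagU u g
    refine hA a' b' c' g (tripA K ht) (Reach.trip Reach.refl ht _ fun x => tripA_apply ht x)
      (upU K (diagU u)) (isU_upU σ hm) (nu_upU hq c' hm) _ fun x => ?_
    have h2 : (tripA K ht).trans (rlin K (conjR Φ hΦ r)) =
        (H64.actL (two_ne_zero (α := K)) (upU K (diagU u)) 1).trans (tripA K ht) := by
      apply alb_unique'
      intro x
      rw [LinearEquiv.trans_apply, LinearEquiv.trans_apply, H64.actL_apply, Units.val_one,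
        act_upU, hr, tripA_aup, tripA_aup, rlin_aup]
      congr 1
      have e : ∀ y, emb (Φ gi) (Φ gj) (Φ gl) y = Φ y := fun y => (hom_emb hΦ y).symm
      apply Alb.ext
      · rfl
      · rfl
      · rfl
      · change Φ (r.1.1 (Φ.symm (emb (Φ gi) (Φ gj) (Φ gl) x.x1))) =
          emb (Φ gi) (Φ gj) (Φ gl) (r.1.1 x.x1)
        rw [e, e, Φ.symm_apply_apply]
      · change Φ (r.1.2.1 (Φ.symm (emb (Φ gi) (Φ gj) (Φ gl) x.x2))) =
          emb (Φ gi) (Φ gj) (Φ gl) (r.1.2.1 x.x2)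
        rw [e, e, Φ.symm_apply_apply]
      · change Φ (r.1.2.2 (Φ.symm (emb (Φ gi) (Φ gj) (Φ gl) x.x3))) =
          emb (Φ gi) (Φ gj) (Φ gl) (r.1.2.2 x.x3)
        rw [e, e, Φ.symm_apply_apply]
    have h3 := congrArg (fun f : AlbL K a' b' c' ≃ₗ[K] AlbL K a b c => f x) h2
    simp only [LinearEquiv.trans_apply, H64.actL_apply, Units.val_one] at h3
    exact h3
  exact ⟨key _ _ (ract_A1 t), key _ _ (ract_A2 t)⟩

end main

end Rl

section final

variable {k K : Type} [Field k] [NumberField k] [Field K] [NumberField K] [Algebra k K]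
  (h2 : Module.finrank k K = 2) {σ : K ≃ₐ[k] K} (hσ : σ ≠ 1) {a b c : kˣ} {g : Fin 3 → kˣ}
  (hdiv : Division (up K a) (up K b) (up K c))
  (N : Subgroup (AlbL K a b c ≃ₗ[K] AlbL K a b c))
  (hN : ∀ φ ∈ GE σ a b c g, ∀ n ∈ N, φ * n * φ⁻¹ ∈ N) (hA : HasA σ g N)

include h2 hσ hdiv in
/-- The elements of the group that fix the base point and two diagonal idempotents are given by
related triples over the ground field. -/
theorem exists_rel_of_fix {φ : AlbL K a b c ≃ₗ[K] AlbL K a b c} (hφ : φ ∈ GE σ a b c g)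
    (h0 : φ (Alb.one _ _ _ (upG K g)) = Alb.one _ _ _ (upG K g))
    (h1 : φ Alb.e1 = Alb.e1) (h2' : φ Alb.e2 = Alb.e2) :
    ∃ r : Rl.Rel a b c, φ = Rl.rlin K r := by
  obtain ⟨δ, hδ, hδ0⟩ := exists_delta_tw h2 hσ
  have hfix : ∀ t : K, σ t = t → ∃ s : k, algebraMap k K s = t := Five.exists_fix h2 hδ hδ0
  have hσ2 := sigma_sigma h2 hσ
  obtain ⟨f, hf⟩ := descend hfix (ge_real hσ2 hφ h0)
  have hc := cub_descend (K := K) hφ.1 hf
  have f1 : f e1 = e1 := by
    apply aup_injective (K := K)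
    rw [hf]
    have e : aup K (e1 : Alb a b c) = e1 := by
      apply Alb.ext <;> simp [aup, e1]
    rw [e, h1]
  have f2 : f e2 = e2 := by
    apply aup_injective (K := K)
    rw [hf]
    have e : aup K (e2 : Alb a b c) = e2 := by
      apply Alb.ext <;> simp [aup, e2]
    rw [e, h2']
  have f0 : f (one a b c g) = one a b c g := by
    apply aup_injective (K := K)
    rw [hf, one_aup, h0]
  have f3 : f e3 = e3 := by
    have e : (e3 : Alb a b c) = (g 2 : k) • (one a b c g - ((g 0 : k)⁻¹ • e1 + (g 1 : k)⁻¹ • e2)) := by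
      apply Alb.ext <;> simp [e1, e2, e3]
    rw [e, map_smul, map_sub, map_add, map_smul, map_smul, f0, f1, f2]
  obtain ⟨r, hr⟩ := Rl.exists_rel (Rl.division_down hdiv) hc f1 f2 f3
  refine ⟨r, Rl.alb_unique' fun x => ?_⟩
  rw [← hf, hr, Rl.rlin_aup]

include h2 hσ hdiv hN hA in
/-- (E9) The elements of the group that fix the diagonal idempotents. -/
theorem mem_of_fix' {φ : AlbL K a b c ≃ₗ[K] AlbL K a b c} (hφ : φ ∈ GE σ a b c g)
    (h0 : φ (Alb.one _ _ _ (upG K g)) = Alb.one _ _ _ (upG K g))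
    (h1 : φ Alb.e1 = Alb.e1) (h2' : φ Alb.e2 = Alb.e2) : φ ∈ N := by
  obtain ⟨r, rfl⟩ := exists_rel_of_fix h2 hσ hdiv hφ h0 h1 h2'
  have hn : (N.comap (Rl.rhom K a b c)).Normal := by
    refine ⟨fun n hn s => ?_⟩
    change Rl.rhom K a b c (s * n * s⁻¹) ∈ N
    rw [map_mul, map_mul, map_inv]
    exact hN _ (Rl.rlin_mem σ g s) _ hn
  have htop := Rl.rel_top (Rl.division_down hdiv) hn (Rl.hasR_comap hdiv hA)
  have h3 : r ∈ N.comap (Rl.rhom K a b c) := by
    rw [htop]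
    exact Subgroup.mem_top r
  exact h3

end final

/-- (E9) The elements of the group that fix the diagonal idempotents. -/
theorem mem_of_fix {k K : Type} [Field k] [NumberField k] [Field K] [NumberField K] [Algebra k K]
    (h2 : Module.finrank k K = 2) {σ : K ≃ₐ[k] K} (hσ : σ ≠ 1) {a b c : kˣ} {g : Fin 3 → kˣ}
    (hdiv : Division (up K a) (up K b) (up K c))
    (_hanis : ∀ x : AlbL K a b c, herm σ g x x = 0 → x = 0)
    (_hpos : ∀ w : K →+* ℝ, Dfn (w.comp (algebraMap k K)) a b c →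
      ∀ i, 0 < w (algebraMap k K (g i)))
    (N : Subgroup (AlbL K a b c ≃ₗ[K] AlbL K a b c)) (_hNle : N ≤ GE σ a b c g)
    (hN : ∀ φ ∈ GE σ a b c g, ∀ n ∈ N, φ * n * φ⁻¹ ∈ N) (hA : HasA σ g N)
    {φ : AlbL K a b c ≃ₗ[K] AlbL K a b c} (hφ : φ ∈ GE σ a b c g)
    (h0 : φ (Alb.one _ _ _ (upG K g)) = Alb.one _ _ _ (upG K g))
    (h1 : φ Alb.e1 = Alb.e1) (h2 : φ Alb.e2 = Alb.e2) : φ ∈ N :=
  mem_of_fix' ‹_› hσ hdiv N hN hA hφ h0 h1 h2

end Vale.Agent.P011.E6
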