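import Vale.Agent.P011.E6.Spread0

/-!
A normal subgroup that meets one special unitary group over a quaternion subalgebra in an element
that is not a scalar contains all of them.
-/

open Matrix

namespace Vale.Agent.P011.E6

open Vale.Agent.P011.MPQ Vale.Agent.P011.D4 Vale.Agent.P011.D4.Oct Alb

section trip

theorem conj_v {R : Type} [Ring R] [StarRing R] (A B C D : R) (S : Matrix (Fin 3) (Fin 3) R) :
    (!![A, B, 0; C, D, 0; 0, 0, 1] * S * (!![A, B, 0; C, D, 0; 0, 0, 1] :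
      Matrix (Fin 3) (Fin 3) R).conjTranspose) =
    !![(A * S 0 0 + B * S 1 0) * star A + (A * S 0 1 + B * S 1 1) * star B,
       (A * S 0 0 + B * S 1 0) * star C + (A * S 0 1 + B * S 1 1) * star D,
       A * S 0 2 + B * S 1 2;
       (C * S 0 0 + D * S 1 0) * star A + (C * S 0 1 + D * S 1 1) * star B,
       (C * S 0 0 + D * S 1 0) * star C + (C * S 0 1 + D * S 1 1) * star D,
       C * S 0 2 + D * S 1 2;
       S 2 0 * star A + S 2 1 * star B, S 2 0 * star C + S 2 1 * star D, S 2 2] := by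
  apply Matrix.ext
  intro i j
  fin_cases i <;> fin_cases j <;>
    simp [Matrix.mul_apply, vecMul, dotProduct, Fin.sum_univ_three]

variable {F : Type} [Field F] {a b c : Fˣ}

theorem act_v01 {α β γ δ : F} (h : α * δ - β * γ = 1) (x : Alb a b c) :
    act (kq a b (v01 α β γ δ h)) 1 x =
      ⟨α ^ 2 * x.d1 + α * β * bil x.x3 1 + β ^ 2 * x.d2,
        γ ^ 2 * x.d1 + γ * δ * bil x.x3 1 + δ ^ 2 * x.d2, x.d3,
        γ • star x.x2 + δ • x.x1, α • x.x2 + β • star x.x1,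
        (α * γ * x.d1) • 1 + (α * δ) • x.x3 + (β * γ) • star x.x3 + (β * δ * x.d2) • 1⟩ := by
  have hval : (kq a b (v01 α β γ δ h) : Matrix (Fin 3) (Fin 3) (Qt a b)) =
      !![algebraMap F _ α, algebraMap F _ β, 0; algebraMap F _ γ, algebraMap F _ δ, 0; 0, 0, 1] := by
    rw [kq_val]
    apply Matrix.ext
    intro i j
    fin_cases i <;> fin_cases j <;> simp [v01]
  have hinv : (((kq a b (v01 α β γ δ h))⁻¹ : (Matrix (Fin 3) (Fin 3) (Qt a b))ˣ) :
      Matrix (Fin 3) (Fin 3) (Qt a b)) =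
      !![algebraMap F _ δ, -algebraMap F _ β, 0; -algebraMap F _ γ, algebraMap F _ α, 0;
        0, 0, 1] := by
    rw [← map_inv, kq_val]
    change (!![δ, -β, 0; -γ, α, 0; 0, 0, 1] : Matrix (Fin 3) (Fin 3) F).map _ = _
    apply Matrix.ext
    intro i j
    fin_cases i <;> fin_cases j <;> simp
  have hv : ∀ i, (1 : Qt a b) * vecMul (Alb.vec x) !![algebraMap F _ δ, -algebraMap F _ β, 0;
      -algebraMap F _ γ, algebraMap F _ α, 0; 0, 0, 1] i =
      ![δ • x.x1.snd - γ • x.x2.snd, α • x.x2.snd - β • x.x1.snd, x.x3.snd] i := by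
    intro i
    rw [one_mul]
    fin_cases i
    · change x.x1.snd * algebraMap F _ δ + (x.x2.snd * -algebraMap F _ γ + (x.x3.snd * 0 + 0)) =
        δ • x.x1.snd - γ • x.x2.snd
      rw [mul_zero, mul_neg, ← Algebra.commutes, ← Algebra.commutes, ← Algebra.smul_def,
        ← Algebra.smul_def]
      abel
    · change x.x1.snd * -algebraMap F _ β + (x.x2.snd * algebraMap F _ α + (x.x3.snd * 0 + 0)) =
        α • x.x2.snd - β • x.x1.snd
      rw [mul_zero, mul_neg, ← Algebra.commutes, ← Algebra.commutes, ← Algebra.smul_def,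
        ← Algebra.smul_def]
      abel
    · change x.x1.snd * 0 + (x.x2.snd * 0 + (x.x3.snd * 1 + 0)) = x.x3.snd
      simp
  unfold act
  rw [hval, hinv, conj_v]
  simp only [hv]
  have hS : Alb.mat x = !![algebraMap F _ x.d1, x.x3.fst, star x.x2.fst;
     star x.x3.fst, algebraMap F _ x.d2, x.x1.fst;
     x.x2.fst, star x.x1.fst, algebraMap F _ x.d3] := rfl
  generalize Alb.mat x = S at hS
  have s00 : S 0 0 = algebraMap F _ x.d1 := by rw [hS]; rfl
  have s01 : S 0 1 = x.x3.fst := by rw [hS]; rfl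
  have s02 : S 0 2 = star x.x2.fst := by rw [hS]; rfl
  have s10 : S 1 0 = star x.x3.fst := by rw [hS]; rfl
  have s11 : S 1 1 = algebraMap F _ x.d2 := by rw [hS]; rfl
  have s12 : S 1 2 = x.x1.fst := by rw [hS]; rfl
  have s20 : S 2 0 = x.x2.fst := by rw [hS]; rfl
  have s21 : S 2 1 = star x.x1.fst := by rw [hS]; rfl
  have s22 : S 2 2 = algebraMap F _ x.d3 := by rw [hS]; rfl
  rw [s00, s01, s02, s10, s11, s12, s20, s21, s22]
  simp only [star_alg]
  apply Alb.ext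
  · change ((algebraMap F _ α * algebraMap F _ x.d1 + algebraMap F _ β * star x.x3.fst) *
      algebraMap F _ α + (algebraMap F _ α * x.x3.fst + algebraMap F _ β * algebraMap F _ x.d2) *
      algebraMap F _ β : Qt a b).re = α ^ 2 * x.d1 + α * β * bil x.x3 1 + β ^ 2 * x.d2
    rw [bil_eq]
    simp
    ring
  · change ((algebraMap F _ γ * algebraMap F _ x.d1 + algebraMap F _ δ * star x.x3.fst) *
      algebraMap F _ γ + (algebraMap F _ γ * x.x3.fst + algebraMap F _ δ * algebraMap F _ x.d2) *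
      algebraMap F _ δ : Qt a b).re = γ ^ 2 * x.d1 + γ * δ * bil x.x3 1 + δ ^ 2 * x.d2
    rw [bil_eq]
    simp
    ring
  · rfl
  · apply Oct.ext
    · change algebraMap F _ γ * star x.x2.fst + algebraMap F _ δ * x.x1.fst =
        γ • star x.x2.fst + δ • x.x1.fst
      rw [← Algebra.smul_def, ← Algebra.smul_def]
    · change δ • x.x1.snd - γ • x.x2.snd = γ • -x.x2.snd + δ • x.x1.snd
      rw [smul_neg]
      abel
  · apply Oct.ext
    · change x.x2.fst * algebraMap F _ α + star x.x1.fst * algebraMap F _ β =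
        α • x.x2.fst + β • star x.x1.fst
      rw [← Algebra.commutes, ← Algebra.commutes, ← Algebra.smul_def, ← Algebra.smul_def]
    · change α • x.x2.snd - β • x.x1.snd = α • x.x2.snd + β • -x.x1.snd
      rw [smul_neg]
      abel
  · apply Oct.ext
    · change (algebraMap F _ α * algebraMap F _ x.d1 + algebraMap F _ β * star x.x3.fst) *
        algebraMap F _ γ + (algebraMap F _ α * x.x3.fst + algebraMap F _ β * algebraMap F _ x.d2) *
        algebraMap F _ δ = (α * γ * x.d1) • (1 : Qt a b) + (α * δ) • x.x3.fst +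
        (β * γ) • star x.x3.fst + (β * δ * x.d2) • (1 : Qt a b)
      apply QuaternionAlgebra.ext <;> simp <;> ring
    · change x.x3.snd = (α * γ * x.d1) • (0 : Qt a b) + (α * δ) • x.x3.snd +
        (β * γ) • -x.x3.snd + (β * δ * x.d2) • (0 : Qt a b)
      have h1 : α * δ = 1 + β * γ := by linear_combination h
      rw [h1, smul_zero, smul_zero, smul_neg, add_smul, one_smul]
      abel

theorem omapA_v01 {a' b' c' : Fˣ} {T : Oct a' b' c' ≃ₗ[F] Oct a b c}
    (hT : ∀ x y, T (x * y) = T x * T y) {α β γ δ : F} (h : α * δ - β * γ = 1)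
    (x : Alb a' b' c') : omapA T (act (kq a' b' (v01 α β γ δ h)) 1 x) =
      act (kq a b (v01 α β γ δ h)) 1 (omapA T x) := by
  rw [act_v01, act_v01]
  simp only [omapA, map_add, map_smul, hom_star hT, hom_one hT, (hom_tr hT _).1]

theorem v01_ne {α β γ δ : F} (h : α * δ - β * γ = 1) (hγ : γ ≠ 0) (t : F) :
    (kq a b (v01 α β γ δ h) : Matrix (Fin 3) (Fin 3) (Qt a b)) ≠ t • 1 := by
  intro h1
  have h2 := congrFun (congrFun h1 1) 0
  rw [Matrix.smul_apply, one_apply_ne (by decide), smul_zero] at h2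
  change algebraMap F _ γ = 0 at h2
  exact hγ (congrArg QuaternionAlgebra.re h2)

end trip

section reach

variable {k K : Type} [Field k] [Field K] [Algebra k K] [NeZero (2 : K)] {σ : K ≃ₐ[k] K}
  {a b c : kˣ} {g : Fin 3 → kˣ}

/-- The coordinates that are reached by moves are coordinates of an octonion division algebra. -/
theorem reach_coord_div (hdiv : Division (up K a) (up K b) (up K c)) {a' b' c' : kˣ}
    {g' : Fin 3 → kˣ} {ψ : AlbL K a' b' c' ≃ₗ[K] AlbL K a b c} (h : Reach σ g g' ψ) :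
    IsCoord σ g g' ψ ∧ Division (up K a') (up K b') (up K c') := by
  induction h with
  | refl => exact ⟨IsCoord.refl, hdiv⟩
  | @trip _ _ _ _ Ψ h _ _ _ _ _ _ ht Ψ₂ h₂ ih =>
    refine ⟨?_, (aniso_of_trip ih.2 (trip_up ht)).2.2.2⟩
    have e : Ψ₂ = (tripA K ht).trans Ψ := by
      apply LinearEquiv.ext
      intro x
      rw [h₂, LinearEquiv.trans_apply, tripA_apply]
    rw [e]
    exact ih.1.trans (isCoord_tripA σ ht)
  | @act _ _ _ _ Ψ h _ m κ hm hmσ hκσ hκ Ψ₂ h₂ ih =>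
    refine ⟨?_, ih.2⟩
    have e : Ψ₂ = (Ψ₂.trans Ψ.symm).trans Ψ := by
      apply LinearEquiv.ext
      intro x
      simp
    rw [e]
    refine ih.1.trans (isCoord_act (H64.aniso_of_division ih.2) hm hmσ hκσ hκ _ fun x => ?_)
    rw [LinearEquiv.trans_apply, h₂, LinearEquiv.symm_apply_apply]

end reach

section good

variable {k K : Type} [Field k] [Field K] [NumberField K] [Algebra k K] {σ : K ≃ₐ[k] K}
  {a b c : kˣ} {g : Fin 3 → kˣ}

/-- The subgroup contains the special unitary group, in the given coordinates. -/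
def GoodC (σ : K ≃ₐ[k] K) {a b c a' b' c' : kˣ} (g' : Fin 3 → kˣ)
    (ψ : AlbL K a' b' c' ≃ₗ[K] AlbL K a b c)
    (N : Subgroup (AlbL K a b c ≃ₗ[K] AlbL K a b c)) : Prop :=
  ∀ m : (Matrix (Fin 3) (Fin 3) (Qt (up K a') (up K b')))ˣ,
    IsU σ g' g' (m : Matrix (Fin 3) (Fin 3) (Qt (up K a') (up K b'))) →
    nu (m : Matrix (Fin 3) (Fin 3) (Qt (up K a') (up K b'))) = 1 →
    ∀ φ : AlbL K a b c ≃ₗ[K] AlbL K a b c, (∀ x, φ (ψ x) = ψ (Alb.act m 1 x)) → φ ∈ N

/-- A normal subgroup that contains an element which is not a scalar contains all the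
elements. -/
theorem good_of_ne [CharZero k] (h2 : Module.finrank k K = 2) (hσ : σ ≠ 1)
    (hanis : ∀ x : AlbL K a b c, herm σ g x x = 0 → x = 0)
    {N : Subgroup (GE σ a b c g)} (hN : N.Normal) {a' b' c' : kˣ} {g' : Fin 3 → kˣ}
    {ψ : AlbL K a' b' c' ≃ₗ[K] AlbL K a b c} (hψ : IsCoord σ g g' ψ)
    (hab : Aniso (up K a') (up K b'))
    {m₀ : (Matrix (Fin 3) (Fin 3) (Qt (up K a') (up K b')))ˣ}
    (hm₀ : IsU σ g' g' (m₀ : Matrix (Fin 3) (Fin 3) (Qt (up K a') (up K b'))))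
    (hn₀ : nu (m₀ : Matrix (Fin 3) (Fin 3) (Qt (up K a') (up K b'))) = 1)
    (hne : ∀ t : K, (m₀ : Matrix (Fin 3) (Fin 3) (Qt (up K a') (up K b'))) ≠ t • 1)
    {φ₀ : AlbL K a b c ≃ₗ[K] AlbL K a b c} (hφ₀ : φ₀ ∈ N.map (GE σ a b c g).subtype)
    (hφψ : ∀ x, φ₀ (ψ x) = ψ (Alb.act m₀ 1 x)) :
    GoodC σ g' ψ (N.map (GE σ a b c g).subtype) := by
  have hex : ∃ m₁ : H64.SUQ σ a' b' g' two_ne_zero hab,
      (⟨m₀, hm₀, hn₀⟩ : H64.SUQ σ a' b' g' two_ne_zero hab) * m₁ ≠ m₁ * ⟨m₀, hm₀, hn₀⟩ := by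
    by_contra h
    push Not at h
    obtain ⟨t, ht⟩ := scal_of_center (σ := σ) (g := g') hab
      (M := (m₀ : Matrix (Fin 3) (Fin 3) (Qt (up K a') (up K b')))) fun w hw hw' =>
        congrArg (fun u : H64.SUQ σ a' b' g' two_ne_zero hab =>
          ((u : (Matrix (Fin 3) (Fin 3) (Qt (up K a') (up K b')))ˣ) :
            Matrix (Fin 3) (Fin 3) (Qt (up K a') (up K b')))) (h ⟨w, hw, hw'⟩)
    exact hne t ht
  obtain ⟨m₁, hm₁⟩ := hex
  intro m hm hn φ hφ
  refine mem_of_coord_normal h2 hσ hanis N hN hψ hab ⟨m₀, hm₀, hn₀⟩ m₁ ?_ hm₁ m hm hn φ hφ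
  rw [H64.coordHom_mem_iff]
  rwa [← H64.eq_coordHom hψ two_ne_zero hab ⟨m₀, hm₀, hn₀⟩ hφψ]

theorem good_trip [CharZero k] (h2 : Module.finrank k K = 2) (hσ : σ ≠ 1)
    (hanis : ∀ x : AlbL K a b c, herm σ g x x = 0 → x = 0)
    {N : Subgroup (GE σ a b c g)} (hN : N.Normal) {a' b' c' : kˣ} {g' : Fin 3 → kˣ}
    {Ψ : AlbL K a' b' c' ≃ₗ[K] AlbL K a b c} (hΨ : IsCoord σ g g' Ψ)
    (hab : Aniso (up K a') (up K b')) {a₂ b₂ c₂ : kˣ} {i j l : Oct a' b' c'}
    (ht : Trip a₂ b₂ c₂ i j l) {Ψ₂ : AlbL K a₂ b₂ c₂ ≃ₗ[K] AlbL K a b c}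
    (h₂ : ∀ x, Ψ₂ x = Ψ (Alb.omapA (emb (oup K i) (oup K j) (oup K l)) x))
    (hΨ₂ : IsCoord σ g g' Ψ₂) (hab₂ : Aniso (up K a₂) (up K b₂)) :
    GoodC σ g' Ψ₂ (N.map (GE σ a b c g).subtype) ↔
      GoodC σ g' Ψ (N.map (GE σ a b c g).subtype) := by
  obtain ⟨α, β, γ, δ, h, hγ, hU⟩ := exists_v01 σ g'
  have hT : ∀ x : AlbL K a₂ b₂ c₂, Alb.omapA (emb (oup K i) (oup K j) (oup K l))
      (act (kq (up K a₂) (up K b₂) (v01 α β γ δ h)) 1 x) =
      act (kq (up K a') (up K b') (v01 α β γ δ h)) 1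
        (Alb.omapA (emb (oup K i) (oup K j) (oup K l)) x) := by
    intro x
    rw [← tripA_apply ht, ← tripA_apply ht]
    exact omapA_v01 (tripO_mul ht) h x
  constructor
  · intro hg
    have hφ := H64.coordHom_apply hΨ₂ two_ne_zero hab₂
      ⟨kq (up K a₂) (up K b₂) (v01 α β γ δ h), hU a₂ b₂, nu_kq (det_v01 h)⟩
    refine good_of_ne h2 hσ hanis hN hΨ hab (hU a' b') (nu_kq (det_v01 h)) (v01_ne h hγ)
      (hg _ (hU a₂ b₂) (nu_kq (det_v01 h)) _ hφ) fun y => ?_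
    obtain ⟨x, hx⟩ := (tripA K ht).surjective y
    rw [tripA_apply] at hx
    rw [← hx, ← h₂, hφ, h₂, hT]
  · intro hg
    have hφ := H64.coordHom_apply hΨ two_ne_zero hab
      ⟨kq (up K a') (up K b') (v01 α β γ δ h), hU a' b', nu_kq (det_v01 h)⟩
    refine good_of_ne h2 hσ hanis hN hΨ₂ hab₂ (hU a₂ b₂) (nu_kq (det_v01 h)) (v01_ne h hγ)
      (hg _ (hU a' b') (nu_kq (det_v01 h)) _ hφ) fun y => ?_
    rw [h₂, hφ, h₂, hT]

omit [NumberField K] in
theorem good_act [NeZero (2 : K)] {N : Subgroup (AlbL K a b c ≃ₗ[K] AlbL K a b c)}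
    {a' b' c' : kˣ} {g' g₂ : Fin 3 → kˣ}
    {Ψ : AlbL K a' b' c' ≃ₗ[K] AlbL K a b c} (hab : Aniso (up K a') (up K b'))
    (m : (Matrix (Fin 3) (Fin 3) (Qt (up K a') (up K b')))ˣ) (κ : Qt (up K a') (up K b'))
    (hm : IsU σ g' g₂ (m : Matrix (Fin 3) (Fin 3) (Qt (up K a') (up K b'))))
    {Ψ₂ : AlbL K a' b' c' ≃ₗ[K] AlbL K a b c} (h₂ : ∀ x, Ψ₂ x = Ψ (Alb.act m κ x)) :
    GoodC σ g₂ Ψ₂ N ↔ GoodC σ g' Ψ N := by
  have hnu : ∀ w : (Matrix (Fin 3) (Fin 3) (Qt (up K a') (up K b')))ˣ,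
      nu (w : Matrix (Fin 3) (Fin 3) (Qt (up K a') (up K b'))) = 1 →
      nu ((m * w * m⁻¹ : (Matrix (Fin 3) (Fin 3) (Qt (up K a') (up K b')))ˣ) :
        Matrix (Fin 3) (Fin 3) (Qt (up K a') (up K b'))) = 1 ∧
      nu ((m⁻¹ * w * m : (Matrix (Fin 3) (Fin 3) (Qt (up K a') (up K b')))ˣ) :
        Matrix (Fin 3) (Fin 3) (Qt (up K a') (up K b'))) = 1 := by
    intro w hw
    have h1 := nu_mul hab (m : Matrix (Fin 3) (Fin 3) (Qt (up K a') (up K b')))
      ((m⁻¹ : (Matrix (Fin 3) (Fin 3) (Qt (up K a') (up K b')))ˣ) :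
        Matrix (Fin 3) (Fin 3) (Qt (up K a') (up K b')))
    rw [H64.units_mul_inv, nu_one] at h1
    constructor
    · rw [Units.val_mul, Units.val_mul, nu_mul hab, nu_mul hab, hw, mul_one, ← h1]
    · rw [Units.val_mul, Units.val_mul, nu_mul hab, nu_mul hab, hw, mul_one, mul_comm, ← h1]
  constructor
  · intro hg w hw hw' φ hφ
    refine hg (m⁻¹ * w * m) ?_ (hnu w hw').2 φ fun x => ?_
    · exact H64.isU_mul (H64.isU_mul (H64.isU_inv hm) hw) hm
    · rw [h₂, hφ, h₂, act_act, act_act, one_mul, mul_one, mul_assoc, mul_inv_cancel_left]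
  · intro hg w hw hw' φ hφ
    refine hg (m * w * m⁻¹) ?_ (hnu w hw').1 φ fun y => ?_
    · exact H64.isU_mul (H64.isU_mul hm hw) (H64.isU_inv hm)
    · obtain ⟨x, hx⟩ : ∃ x, act m κ x = y := by
        refine ⟨Ψ₂.symm (Ψ y), ?_⟩
        apply Ψ.injective
        rw [← h₂, LinearEquiv.apply_symm_apply]
      rw [← hx, ← h₂, hφ, h₂, act_act, act_act, one_mul, mul_one, inv_mul_cancel_right]

theorem good_iff_of_reach [CharZero k] (h2 : Module.finrank k K = 2) (hσ : σ ≠ 1)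
    (hdiv : Division (up K a) (up K b) (up K c))
    (hanis : ∀ x : AlbL K a b c, herm σ g x x = 0 → x = 0)
    {N : Subgroup (GE σ a b c g)} (hN : N.Normal) {a' b' c' : kˣ} {g' : Fin 3 → kˣ}
    {ψ : AlbL K a' b' c' ≃ₗ[K] AlbL K a b c} (h : Reach σ g g' ψ) :
    GoodC σ g' ψ (N.map (GE σ a b c g).subtype) ↔
      GoodC σ g (LinearEquiv.refl K (AlbL K a b c)) (N.map (GE σ a b c g).subtype) := by
  induction h with
  | refl => exact Iff.rfl
  | trip h ht Ψ₂ h₂ ih =>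
    have hab := H64.aniso_of_division (reach_coord_div hdiv h).2
    have h' := Reach.trip h ht Ψ₂ h₂
    exact (good_trip h2 hσ hanis hN (reach_coord_div hdiv h).1 hab ht h₂
      (reach_coord_div hdiv h').1 (H64.aniso_of_division (reach_coord_div hdiv h').2)).trans ih
  | act h m κ hm hmσ hκσ hκ Ψ₂ h₂ ih =>
    exact (good_act (H64.aniso_of_division (reach_coord_div hdiv h).2) m κ hm h₂).trans ih

/-- A normal subgroup that meets one special unitary group over a quaternion subalgebra in an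
element that is not a scalar contains all of them. -/
theorem hasA_of_hit [CharZero k] (h2 : Module.finrank k K = 2) (hσ : σ ≠ 1)
    (hdiv : Division (up K a) (up K b) (up K c))
    (hanis : ∀ x : AlbL K a b c, herm σ g x x = 0 → x = 0)
    {N : Subgroup (GE σ a b c g)} (hN : N.Normal)
    (hhit : Hit σ g (N.map (GE σ a b c g).subtype)) :
    HasA σ g (N.map (GE σ a b c g).subtype) := by
  obtain ⟨a', b', c', g', ψ, hψ, m, hm, hn, hne, φ, hφN, hφ⟩ := hhit
  have h1 : GoodC σ g' ψ (N.map (GE σ a b c g).subtype) :=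
    good_of_ne h2 hσ hanis hN (reach_coord_div hdiv hψ).1
      (H64.aniso_of_division (reach_coord_div hdiv hψ).2) hm hn hne hφN hφ
  have h3 := (good_iff_of_reach h2 hσ hdiv hanis hN hψ).1 h1
  intro a'' b'' c'' g'' ψ' hψ'
  exact (good_iff_of_reach h2 hσ hdiv hanis hN hψ').2 h3

end good

end Vale.Agent.P011.E6
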