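import Vale.Agent.P011.E6.Chain
import Vale.Agent.P011.E6.Spread

/-!
The normal subgroups that are not central contain the special unitary groups of degree three.
-/

open NumberField

namespace Vale.Agent.P011.E6

open Vale.Agent.P011.MPQ Vale.Agent.P011.D4 Vale.Agent.P011.D4.Oct

/-- A normal subgroup that is not central contains the special unitary groups of degree three over
the quaternion subalgebras, in all coordinates. -/
theorem hasA_of_noncentral {k K : Type} [Field k] [NumberField k] [Field K] [NumberField K]
    [Algebra k K]
    (h2 : Module.finrank k K = 2) {σ : K ≃ₐ[k] K} (hσ : σ ≠ 1) {a b c : kˣ} {g : Fin 3 → kˣ}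
    (hdiv : Division (up K a) (up K b) (up K c))
    (hanis : ∀ x : AlbL K a b c, herm σ g x x = 0 → x = 0)
    (N : Subgroup (GE σ a b c g)) [hN : N.Normal] (hNc : ¬ N ≤ Subgroup.center (GE σ a b c g)) :
    HasA σ g (N.map (GE σ a b c g).subtype) :=
  hasA_of_hit h2 hσ hdiv hanis hN (hit_of_noncentral h2 hσ hdiv hanis N hNc)

end Vale.Agent.P011.E6
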