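import Vale.Agent.P011.E6.H369.Lan
import Vale.Agent.P011.E6.Coord
import Vale.Agent.P011.E6.Act
import Vale.Agent.P011.E6.Herm

/-!
Tridiagonalisation: the statement over the extension field.
-/

open NumberField Topology Matrix

namespace Vale.Agent.P011.E6

open Vale.Agent.P011.MPQ Vale.Agent.P011.D4 Vale.Agent.P011.D4.Oct

namespace H369

section up

variable {k K : Type} [Field k] [Field K] [Algebra k K] {a b c : kˣ}

/-- The extension of scalars, as a ring homomorphism. -/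
def qupH (K : Type) [Field K] [Algebra k K] (a b : kˣ) :
    Qt a b →+* Qt (up K a) (up K b) where
  toFun := qup K
  map_one' := qup_one
  map_mul' := qup_mul
  map_zero' := qup_zero
  map_add' := qup_add

/-- The extension of scalars for invertible matrices. -/
def uup (K : Type) [Field K] [Algebra k K] {a b : kˣ}
    (m : (Matrix (Fin 3) (Fin 3) (Qt a b))ˣ) :
    (Matrix (Fin 3) (Fin 3) (Qt (up K a) (up K b)))ˣ :=
  Units.map ((qupH K a b).mapMatrix (m := Fin 3)).toMonoidHom m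

theorem coe_uup (m : (Matrix (Fin 3) (Fin 3) (Qt a b))ˣ) :
    (uup K m : Matrix (Fin 3) (Fin 3) (Qt (up K a) (up K b))) =
      (m : Matrix (Fin 3) (Fin 3) (Qt a b)).map (qup K) := rfl

theorem coe_uup_inv (m : (Matrix (Fin 3) (Fin 3) (Qt a b))ˣ) :
    (((uup K m)⁻¹ : (Matrix (Fin 3) (Fin 3) (Qt (up K a) (up K b)))ˣ) :
      Matrix (Fin 3) (Fin 3) (Qt (up K a) (up K b))) =
      ((m⁻¹ : (Matrix (Fin 3) (Fin 3) (Qt a b))ˣ) :
        Matrix (Fin 3) (Fin 3) (Qt a b)).map (qup K) := rfl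

theorem map_qup_mul (A B : Matrix (Fin 3) (Fin 3) (Qt a b)) :
    (A * B).map (qup K) = A.map (qup K) * B.map (qup K) :=
  Matrix.map_mul (f := qupH K a b)

theorem map_qup_star (A : Matrix (Fin 3) (Fin 3) (Qt a b)) :
    Aᴴ.map (qup K) = (A.map (qup K))ᴴ := by
  ext1 i j
  exact qup_star (A j i)

theorem map_qup_dg (g : Fin 3 → kˣ) :
    (dg a b g).map (qup K) = dg (up K a) (up K b) (upG K g) := by
  ext1 i j
  by_cases h : i = j
  · subst h
    simp only [dg, Matrix.map_apply, Matrix.diagonal_apply_eq, alg_eq, qup_smul, qup_one]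
    rfl
  · simp only [dg, Matrix.map_apply, Matrix.diagonal_apply_ne _ h, qup_zero]

theorem aup_ofMV (S : Matrix (Fin 3) (Fin 3) (Qt a b)) (v : Fin 3 → Qt a b) :
    aup K (Alb.ofMV S v : Alb a b c) = Alb.ofMV (S.map (qup K)) (fun i => qup K (v i)) := rfl

theorem mat_aup (x : Alb a b c) : Alb.mat (aup K x) = (Alb.mat x).map (qup K) := by
  ext1 i j
  fin_cases i <;> fin_cases j <;> simp [Alb.mat, aup, oup, qup_star, alg_eq, qup_smul]

theorem vec_aup (x : Alb a b c) : Alb.vec (aup K x) = fun i => qup K (Alb.vec x i) := by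
  ext1 i
  fin_cases i <;> rfl

theorem vecMul_qup (v : Fin 3 → Qt a b) (A : Matrix (Fin 3) (Fin 3) (Qt a b)) (i : Fin 3) :
    Matrix.vecMul (fun i => qup K (v i)) (A.map (qup K)) i = qup K (Matrix.vecMul v A i) := by
  simp only [Matrix.vecMul, dotProduct, Fin.sum_univ_three, Matrix.map_apply, qup_add, qup_mul]

theorem act_aup (m : (Matrix (Fin 3) (Fin 3) (Qt a b))ˣ) (κ : Qt a b) (x : Alb a b c) :
    Alb.act (uup K m) (qup K κ) (aup K x) = aup K (Alb.act m κ x) := by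
  rw [Alb.act, Alb.act, aup_ofMV, mat_aup, vec_aup, coe_uup, coe_uup_inv, map_qup_mul,
    map_qup_mul, map_qup_star]
  congr 1
  ext1 i
  rw [vecMul_qup, qup_mul]

theorem nu_up (m : Matrix (Fin 3) (Fin 3) (Qt a b)) :
    nu (m.map (qup K)) = algebraMap k K (nu m) := by
  have h0 : (fun i => qup K ((0 : Fin 3 → Qt a b) i)) = 0 := by
    ext1 i
    exact qup_zero
  rw [nu, nu, ← Alb.cub_aup, aup_ofMV, h0, ← map_qup_star, ← map_qup_mul, H64.cub_ofMV_zero,
    H64.cub_ofMV_zero]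

end up

section fix

variable {F : Type} [Field F] [CharZero F] {a b c : Fˣ}

theorem act_e1 (m : (Matrix (Fin 3) (Fin 3) (Qt a b))ˣ) (κ : Qt a b)
    (h : Blk (m : Matrix (Fin 3) (Fin 3) (Qt a b))) :
    Alb.act m κ (Alb.e1 : Alb a b c) = Alb.e1 := by
  have hv : Alb.vec (Alb.e1 : Alb a b c) = 0 := by
    ext1 i
    fin_cases i <;> rfl
  apply ext_mv
  · rw [H369.mat_act]
    ext1 i j
    fin_cases i <;> fin_cases j <;> simp [Alb.mat, Alb.e1, Matrix.mul_apply,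
      Fin.sum_univ_three, h.1, h.2.1, h.2.2]
  · rw [H369.vec_act, hv, Matrix.zero_vecMul]
    ext1 i
    exact mul_zero _

theorem act_e2 (m : (Matrix (Fin 3) (Fin 3) (Qt a b))ˣ) (κ : Qt a b)
    (h : Blk2 (m : Matrix (Fin 3) (Fin 3) (Qt a b))) :
    Alb.act m κ (Alb.e2 : Alb a b c) = Alb.e2 := by
  have hv : Alb.vec (Alb.e2 : Alb a b c) = 0 := by
    ext1 i
    fin_cases i <;> rfl
  apply ext_mv
  · rw [H369.mat_act]
    ext1 i j
    fin_cases i <;> fin_cases j <;> simp [Alb.mat, Alb.e2, Matrix.mul_apply,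
      Fin.sum_univ_three, h.1, h.2.1, h.2.2]
  · rw [H369.vec_act, hv, Matrix.zero_vecMul]
    ext1 i
    exact mul_zero _

end fix

section main

variable {k K : Type} [Field k] [CharZero k] [Field K] [CharZero K] [Algebra k K]
  {a b c : kˣ}

omit [CharZero k] [CharZero K] in
theorem aup_e1 : aup K (Alb.e1 : Alb a b c) = Alb.e1 := by
  simp only [aup, Alb.e1, map_one, map_zero, oup_zero]

omit [CharZero k] [CharZero K] in
theorem aup_e2 : aup K (Alb.e2 : Alb a b c) = Alb.e2 := by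
  simp only [aup, Alb.e2, map_one, map_zero, oup_zero]

/-- The property of the coordinates. -/
def PK (σ : K ≃ₐ[k] K) (g : Fin 3 → kˣ) (r : Alb a b c) (e : Prop)
    (a' b' c' : kˣ) (g' : Fin 3 → kˣ) (r' : Alb a' b' c') : Prop :=
  ∃ ψ : AlbL K a' b' c' ≃ₗ[K] AlbL K a b c, Reach σ g g' ψ ∧ ψ Alb.e1 = Alb.e1 ∧ g' 0 = g 0 ∧
    (e → ψ Alb.e2 = Alb.e2 ∧ g' 1 = g 1) ∧ ψ (aup K r') = aup K r

theorem clo_PK (σ : K ≃ₐ[k] K) (g : Fin 3 → kˣ) (r : Alb a b c) (e : Prop) :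
    Clo e (PK (K := K) σ g r e) := by
  constructor
  · rintro a' b' c' g' r' ⟨ψ, h1, h2, h3, h4, h5⟩ a₂ b₂ c₂ i j l ht r'' hr
    refine ⟨(tripA K ht).trans ψ, ?_, ?_, h3, fun he => ⟨?_, (h4 he).2⟩, ?_⟩
    · exact h1.trip ht _ fun x => by rw [LinearEquiv.trans_apply, tripA_apply]
    · rw [LinearEquiv.trans_apply, tripA, Alb.mapE_e1, h2]
    · rw [LinearEquiv.trans_apply, tripA, Alb.mapE_e2, (h4 he).1]
    · rw [LinearEquiv.trans_apply, tripA_aup, hr, h5]
  · rintro a' b' c' g' r' ⟨ψ, h1, h2, h3, h4, h5⟩ m κ g'' hg hn hn0 hb hg0 he r'' hr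
    have hu : nrd (qup K κ) ≠ 0 := by
      rw [nrd_qup]
      exact fun h0 => hn0 ((map_eq_zero _).1 h0)
    obtain ⟨u, hu'⟩ : IsUnit (qup K κ) := H64.isUnit_of_nrd hu
    have hm' : (m : Matrix (Fin 3) (Fin 3) (Qt a' b')).map (qup K) =
      (uup K m : Matrix (Fin 3) (Fin 3) (Qt (up K a') (up K b'))) := rfl
    have hmσ : (uup K m : Matrix (Fin 3) (Fin 3) (Qt (up K a') (up K b'))).map (qmap σ) =
        uup K m := by
      ext1 i j
      exact qmap_qup σ ((m : Matrix (Fin 3) (Fin 3) (Qt a' b')) i j)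
    have hU : IsU σ g' g'' (uup K m : Matrix (Fin 3) (Fin 3) (Qt (up K a') (up K b'))) := by
      rw [IsU, hmσ, ← hm', ← map_qup_star, ← map_qup_dg, ← map_qup_dg, ← map_qup_mul,
        ← map_qup_mul, hg]
    refine ⟨(H64.actL two_ne_zero (uup K m) u).trans ψ, ?_, ?_, hg0.trans h3, fun hh => ⟨?_, ?_⟩,
      ?_⟩
    · refine h1.act (uup K m) (qup K κ) hU hmσ (qmap_qup σ κ) ?_ _ fun x => ?_
      · rw [nrd_qup, hn, ← hm', nu_up]
      · rw [LinearEquiv.trans_apply, H64.actL_apply, hu']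
    · rw [LinearEquiv.trans_apply, H64.actL_apply, hu', ← aup_e1, act_aup, act_e1 m κ hb, aup_e1,
        h2]
    · rw [LinearEquiv.trans_apply, H64.actL_apply, hu', ← aup_e2, act_aup, act_e2 m κ (he hh).1,
        aup_e2, (h4 hh).1]
    · rw [(he hh).2, (h4 hh).2]
    · rw [LinearEquiv.trans_apply, H64.actL_apply, hu', act_aup, hr, h5]

end main

end H369

/-- **Tridiagonalisation.** -/
theorem lanczos {k K : Type} [Field k] [CharZero k] [Field K] [CharZero K] [Algebra k K]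
    {σ : K ≃ₐ[k] K} {a b c : kˣ} (hdiv : Division a b c)
    {g : Fin 3 → kˣ} (hanis : ∀ x : Alb a b c, Alb.tf (Alb.wt g x) x = 0 → x = 0) (r : Alb a b c) :
    ∃ (a' b' c' : kˣ) (g' : Fin 3 → kˣ) (ψ : AlbL K a' b' c' ≃ₗ[K] AlbL K a b c),
      Reach σ g g' ψ ∧ ψ Alb.e1 = Alb.e1 ∧ g' 0 = g 0 ∧
      (r.x2 = 0 → r.x3 = 0 → ψ Alb.e2 = Alb.e2 ∧ g' 1 = g 1) ∧
      ∃ R : Matrix (Fin 3) (Fin 3) k, R.transpose = R ∧ ψ (aup K (Alb.ofF R)) = aup K r := by
  have h0 : H369.PK (K := K) σ g r (r.x2 = 0 ∧ r.x3 = 0) a b c g r :=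
    ⟨LinearEquiv.refl K _, Reach.refl, rfl, rfl, fun _ => ⟨rfl, rfl⟩, rfl⟩
  obtain ⟨a', b', c', g', R, ⟨ψ, h1, h2, h3, h4, h5⟩, hR⟩ :=
    (H369.clo_PK (K := K) σ g r (r.x2 = 0 ∧ r.x3 = 0)).lanczos h0 hdiv (fun t ht => by
      have h1 := hanis ⟨0, 0, 0, 0, t, 1⟩ (by
        simp only [Alb.tf, Alb.wt, bil_smul_left, bil_self, Oct.norm_one, Oct.norm_zero, smul_zero]
        linear_combination 2 * (g 0 : k) * ht)
      have h2 := congrArg Alb.x3 h1
      have h3 := congrArg Oct.norm h2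
      change Oct.norm (1 : Oct a b c) = Oct.norm (0 : Oct a b c) at h3
      rw [Oct.norm_one, Oct.norm_zero] at h3
      exact one_ne_zero h3) id
  exact ⟨a', b', c', g', ψ, h1, h2, h3, fun hx hy => h4 ⟨hx, hy⟩, R, hR, h5⟩

end Vale.Agent.P011.E6
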