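import Vale.Agent.P011.E6.Coord
import Vale.Agent.P011.E6.Act
import Vale.Agent.P011.E6.Herm
import Vale.Agent.P011.E6.Pos3

/-!
The coordinates reached by changes of the quaternion subalgebra and by real matrices.
-/

open NumberField

namespace Vale.Agent.P011.E6

open Vale.Agent.P011.MPQ Vale.Agent.P011.D4 Vale.Agent.P011.D4.Oct
open Matrix

section E3

variable {k K : Type} [Field k] [Field K] [NeZero (2 : K)] [Algebra k K]
  {σ : K ≃ₐ[k] K} {a b c a' b' c' : kˣ} {g g' : Fin 3 → kˣ}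

theorem Reach.division {ψ : AlbL K a' b' c' ≃ₗ[K] AlbL K a b c} (h : Reach σ g g' ψ)
    (hdiv : Division (up K a) (up K b) (up K c)) :
    Division (up K a') (up K b') (up K c') := by
  induction h with
  | refl => exact hdiv
  | trip h ht Ψ₂ h₂ ih => exact (aniso_of_trip ih (trip_up ht)).2.2.2
  | act h m κ hm hmσ hκσ hκ Ψ₂ h₂ ih => exact ih

theorem Reach.isCoord {ψ : AlbL K a' b' c' ≃ₗ[K] AlbL K a b c} (h : Reach σ g g' ψ)
    (hdiv : Division (up K a) (up K b) (up K c)) : IsCoord σ g g' ψ := by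
  induction h with
  | refl => exact IsCoord.refl
  | @trip a' b' c' g' Ψ h a₂ b₂ c₂ i j l ht Ψ₂ h₂ ih =>
    have e : Ψ₂ = (tripA K ht).trans Ψ := by
      apply LinearEquiv.ext
      intro x
      rw [h₂, LinearEquiv.trans_apply, tripA_apply]
    rw [e]
    exact ih.trans (isCoord_tripA σ ht)
  | @act a' b' c' g' Ψ h g₂ m κ hm hmσ hκσ hκ Ψ₂ h₂ ih =>
    have e : Ψ₂ = (Ψ₂.trans Ψ.symm).trans Ψ := by
      apply LinearEquiv.ext
      intro x
      rw [LinearEquiv.trans_apply, LinearEquiv.trans_apply, LinearEquiv.apply_symm_apply]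
    have h3 : IsCoord σ g' g₂ (Ψ₂.trans Ψ.symm) := by
      apply isCoord_act (Reach.division h hdiv).aniso hm hmσ hκσ hκ
      intro x
      rw [LinearEquiv.trans_apply, h₂, LinearEquiv.symm_apply_apply]
    rw [e]
    exact ih.trans h3

omit [NeZero (2 : K)] in
theorem Reach.trans {a'' b'' c'' : kˣ} {g'' : Fin 3 → kˣ}
    {ψ : AlbL K a' b' c' ≃ₗ[K] AlbL K a b c} (h : Reach σ g g' ψ)
    {ψ' : AlbL K a'' b'' c'' ≃ₗ[K] AlbL K a' b' c'} (h' : Reach σ g' g'' ψ') :
    Reach σ g g'' (ψ'.trans ψ) := by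
  induction h' with
  | refl => exact h
  | trip h' ht Ψ₂ h₂ ih =>
    exact Reach.trip ih ht _ fun x => by
      rw [LinearEquiv.trans_apply, LinearEquiv.trans_apply, h₂]
  | act h' m κ hm hmσ hκσ hκ Ψ₂ h₂ ih =>
    exact Reach.act ih m κ hm hmσ hκσ hκ _ fun x => by
      rw [LinearEquiv.trans_apply, LinearEquiv.trans_apply, h₂]

/-- Definiteness does not depend on the triple. -/
theorem Dfn.of_trip {F : Type} [Field F] [NeZero (2 : F)] {a b c a' b' c' : Fˣ} {w : F →+* ℝ}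
    {i j l : Oct a b c} (ht : Trip a' b' c' i j l) (h : Dfn w a' b' c') : Dfn w a b c := by
  obtain ⟨Φ, -, hm, -, -⟩ := exists_emb ht
  have hs : ∀ x y, Φ.symm (x * y) = Φ.symm x * Φ.symm y := by
    intro x y
    apply Φ.injective
    rw [hm, Φ.apply_symm_apply, Φ.apply_symm_apply, Φ.apply_symm_apply]
  exact h.trip (trip_map trip_std hs)

omit [NeZero (2 : K)] in
/-- Definiteness does not depend on the coordinates. -/
theorem Reach.dfn [NeZero (2 : k)] {ψ : AlbL K a' b' c' ≃ₗ[K] AlbL K a b c}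
    (h : Reach σ g g' ψ) (φ : k →+* ℝ) : Dfn φ a' b' c' ↔ Dfn φ a b c := by
  induction h with
  | refl => exact Iff.rfl
  | trip h ht Ψ₂ h₂ ih =>
    rw [← ih]
    exact ⟨Dfn.of_trip ht, fun hd => hd.trip ht⟩
  | act h m κ hm hmσ hκσ hκ Ψ₂ h₂ ih => exact ih

theorem nrd_nonneg {F : Type} [Field F] {a b : Fˣ} {w : F →+* ℝ} (ha : w a < 0) (hb : w b < 0)
    (x : Qt a b) : 0 ≤ w (nrd x) := by
  simp only [nrd, map_add, map_sub, map_mul, map_pow]
  have h1 : 0 ≤ w x.re ^ 2 := sq_nonneg _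
  have h2 : 0 ≤ -(w a * w x.imI ^ 2) := by nlinarith [sq_nonneg (w x.imI)]
  have h3 : 0 ≤ -(w b * w x.imJ ^ 2) := by nlinarith [sq_nonneg (w x.imJ)]
  have h4 : 0 ≤ w a * w b * w x.imK ^ 2 :=
    mul_nonneg (mul_nonneg_of_nonpos_of_nonpos ha.le hb.le) (sq_nonneg _)
  nlinarith

omit [NeZero (2 : K)] in
/-- The entries of the Gram matrix. -/
theorem isU_entry {m : Matrix (Fin 3) (Fin 3) (Qt (up K a) (up K b))} (hm : IsU σ g g' m)
    (hmσ : m.map (qmap σ) = m) (i : Fin 3) :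
    algebraMap k K (g' i) = ∑ j, algebraMap k K (g j) * nrd (m j i) := by
  rw [IsU, hmσ] at hm
  have h1 := congrFun (congrFun hm i) i
  have h2 := congrArg QuaternionAlgebra.re h1
  rw [Matrix.mul_apply] at h2
  simp only [dg, Matrix.mul_diagonal, Matrix.conjTranspose_apply, Matrix.diagonal_apply_eq] at h2
  have h3 : ∀ q : Qt (up K a) (up K b), ∀ t : K,
      (star q * algebraMap K (Qt (up K a) (up K b)) t * q).re = t * nrd q := by
    intro q t
    rw [← Algebra.commutes, mul_assoc, ← Algebra.smul_def, H64.star_mul_qt,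
      QuaternionAlgebra.re_smul, QuaternionAlgebra.re_coe, smul_eq_mul]
  have h4 : ∀ t : K, (algebraMap K (Qt (up K a) (up K b)) t).re = t := fun t => rfl
  have h5 : ∀ f : Fin 3 → Qt (up K a) (up K b), (∑ j, f j).re = ∑ j, (f j).re := by
    intro f
    simp [Fin.sum_univ_three]
  rw [h5] at h2
  simp only [h3, h4] at h2
  exact h2.symm

omit [NeZero (2 : K)] in
/-- Positivity of the weights at a real place of `K` over which the octonion algebra is
definite. -/
theorem Reach.pos [NeZero (2 : k)] {ψ : AlbL K a' b' c' ≃ₗ[K] AlbL K a b c}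
    (h : Reach σ g g' ψ) (w : K →+* ℝ) (hd : Dfn (w.comp (algebraMap k K)) a b c)
    (hg : ∀ i, 0 < w (algebraMap k K (g i))) (i : Fin 3) : 0 < w (algebraMap k K (g' i)) := by
  induction h generalizing i with
  | refl => exact hg i
  | trip h ht Ψ₂ h₂ ih => exact ih i
  | @act a' b' c' g' Ψ h g₂ m κ hm hmσ hκσ hκ Ψ₂ h₂ ih =>
    have hd' := (Reach.dfn h (w.comp (algebraMap k K))).2 hd
    have ha : w ((up K a' : Kˣ) : K) < 0 := hd'.1
    have hb : w ((up K b' : Kˣ) : K) < 0 := hd'.2.1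
    have h1 := isU_entry hm hmσ i
    have h2 : 0 ≤ w (algebraMap k K (g₂ i)) := by
      rw [h1, map_sum]
      apply Finset.sum_nonneg
      intro j _
      rw [map_mul]
      exact mul_nonneg (ih j).le (nrd_nonneg ha hb _)
    refine lt_of_le_of_ne h2 fun h3 => ?_
    have h4 : w (algebraMap k K (g₂ i)) = 0 := h3.symm
    rw [map_eq_zero, map_eq_zero] at h4
    exact (g₂ i).ne_zero h4

omit [NeZero (2 : K)] in
theorem amap_symm (σ : K ≃ₐ[k] K) (x : AlbL K a b c) : amap σ (amap σ.symm x) = x := by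
  have hq : ∀ {a b : kˣ} (q : Qt (up K a) (up K b)), qmap σ (qmap σ.symm q) = q := by
    intro a b q
    ext <;> simp
  have ho : ∀ q : OctL K a b c, omap σ (omap σ.symm q) = q := by
    intro q
    ext1
    · exact hq q.fst
    · exact hq q.snd
  ext1
  · exact σ.apply_symm_apply _
  · exact σ.apply_symm_apply _
  · exact σ.apply_symm_apply _
  · exact ho _
  · exact ho _
  · exact ho _

/-- The Cayley relation in other coordinates. -/
theorem IsCoord.isCay {ψ : AlbL K a' b' c' ≃ₗ[K] AlbL K a b c} (h : IsCoord σ g g' ψ)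
    {δ z : K} {r : Alb a b c} {r' : Alb a' b' c'} (hr : ψ (aup K r') = aup K r)
    {x : AlbL K a' b' c'} (hx : IsCay δ z g r (ψ x)) : IsCay δ z g' r' x := by
  obtain ⟨μ, hμ, hcub⟩ := h.cub
  have hadj : ∀ x y, Alb.tf (Alb.adj (ψ x)) (ψ y) = μ * Alb.tf (Alb.adj x) y := fun x y =>
    tf_adj_of_cub (φ := ψ.toLinearMap) hcub x y
  have htf : ∀ x y, Alb.tf (Alb.wt (upG K g) (ψ x)) (ψ y) = Alb.tf (Alb.wt (upG K g') x) y := by
    intro x y
    have h1 := h.herm x (amap σ.symm y)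
    rw [E6.herm, E6.herm, ← h.real, amap_symm] at h1
    exact h1
  have e1 : Alb.one _ _ _ (upG K g) - δ • aup K r =
      ψ (Alb.one _ _ _ (upG K g') - δ • aup K r') := by
    rw [map_sub, map_smul, h.one, hr]
  obtain ⟨hx1, hx2⟩ := hx
  rw [e1, hcub] at hx1 hx2
  have hx1' : Alb.cub (Alb.one _ _ _ (upG K g') - δ • aup K r') ≠ 0 := fun h0 =>
    hx1 (by rw [h0, mul_zero])
  refine ⟨hx1', ?_⟩
  apply Alb.eq_of_tf
  intro y
  have h2 := congrArg (fun X => Alb.tf X (ψ y)) hx2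
  simp only [Alb.tf_smul_left] at h2
  rw [← h.one, ← map_smul, ← map_add, htf, hadj] at h2
  rw [Alb.tf_smul_left, h2]
  field_simp

end E3

end Vale.Agent.P011.E6
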