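import Vale.Agent.P011.E6.FixA
import Vale.Agent.P011.E6.Pos3
import Vale.Agent.P011.E6.Reach
import Vale.Agent.P011.E6.Lanczos

/-!
Tridiagonalisation in coordinates with a good quaternion subalgebra.
-/

open NumberField Topology Matrix

namespace Vale.Agent.P011.E6

open Vale.Agent.P011.MPQ Vale.Agent.P011.D4 Vale.Agent.P011.D4.Oct Alb

theorem division_down {k K : Type} [Field k] [Field K] [Algebra k K] {a b c : kˣ}
    (h : Division (up K a) (up K b) (up K c)) : Division a b c := by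
  intro x hx
  apply oup_injective (K := K)
  have h1 : Oct.norm (oup K x) = 0 := by rw [norm_oup, hx, map_zero]
  rw [h _ h1]
  exact (oup_zero).symm

theorem omapA_emb_ofF {F : Type} [Field F] {a b c a' b' c' : Fˣ} {i j l : Oct a b c}
    (R : Matrix (Fin 3) (Fin 3) F) :
    omapA (emb i j l) (ofF R : Alb a' b' c') = ofF R := by
  have h1 : ∀ t : F, emb i j l (t • (1 : Oct a' b' c')) = t • (1 : Oct a b c) := by
    intro t
    simp [emb, qemb]
  simp only [omapA, ofF, h1]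

/-- Tridiagonalisation, with a good quaternion subalgebra. -/
theorem lanczos_good {k K : Type} [Field k] [NumberField k] [Field K] [CharZero K] [Algebra k K]
    {σ : K ≃ₐ[k] K} {a b c : kˣ} (hdiv : Division (up K a) (up K b) (up K c))
    {g : Fin 3 → kˣ} (hanis : ∀ x : Alb a b c, Alb.tf (Alb.wt g x) x = 0 → x = 0) (r : Alb a b c) :
    ∃ (a' b' c' : kˣ) (g' : Fin 3 → kˣ) (ψ : AlbL K a' b' c' ≃ₗ[K] AlbL K a b c),
      Reach σ g g' ψ ∧ ψ Alb.e1 = Alb.e1 ∧ g' 0 = g 0 ∧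
      (r.x2 = 0 → r.x3 = 0 → ψ Alb.e2 = Alb.e2 ∧ g' 1 = g 1) ∧
      (∀ φ : k →+* ℝ, φ a' < 0 → φ b' < 0 → Dfn φ a' b' c') ∧
      ∃ R : Matrix (Fin 3) (Fin 3) k, R.transpose = R ∧ ψ (aup K (Alb.ofF R)) = aup K r := by
  obtain ⟨a', b', c', g', ψ, h1, h2, h3, h4, R, h5, h6⟩ :=
    lanczos (K := K) (σ := σ) (division_down hdiv) hanis r
  obtain ⟨a₂, b₂, c₂, i, j, l, ht, hgood⟩ := Lit.exists_good (division_down (Reach.division h1 hdiv))
  refine ⟨a₂, b₂, c₂, g', (tripA K ht).trans ψ, ?_, ?_, h3, fun hx hy => ⟨?_, (h4 hx hy).2⟩,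
    hgood, R, h5, ?_⟩
  · exact h1.trip ht _ fun x => by rw [LinearEquiv.trans_apply, tripA_apply]
  · rw [LinearEquiv.trans_apply, tripA, mapE_e1, h2]
  · rw [LinearEquiv.trans_apply, tripA, mapE_e2, (h4 hx hy).1]
  · rw [LinearEquiv.trans_apply, tripA_aup, omapA_emb_ofF, h6]

end Vale.Agent.P011.E6
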