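import Vale.Agent.P011.E6.FixB
import Vale.Agent.P011.E6.LanGood

/-!
The elements of the group that fix the base point: the diagonal idempotents.
-/

open NumberField Topology Matrix

namespace Vale.Agent.P011.E6

open Vale.Agent.P011.MPQ Vale.Agent.P011.D4 Vale.Agent.P011.D4.Oct Alb

section quad

variable {k K : Type} [Field k] [Field K] [Algebra k K]

/-- A quadratic extension has an element that is changed by the sign. -/
theorem exists_delta8 (h2 : Module.finrank k K = 2) {σ : K ≃ₐ[k] K} (hσ : σ ≠ 1) :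
    ∃ δ : K, σ δ = -δ ∧ δ ≠ 0 := by
  obtain ⟨x, hx⟩ : ∃ x, σ x ≠ x := by
    by_contra h
    push Not at h
    exact hσ (AlgEquiv.ext h)
  have hli : LinearIndependent k ![(1 : K), x] := by
    rw [LinearIndependent.pair_iff]
    intro r s h
    rw [Algebra.smul_def, Algebra.smul_def, mul_one] at h
    have h1 := congrArg σ h
    rw [map_add, map_mul, σ.commutes, σ.commutes, map_zero] at h1
    have h3 : algebraMap k K s * (σ x - x) = 0 := by linear_combination h1 - h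
    have h4 : algebraMap k K s = 0 := (mul_eq_zero.1 h3).resolve_right (sub_ne_zero.mpr hx)
    have h5 : algebraMap k K r = 0 := by
      rw [h4, zero_mul, add_zero] at h
      exact h
    exact ⟨(map_eq_zero _).1 h5, (map_eq_zero _).1 h4⟩
  have hfd : FiniteDimensional k K := Module.finite_of_finrank_pos (by rw [h2]; norm_num)
  have hspan := hli.span_eq_top_of_card_eq_finrank' (by rw [h2]; simp)
  have ht : x ^ 2 ∈ Submodule.span k (Set.range ![(1 : K), x]) := by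
    rw [hspan]
    trivial
  rw [Matrix.range_cons, Matrix.range_cons, Matrix.range_empty, Set.union_empty,
    Set.singleton_union, Submodule.mem_span_pair] at ht
  obtain ⟨r, s, h⟩ := ht
  rw [Algebra.smul_def, Algebra.smul_def, mul_one] at h
  have h1 := congrArg σ h
  rw [map_add, map_mul, σ.commutes, σ.commutes, map_pow] at h1
  have h3 : (σ x - x) * (σ x + x - algebraMap k K s) = 0 := by linear_combination h - h1
  have h4 : σ x + x = algebraMap k K s :=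
    sub_eq_zero.mp ((mul_eq_zero.1 h3).resolve_left (sub_ne_zero.mpr hx))
  have h5 : σ (σ x) = x := by
    have h6 := congrArg σ h4
    rw [map_add, σ.commutes] at h6
    linear_combination h6 - h4
  refine ⟨x - σ x, ?_, sub_ne_zero.mpr hx.symm⟩
  rw [map_sub, h5]
  ring

end quad

section one

variable {k K : Type} [Field k] [NumberField k] [Field K] [NumberField K] [Algebra k K]
  (h2 : Module.finrank k K = 2) {σ : K ≃ₐ[k] K} (hσ : σ ≠ 1) {a b c : kˣ} {g : Fin 3 → kˣ}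

include h2 hσ

/-- The image of an idempotent, if it is a matrix over the ground field. -/
theorem rank_image {φ : AlbL K a b c ≃ₗ[K] AlbL K a b c} (hφ : φ ∈ GE σ a b c g)
    (h1 : φ (Alb.one _ _ _ (upG K g)) = Alb.one _ _ _ (upG K g)) {E : Alb a b c}
    (hE : adj E = 0) (hE0 : E ≠ 0) {R : Matrix (Fin 3) (Fin 3) k} (hR : R.transpose = R)
    (hER : φ (aup K E) = aup K (ofF R)) :
    ∃ (t : kˣ) (w : Fin 3 → k), (∀ i j, R i j = t * (w i * w j)) ∧
      (t : k) * ∑ i, (g i : k) * w i ^ 2 = tG g E := by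
  obtain ⟨δ, hδ, hδ0⟩ := exists_delta8 h2 hσ
  have hinv := Five.invol h2 hδ hδ0
  have h3 : adj (ofF R : Alb a b c) = 0 := by
    apply aup_injective (K := K)
    rw [← adj_aup, ← hER, aup_zero]
    exact adj_image hinv hφ h1 (by rw [adj_aup, hE, aup_zero])
  have h4 : R ≠ 0 := by
    rintro rfl
    have h5 : φ (aup K E) = 0 := by
      rw [hER]
      have : (ofF 0 : Alb a b c) = 0 := by ext1 <;> simp [ofF]
      rw [this, aup_zero]
    have h6 := (LinearEquiv.map_eq_zero_iff φ).mp h5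
    rw [← aup_zero (K := K)] at h6
    exact hE0 (aup_injective h6)
  obtain ⟨t, w, h5⟩ := rank_one' R hR h4 h3
  refine ⟨t, w, h5, ?_⟩
  apply (algebraMap k K).injective
  rw [← tG_aup, ← ge_tG hφ h1, hER, tG_aup]
  congr 1
  rw [Fin.sum_univ_three]
  simp only [tG, ofF, h5]
  ring

/-- The matrix that moves an idempotent. -/
theorem exists_mat {φ : AlbL K a b c ≃ₗ[K] AlbL K a b c} (hφ : φ ∈ GE σ a b c g)
    (h1 : φ (Alb.one _ _ _ (upG K g)) = Alb.one _ _ _ (upG K g)) (τ : k →+* ℝ)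
    (hτ : Dfn τ a b c) (hg : ∀ i, 0 < τ (g i))
    (hgood : ∀ w : k →+* ℝ, w a < 0 → w b < 0 → Dfn w a b c) (i0 : Fin 3) {E : Alb a b c}
    (hmat : mat E = Matrix.single i0 i0 1) (hvec : Alb.vec E = 0) (hE : adj E = 0) (hE0 : E ≠ 0)
    (htE : tG g E = g i0)
    (hsign : ∀ w : k →+* ℝ, Dfn w a b c → ∀ φk : Alb a b c ≃ₗ[k] Alb a b c,
      (∀ x, cub (φk x) = cub x) → ∀ (t : k) (u : Fin 3 → k),
        φk E = ofF (t • vecMulVec u u) → 0 < w t)
    {R : Matrix (Fin 3) (Fin 3) k} (hR : R.transpose = R)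
    (hER : φ (aup K E) = aup K (ofF R)) :
    ∃ m : (Matrix (Fin 3) (Fin 3) (Qt a b))ˣ,
      (m : Matrix (Fin 3) (Fin 3) (Qt a b))ᴴ * dg a b g * (m : Matrix (Fin 3) (Fin 3) (Qt a b)) =
        dg a b g ∧ Alb.act m 1 E = ofF R ∧
      ∀ j, j ≠ i0 → R j j = 0 → ∀ i, (m : Matrix (Fin 3) (Fin 3) (Qt a b)) i j =
        (1 : Matrix (Fin 3) (Fin 3) (Qt a b)) i j := by
  obtain ⟨δ, hδ, hδ0⟩ := exists_delta8 h2 hσ
  have hinv := Five.invol h2 hδ hδ0
  have hfix := Five.exists_fix h2 hδ hδ0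
  obtain ⟨t, w, hw, htr⟩ := rank_image h2 hσ hφ h1 hE hE0 hR hER
  have hRe : R = (t : k) • vecMulVec w w := by
    ext i j
    rw [hw, Matrix.smul_apply, vecMulVec_apply, smul_eq_mul]
  obtain ⟨φk, hφk⟩ := descend hfix (ge_real hinv hφ h1)
  have hφE : φk E = ofF ((t : k) • vecMulVec w w) := by
    apply aup_injective (K := K)
    rw [hφk, hER, hRe]
  have ht : ∀ f : k →+* ℝ, f a < 0 → f b < 0 → 0 < f t := fun f ha hb =>
    hsign f (hgood f ha hb) φk (cub_descend hφ.1 hφk) t w hφE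
  obtain ⟨m, q, hq, hm, hcol, hm0, -⟩ := exists_move g τ hτ.1 hτ.2.1 hg i0 t w
    (by rw [htr, htE]) ht
  refine ⟨m, hm, ?_, fun j hj hRj => hm0 j hj ?_⟩
  · rw [act_single m 1 hmat hvec hq hcol, hRe]
    congr 1
  · rw [hw] at hRj
    exact mul_self_eq_zero.mp ((mul_eq_zero.mp hRj).resolve_left t.ne_zero)

end one

section main

variable {k K : Type} [Field k] [NumberField k] [Field K] [NumberField K] [Algebra k K]
  {σ : K ≃ₐ[k] K} {a b c : kˣ} {g : Fin 3 → kˣ}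
  (hdiv : Division (up K a) (up K b) (up K c))
  {N : Subgroup (AlbL K a b c ≃ₗ[K] AlbL K a b c)} (hA : HasA σ g N)

include hdiv hA

/-- Real unitary matrices in reached coordinates. -/
theorem exists_n {a' b' c' : kˣ} {g' : Fin 3 → kˣ} {ψ : AlbL K a' b' c' ≃ₗ[K] AlbL K a b c}
    (hψ : Reach σ g g' ψ) {m : (Matrix (Fin 3) (Fin 3) (Qt a' b'))ˣ}
    (hm : (m : Matrix (Fin 3) (Fin 3) (Qt a' b'))ᴴ * dg a' b' g' *
      (m : Matrix (Fin 3) (Fin 3) (Qt a' b')) = dg a' b' g') :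
    ∃ n ∈ N, n (Alb.one _ _ _ (upG K g)) = Alb.one _ _ _ (upG K g) ∧
      ∀ x : Alb a' b' c', n (ψ (aup K x)) = ψ (aup K (Alb.act m 1 x)) := by
  have hc := Reach.isCoord hψ hdiv
  have hab : Aniso (up K a') (up K b') := aniso_of_division (Reach.division hψ hdiv)
  obtain ⟨n, hn⟩ : ∃ n : AlbL K a b c ≃ₗ[K] AlbL K a b c,
      ∀ x, n (ψ x) = ψ (Alb.act (upU K m) 1 x) := by
    refine ⟨(ψ.symm.trans (H64.actL two_ne_zero (upU K m) 1)).trans ψ, fun x => ?_⟩
    rw [LinearEquiv.trans_apply, LinearEquiv.trans_apply, LinearEquiv.symm_apply_apply]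
    rfl
  refine ⟨n, hA a' b' c' g' ψ hψ (upU K m) (isU_upU σ hm) (nu_upU hab c' hm) n hn, ?_,
    fun x => ?_⟩
  · have h1 : (upU K m : Matrix (Fin 3) (Fin 3) (Qt (up K a') (up K b')))ᴴ *
        dg (up K a') (up K b') (upG K g') *
        (upU K m : Matrix (Fin 3) (Fin 3) (Qt (up K a') (up K b'))) =
          dg (up K a') (up K b') (upG K g') := by
      rw [upU_val, ← map_qup_conjTranspose, ← map_qup_dg, ← map_mul_qup, ← map_mul_qup, hm]
    rw [← hc.one, hn, H64.act_one (c := up K c') two_ne_zero h1]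
  · rw [hn, act_upU]

end main

section prep

variable {k K : Type} [Field k] [Field K] [Algebra k K] {σ : K ≃ₐ[k] K} {a b c : kˣ}
  {g : Fin 3 → kˣ}

theorem hanis_down (hanis : ∀ x : AlbL K a b c, herm σ g x x = 0 → x = 0) :
    ∀ x : Alb a b c, tf (wt g x) x = 0 → x = 0 := by
  intro x hx
  apply aup_injective (K := K)
  rw [aup_zero]
  apply hanis
  rw [herm, amap_aup, wt_aup, tf_aup, hx, map_zero]

theorem adj_e1 {F : Type} [Field F] {a b c : Fˣ} : adj (e1 : Alb a b c) = 0 := by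
  ext1 <;> simp [adj, e1]

theorem adj_e2 {F : Type} [Field F] {a b c : Fˣ} : adj (e2 : Alb a b c) = 0 := by
  ext1 <;> simp [adj, e2]

theorem e1_ne {F : Type} [Field F] {a b c : Fˣ} : (e1 : Alb a b c) ≠ 0 := by
  intro h
  have := congrArg Alb.d1 h
  simp [e1] at this

theorem e2_ne {F : Type} [Field F] {a b c : Fˣ} : (e2 : Alb a b c) ≠ 0 := by
  intro h
  have := congrArg Alb.d2 h
  simp [e2] at this

theorem aup_e1 : aup K (e1 : Alb a b c) = e1 := by
  ext1 <;> simp [aup, e1]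

theorem aup_e2 : aup K (e2 : Alb a b c) = e2 := by
  ext1 <;> simp [aup, e2]

theorem tG_e1 {F : Type} [Field F] {a b c : Fˣ} (g : Fin 3 → Fˣ) :
    tG g (e1 : Alb a b c) = g 0 := by
  simp [tG, e1]

theorem tG_e2 {F : Type} [Field F] {a b c : Fˣ} (g : Fin 3 → Fˣ) :
    tG g (e2 : Alb a b c) = g 1 := by
  simp [tG, e2]

end prep

section main

variable {k K : Type} [Field k] [NumberField k] [Field K] [NumberField K] [Algebra k K]
  (h2 : Module.finrank k K = 2) {σ : K ≃ₐ[k] K} (hσ : σ ≠ 1) {a b c : kˣ} {g : Fin 3 → kˣ}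
  (hdiv : Division (up K a) (up K b) (up K c))
  (hanis : ∀ x : AlbL K a b c, herm σ g x x = 0 → x = 0)
  (hpos : ∀ w : K →+* ℝ, Dfn (w.comp (algebraMap k K)) a b c → ∀ i, 0 < w (algebraMap k K (g i)))

include hdiv hpos in
omit [NumberField k] in
/-- There is a real place where everything is definite, in all reached coordinates. -/
theorem exists_tau [NumberField k] {a' b' c' : kˣ} {g' : Fin 3 → kˣ}
    {ψ : AlbL K a' b' c' ≃ₗ[K] AlbL K a b c} (hψ : Reach σ g g' ψ) :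
    ∃ τ : k →+* ℝ, Dfn τ a' b' c' ∧ ∀ i, 0 < τ (g' i) := by
  obtain ⟨w, hw⟩ := exists_dfn hdiv
  have hd : Dfn (w.comp (algebraMap k K)) a b c := hw
  exact ⟨w.comp (algebraMap k K), (Reach.dfn hψ _).mpr hd,
    fun i => Reach.pos hψ w hd (fun j => hpos w hd j) i⟩

include h2 hσ hdiv hanis hpos

variable {N : Subgroup (AlbL K a b c ≃ₗ[K] AlbL K a b c)} (hA : HasA σ g N)

include hA

/-- The first idempotent. -/
theorem fix_e1 {φ : AlbL K a b c ≃ₗ[K] AlbL K a b c} (hφ : φ ∈ GE σ a b c g)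
    (h1 : φ (Alb.one _ _ _ (upG K g)) = Alb.one _ _ _ (upG K g)) :
    ∃ n ∈ N, n (Alb.one _ _ _ (upG K g)) = Alb.one _ _ _ (upG K g) ∧ n e1 = φ e1 := by
  obtain ⟨δ, hδ, hδ0⟩ := exists_delta8 h2 hσ
  have hinv := Five.invol h2 hδ hδ0
  have hfix := Five.exists_fix h2 hδ hδ0
  obtain ⟨r, hr⟩ := exists_aup σ hfix (x := φ e1) (by
    rw [← ge_real hinv hφ h1, ← aup_e1, amap_aup])
  obtain ⟨a', b', c', g', ψ, hψ, hψ1, -, -, hgood, R, hR, hψR⟩ :=
    lanczos_good (σ := σ) hdiv (hanis_down hanis) r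
  have hc := Reach.isCoord hψ hdiv
  obtain ⟨τ, hτ, hτg⟩ := exists_tau hdiv hpos hψ
  have hφ' := hc.symm.conj_mem hφ
  obtain ⟨m, hm, hmE, -⟩ := exists_mat h2 hσ hφ' (by
      rw [LinearEquiv.trans_apply, LinearEquiv.trans_apply, LinearEquiv.symm_symm, hc.one, h1,
        ← hc.one, LinearEquiv.symm_apply_apply]) τ hτ hτg hgood 0 mat_e1 vec_e1 adj_e1 e1_ne
      (tG_e1 _) (fun w hw φk hφk t u h => Lit.sign_of_orbit w hw hφk h) hR (by
      rw [LinearEquiv.trans_apply, LinearEquiv.trans_apply, LinearEquiv.symm_symm, aup_e1, hψ1,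
        ← hr, ← hψR, LinearEquiv.symm_apply_apply])
  obtain ⟨n, hn, hn1, hn2⟩ := exists_n hdiv hA hψ hm
  refine ⟨n, hn, hn1, ?_⟩
  have e := hn2 e1
  rwa [aup_e1, hψ1, hmE, hψR, hr] at e

/-- The second idempotent. -/
theorem fix_e2 {φ : AlbL K a b c ≃ₗ[K] AlbL K a b c} (hφ : φ ∈ GE σ a b c g)
    (h1 : φ (Alb.one _ _ _ (upG K g)) = Alb.one _ _ _ (upG K g)) (he : φ e1 = e1) :
    ∃ n ∈ N, n (Alb.one _ _ _ (upG K g)) = Alb.one _ _ _ (upG K g) ∧ n e1 = e1 ∧
      n e2 = φ e2 := by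
  obtain ⟨δ, hδ, hδ0⟩ := exists_delta8 h2 hσ
  have hinv := Five.invol h2 hδ hδ0
  have hfix := Five.exists_fix h2 hδ hδ0
  obtain ⟨r, hr⟩ := exists_aup σ hfix (x := φ e2) (by
    rw [← ge_real hinv hφ h1, ← aup_e2, amap_aup])
  obtain ⟨hb1, hb2, hb3⟩ := block hinv hφ h1 he
  have hr2 : r.x2 = 0 := by
    apply oup_injective (K := K)
    rw [oup_zero, ← hb2, ← hr]
    rfl
  have hr3 : r.x3 = 0 := by
    apply oup_injective (K := K)
    rw [oup_zero, ← hb3, ← hr]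
    rfl
  obtain ⟨a', b', c', g', ψ, hψ, hψ1, -, hcl, hgood, R, hR, hψR⟩ :=
    lanczos_good (σ := σ) hdiv (hanis_down hanis) r
  obtain ⟨hψ2, -⟩ := hcl hr2 hr3
  have hc := Reach.isCoord hψ hdiv
  obtain ⟨τ, hτ, hτg⟩ := exists_tau hdiv hpos hψ
  have hφ' := hc.symm.conj_mem hφ
  have h1' : ((ψ.symm.symm.trans φ).trans ψ.symm) (Alb.one _ _ _ (upG K g')) =
      Alb.one _ _ _ (upG K g') := by
    rw [LinearEquiv.trans_apply, LinearEquiv.trans_apply, LinearEquiv.symm_symm, hc.one, h1,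
      ← hc.one, LinearEquiv.symm_apply_apply]
  have he' : ((ψ.symm.symm.trans φ).trans ψ.symm) e1 = e1 := by
    rw [LinearEquiv.trans_apply, LinearEquiv.trans_apply, LinearEquiv.symm_symm, hψ1, he]
    conv_lhs => rw [← hψ1]
    rw [LinearEquiv.symm_apply_apply]
  have hER : ((ψ.symm.symm.trans φ).trans ψ.symm) (aup K e2) = aup K (ofF R) := by
    rw [LinearEquiv.trans_apply, LinearEquiv.trans_apply, LinearEquiv.symm_symm, aup_e2, hψ2,
      ← hr, ← hψR, LinearEquiv.symm_apply_apply]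
  obtain ⟨m, hm, hmE, hm0⟩ := exists_mat h2 hσ hφ' h1' τ hτ hτg hgood 1 mat_e2 vec_e2 adj_e2 e2_ne
      (tG_e2 _) (fun w hw φk hφk t u h => sign_of_orbit2 w hw hφk h) hR hER
  have hR0 : R 0 0 = 0 := by
    obtain ⟨hb1', -, -⟩ := block hinv hφ' h1' he'
    rw [← aup_e2, hER] at hb1'
    exact (map_eq_zero (algebraMap k K)).mp hb1'
  have hm1 : Alb.act m 1 (e1 : Alb a' b' c') = e1 := by
    rw [act_single m 1 mat_e1 vec_e1 (q := 1) (t := 1) nrd_one (w := fun i => if i = 0 then 1 else 0)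
      (fun i => by
        rw [hm0 0 (by decide) hR0 i]
        by_cases hi : i = 0
        · subst hi
          simp
        · rw [if_neg hi, zero_smul, Matrix.one_apply_ne hi])]
    ext1 <;> simp [ofF, e1]
  obtain ⟨n, hn, hn1, hn2⟩ := exists_n hdiv hA hψ hm
  refine ⟨n, hn, hn1, ?_, ?_⟩
  · have e := hn2 e1
    rwa [aup_e1, hψ1, hm1, aup_e1, hψ1] at e
  · have e := hn2 e2
    rwa [aup_e2, hψ2, hmE, hψR, hr] at e

end main

section fin

variable {k K : Type} [Field k] [NumberField k] [Field K] [NumberField K] [Algebra k K]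
  (h2 : Module.finrank k K = 2) {σ : K ≃ₐ[k] K} (hσ : σ ≠ 1) {a b c : kˣ} {g : Fin 3 → kˣ}
  (hdiv : Division (up K a) (up K b) (up K c))
  (hanis : ∀ x : AlbL K a b c, herm σ g x x = 0 → x = 0)
  (hpos : ∀ w : K →+* ℝ, Dfn (w.comp (algebraMap k K)) a b c → ∀ i, 0 < w (algebraMap k K (g i)))
  (N : Subgroup (AlbL K a b c ≃ₗ[K] AlbL K a b c)) (hNle : N ≤ GE σ a b c g)
  (hN : ∀ φ ∈ GE σ a b c g, ∀ n ∈ N, φ * n * φ⁻¹ ∈ N) (hA : HasA σ g N)

include h2 hσ hdiv hanis hpos hNle hN hA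

/-- (E8) -/
theorem fix_e {φ : AlbL K a b c ≃ₗ[K] AlbL K a b c} (hφ : φ ∈ GE σ a b c g)
    (h1 : φ (Alb.one _ _ _ (upG K g)) = Alb.one _ _ _ (upG K g)) :
    ∃ n ∈ N, (n * φ) (Alb.one _ _ _ (upG K g)) = Alb.one _ _ _ (upG K g) ∧
      (n * φ) Alb.e1 = Alb.e1 ∧ (n * φ) Alb.e2 = Alb.e2 := by
  obtain ⟨n, hn, hn1, hn2⟩ := fix_e1 h2 hσ hdiv hanis hpos hA hφ h1
  have hinv : ∀ (n : AlbL K a b c ≃ₗ[K] AlbL K a b c) (x y : AlbL K a b c), n x = y →
      n⁻¹ y = x := by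
    intro n x y h
    rw [← h, ← LinearEquiv.mul_apply, inv_mul_cancel]
    rfl
  have hφ1 : n⁻¹ * φ ∈ GE σ a b c g := mul_mem (inv_mem (hNle hn)) hφ
  have h3 : (n⁻¹ * φ) (Alb.one _ _ _ (upG K g)) = Alb.one _ _ _ (upG K g) := by
    rw [LinearEquiv.mul_apply, h1]
    exact hinv _ _ _ hn1
  have h4 : (n⁻¹ * φ) e1 = e1 := by
    rw [LinearEquiv.mul_apply]
    exact hinv _ _ _ hn2
  obtain ⟨n', hn', hn1', hn2', hn3'⟩ := fix_e2 h2 hσ hdiv hanis hpos hA hφ1 h3 h4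
  refine ⟨n'⁻¹ * n⁻¹, mul_mem (inv_mem hn') (inv_mem hn), ?_, ?_, ?_⟩
  · rw [mul_assoc, LinearEquiv.mul_apply, h3]
    exact hinv _ _ _ hn1'
  · rw [mul_assoc, LinearEquiv.mul_apply, h4]
    exact hinv _ _ _ hn2'
  · rw [mul_assoc, LinearEquiv.mul_apply]
    exact hinv _ _ _ hn3'

end fin

end Vale.Agent.P011.E6
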