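import Vale.Agent.P011.E6.FixOne
import Vale.Agent.P011.E6.FixE
import Vale.Agent.P011.E6.Fix9
import Vale.Agent.P011.E6.H637.Row
import Vale.Agent.P011.E6.E12

/-!
Assembly of the theorem on the groups of type `²E₆`.
-/

open NumberField

namespace Vale.Agent.P011.E6

open Vale.Agent.P011.MPQ Vale.Agent.P011.D4 Vale.Agent.P011.D4.Oct
open Matrix

section main

variable {k K : Type} [Field k] [NumberField k] [Field K] [NumberField K] [Algebra k K]
  (h2 : Module.finrank k K = 2) {σ : K ≃ₐ[k] K} (hσ : σ ≠ 1) {a b c : kˣ} {g : Fin 3 → kˣ}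
  (hdiv : Division (up K a) (up K b) (up K c))
  (hanis : ∀ x : AlbL K a b c, herm σ g x x = 0 → x = 0)
  (hpos : ∀ w : K →+* ℝ, Dfn (w.comp (algebraMap k K)) a b c → ∀ i, 0 < w (algebraMap k K (g i)))
  (N : Subgroup (AlbL K a b c ≃ₗ[K] AlbL K a b c)) (hNle : N ≤ GE σ a b c g)
  (hN : ∀ φ ∈ GE σ a b c g, ∀ n ∈ N, φ * n * φ⁻¹ ∈ N) (hA : HasA σ g N)

include h2 hσ hdiv hanis hpos hNle hA hN

/-- A normal subgroup containing the special unitary groups of degree three in all coordinates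
is the whole group. -/
theorem core : N = GE σ a b c g := by
  apply le_antisymm hNle
  intro φ hφ
  obtain ⟨n, hn, h1⟩ := fix_one h2 hσ hdiv hanis hpos N hNle hN hA hφ
  have hφ1 : n * φ ∈ GE σ a b c g := mul_mem (hNle hn) hφ
  obtain ⟨n', hn', h3, h4, h5⟩ := fix_e h2 hσ hdiv hanis hpos N hNle hN hA hφ1 h1
  have hφ2 : n' * (n * φ) ∈ GE σ a b c g := mul_mem (hNle hn') hφ1
  have h6 := mem_of_fix h2 hσ hdiv hanis hpos N hNle hN hA hφ2 h3 h4 h5
  have h7 := mul_mem (inv_mem hn) (mul_mem (inv_mem hn') h6)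
  rwa [inv_mul_cancel_left, inv_mul_cancel_left] at h7

end main

section fin

variable {k K : Type} [Field k] [NumberField k] [Field K] [NumberField K] [Algebra k K]
  (h2 : Module.finrank k K = 2) {σ : K ≃ₐ[k] K} (hσ : σ ≠ 1) {a b c : kˣ} {g : Fin 3 → kˣ}
  (hdiv : Division (up K a) (up K b) (up K c))
  (hanis : ∀ x : AlbL K a b c, herm σ g x x = 0 → x = 0)
  (hpos : ∀ w : K →+* ℝ, Dfn (w.comp (algebraMap k K)) a b c → ∀ i, 0 < w (algebraMap k K (g i)))

include h2 hσ hdiv hanis hpos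

/-- A normal subgroup of the group which contains the special unitary groups is everything. -/
theorem top_of_hasA (N : Subgroup (GE σ a b c g)) [hN : N.Normal]
    (hA : HasA σ g (N.map (GE σ a b c g).subtype)) : N = ⊤ := by
  have h := core h2 hσ hdiv hanis hpos (N.map (GE σ a b c g).subtype)
    (by
      rintro _ ⟨n, -, rfl⟩
      exact n.2)
    (by
      rintro φ hφ _ ⟨n, hn, rfl⟩
      exact ⟨⟨φ, hφ⟩ * n * ⟨φ, hφ⟩⁻¹, hN.conj_mem n hn ⟨φ, hφ⟩, rfl⟩) hA
  rw [eq_top_iff]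
  intro φ _
  have h3 : (φ : AlbL K a b c ≃ₗ[K] AlbL K a b c) ∈ N.map (GE σ a b c g).subtype := by
    rw [h]
    exact φ.2
  obtain ⟨n, hn, hnφ⟩ := h3
  have h1 : n = φ := Subtype.ext hnφ
  rw [← h1]
  exact hn

/-- **Subgroups of finite index.** -/
theorem e6_index (N : Subgroup (GE σ a b c g)) (hi : N.index ≠ 0) : N = ⊤ := by
  have : N.FiniteIndex := ⟨hi⟩
  have hi' : N.normalCore.index ≠ 0 := (inferInstance : N.normalCore.FiniteIndex).index_ne_zero
  have h := top_of_hasA h2 hσ hdiv hanis hpos N.normalCore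
    (hasA_of_index h2 hσ hdiv hanis N.normalCore inferInstance hi')
  rw [eq_top_iff, ← h]
  exact N.normalCore_le

/-- **Normal subgroups.** -/
theorem e6_normal (N : Subgroup (GE σ a b c g)) [N.Normal] :
    N ≤ Subgroup.center (GE σ a b c g) ∨ N = ⊤ := by
  by_cases hN : N ≤ Subgroup.center (GE σ a b c g)
  · exact Or.inl hN
  · exact Or.inr (top_of_hasA h2 hσ hdiv hanis hpos N
      (hasA_of_noncentral h2 hσ hdiv hanis N hN))

end fin

end Vale.Agent.P011.E6
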