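import Mathlib

/-!
The Cayley transform in a cubic norm structure with a conjugation.
-/

namespace Vale.Agent.P011.E6

/-- The part of a cubic norm structure with unit `e` which is needed for the Cayley transform,
together with a semilinear conjugation `bar` over the involution `σ` of the field. -/
structure CayData (K V : Type) [Field K] [AddCommGroup V] [Module K V] (σ : K → K)
    (N : V → K) (sh : V → V) (t : V → K) (e : V) (bar : V → V) : Prop where
  sh_add : ∀ x, sh (e + x) = e + (t x • e - x) + sh x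
  N_add : ∀ x, N (e + x) = 1 + t x + t (sh x) + N x
  sh_sh : ∀ x, sh (sh x) = N x • x
  N_sh : ∀ x, N (sh x) = N x ^ 2
  sh_smul : ∀ (c : K) x, sh (c • x) = c ^ 2 • sh x
  N_smul : ∀ (c : K) x, N (c • x) = c ^ 3 * N x
  t_smul : ∀ (c : K) x, t (c • x) = c * t x
  t_e : t e = 3
  bar_add : ∀ x y, bar (x + y) = bar x + bar y
  bar_smul : ∀ (c : K) x, bar (c • x) = σ c • bar x
  bar_e : bar e = e
  sh_bar : ∀ x, sh (bar x) = bar (sh x)
  N_bar : ∀ x, N (bar x) = σ (N x)

namespace CayData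

variable {K V : Type} [Field K] [AddCommGroup V] [Module K V] {σ : K →+* K}
  {N : V → K} {sh : V → V} {t : V → K} {e : V} {bar : V → V}

/-- The inverse. -/
def inv (N : V → K) (sh : V → V) (x : V) : V := (N x)⁻¹ • sh x

theorem N_e (h : CayData K V σ N sh t e bar) : N e = 1 := by
  have h1 := h.N_add (0 : V)
  have h2 := h.N_smul 0 (0 : V)
  have h3 := h.sh_smul 0 (0 : V)
  have h4 := h.t_smul 0 (0 : V)
  simp only [zero_smul, ne_eq, OfNat.ofNat_ne_zero, not_false_eq_true, zero_pow, zero_mul] at h2 h3 h4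
  rw [h3, h4, h2, add_zero] at h1
  simpa using h1

theorem inv_smul (h : CayData K V σ N sh t e bar) {c : K} (hc : c ≠ 0) (x : V) :
    inv N sh (c • x) = c⁻¹ • inv N sh x := by
  rw [inv, inv, h.N_smul, h.sh_smul, smul_smul, smul_smul]
  congr 1
  by_cases hx : N x = 0
  · simp [hx]
  · field_simp

theorem inv_bar (h : CayData K V σ N sh t e bar) (x : V) :
    inv N sh (bar x) = bar (inv N sh x) := by
  rw [inv, inv, h.N_bar, h.sh_bar, h.bar_smul, map_inv₀]

theorem inv_inv (h : CayData K V σ N sh t e bar) {x : V} (hx : N x ≠ 0) :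
    inv N sh (inv N sh x) = x := by
  rw [inv, inv, h.sh_smul, h.N_smul, h.sh_sh, h.N_sh, smul_smul, smul_smul]
  conv_rhs => rw [← one_smul K x]
  congr 1
  field_simp

theorem N_inv (h : CayData K V σ N sh t e bar) (x : V) : N (inv N sh x) = (N x)⁻¹ := by
  rw [inv, h.N_smul, h.N_sh]
  by_cases hx : N x = 0
  · simp [hx]
  · field_simp

/-- The fundamental identity of the Cayley transform. -/
theorem inv_add_inv (h : CayData K V σ N sh t e bar) {x : V} (hx : N x ≠ 0)
    (h1 : N (e + x) ≠ 0) : inv N sh (e + x) + inv N sh (e + inv N sh x) = e := by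
  have e1 : N (e + inv N sh x) = (N x)⁻¹ * N (e + x) := by
    rw [h.N_add, h.N_inv, h.N_add]
    have e2 : sh (inv N sh x) = (N x)⁻¹ • x := by
      rw [inv, h.sh_smul, h.sh_sh, smul_smul]
      congr 1
      field_simp
    rw [e2, h.t_smul, inv, h.t_smul]
    field_simp
    ring
  have e3 : sh (e + inv N sh x) = e + ((N x)⁻¹ * t (sh x)) • e - (N x)⁻¹ • sh x + (N x)⁻¹ • x := by
    rw [h.sh_add]
    have e2 : sh (inv N sh x) = (N x)⁻¹ • x := by
      rw [inv, h.sh_smul, h.sh_sh, smul_smul]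
      congr 1
      field_simp
    rw [e2, inv, h.t_smul]
    module
  have e4 : inv N sh (e + inv N sh x) = (N (e + x))⁻¹ • ((N x + t (sh x)) • e - sh x + x) := by
    rw [inv, e1, e3]
    have e5 : ((N x)⁻¹ * N (e + x))⁻¹ = (N (e + x))⁻¹ * N x := by
      rw [mul_inv, _root_.inv_inv, mul_comm]
    rw [e5, mul_smul]
    congr 1
    rw [smul_add, smul_sub, smul_add, smul_smul, smul_smul, smul_smul, mul_inv_cancel₀ hx,
      one_smul, one_smul, ← mul_assoc, mul_inv_cancel₀ hx, one_mul, add_smul]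
  have e6 : inv N sh (e + x) = (N (e + x))⁻¹ • ((1 + t x) • e - x + sh x) := by
    rw [inv, h.sh_add]
    congr 1
    module
  rw [e4, e6, ← smul_add]
  have e7 : (1 + t x) • e - x + sh x + ((N x + t (sh x)) • e - sh x + x) = N (e + x) • e := by
    rw [h.N_add]
    module
  rw [e7, smul_smul, inv_mul_cancel₀ h1, one_smul]

/-- **Cayley transform.** -/
theorem exists_real (h : CayData K V σ N sh t e bar) [CharZero K] {δ : K} (hδ : σ δ = -δ)
    (hδ0 : δ ≠ 0) {x : V} (hx : sh x = bar x) (hN : N x = 1) {z : K} (hz : z * σ z = 1)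
    (hzN : N (e + z⁻¹ • x) ≠ 0) :
    ∃ r : V, bar r = r ∧ N (e - δ • r) ≠ 0 ∧
      x = z • ((2 : K) • inv N sh (e - δ • r) - e) := by
  have hz0 : z ≠ 0 := fun h0 => by rw [h0, zero_mul] at hz; exact zero_ne_one hz
  have hσz : σ z = z⁻¹ := (inv_eq_of_mul_eq_one_right hz).symm
  set X := z⁻¹ • x with hX
  have hNX : N X ≠ 0 := by
    rw [hX, h.N_smul, hN, mul_one]
    exact pow_ne_zero _ (inv_ne_zero hz0)
  have hbX : inv N sh X = bar X := by
    rw [hX, h.inv_smul (inv_ne_zero hz0), _root_.inv_inv, h.bar_smul, map_inv₀, hσz,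
      _root_.inv_inv, inv, hN, inv_one, one_smul, hx]
  set u := inv N sh (e + X) with hu
  have hbu : bar u = e - u := by
    rw [hu, ← h.inv_bar, h.bar_add, h.bar_e, ← hbX]
    exact eq_sub_of_add_eq' (h.inv_add_inv hNX hzN)
  have h2 : (2 : K) ≠ 0 := two_ne_zero
  refine ⟨δ⁻¹ • (e - (2 : K) • u), ?_, ?_, ?_⟩
  · rw [h.bar_smul, map_inv₀, hδ]
    have e1 : bar (e - (2 : K) • u) = -(e - (2 : K) • u) := by
      rw [sub_eq_add_neg, h.bar_add, h.bar_e, ← neg_smul, h.bar_smul, map_neg, map_ofNat, hbu]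
      module
    rw [e1, inv_neg, neg_smul, smul_neg, neg_neg]
  · rw [smul_smul, mul_inv_cancel₀ hδ0, one_smul, sub_sub_cancel, h.N_smul, hu, h.N_inv]
    exact mul_ne_zero (pow_ne_zero _ h2) (inv_ne_zero hzN)
  · rw [smul_smul, mul_inv_cancel₀ hδ0, one_smul, sub_sub_cancel, h.inv_smul h2, smul_smul,
      mul_inv_cancel₀ h2, one_smul, hu, h.inv_inv hzN, add_sub_cancel_left, hX, smul_smul,
      mul_inv_cancel₀ hz0, one_smul]

/-- A good scalar exists. -/
theorem exists_scalar (h : CayData K V σ N sh t e bar) (x : V) (hx : N x ≠ 0) {S : Set K}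
    (hS : S.Infinite) : ∃ z ∈ S, N (e + z • x) ≠ 0 := by
  by_contra hcon
  push Not at hcon
  let p : Polynomial K := Polynomial.C 1 + Polynomial.C (t x) * Polynomial.X +
    Polynomial.C (t (sh x)) * Polynomial.X ^ 2 + Polynomial.C (N x) * Polynomial.X ^ 3
  have hp : ∀ z ∈ S, p.eval z = 0 := by
    intro z hz
    have h1 := hcon z hz
    rw [h.N_add, h.t_smul, h.sh_smul, h.t_smul, h.N_smul] at h1
    simp only [p, Polynomial.eval_add, Polynomial.eval_mul, Polynomial.eval_C, Polynomial.eval_X,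
      Polynomial.eval_pow]
    rw [← h1]
    ring
  have hp0 : p = 0 := Polynomial.eq_zero_of_infinite_isRoot p (hS.mono hp)
  have h2 : p.coeff 3 = N x := by
    simp [p, Polynomial.coeff_one]
  rw [hp0, Polynomial.coeff_zero] at h2
  exact hx h2.symm

end CayData

end Vale.Agent.P011.E6
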