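import Vale.Agent.P011.E6.Act

/-!
The centralizer of the norm one group of a quaternion subalgebra.
-/

open Matrix

set_option linter.unusedSectionVars false

namespace Vale.Agent.P011.E6.Cen

open Vale.Agent.P011.MPQ Vale.Agent.P011.D4 Vale.Agent.P011.D4.Oct Vale.Agent.P011.E6.Alb
open Vale.Agent.P011.E6.H64

section field

variable {F : Type} [Field F] {a b c : Fˣ}

/-- The first generator. -/
def gI (a b : Fˣ) : Qt a b := ⟨0, 1, 0, 0⟩

/-- The second generator. -/
def gJ (a b : Fˣ) : Qt a b := ⟨0, 0, 1, 0⟩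

theorem eq_zero_of_re {x : Qt a b} (h : ∀ q : Qt a b, (q * x).re = 0) : x = 0 := by
  have h1 := h 1
  have h2 := h (gI a b)
  have h3 := h (gJ a b)
  have h4 := h ⟨0, 0, 0, 1⟩
  have ha := a.ne_zero
  have hb := b.ne_zero
  simp [gI, gJ] at h1 h2 h3 h4
  ext
  · exact h1
  · exact h2
  · exact h3
  · exact h4

/-- The value of a sesquilinear form. -/
def ev (T : Matrix (Fin 3) (Fin 3) (Qt a b)) (v w : Fin 3 → Qt a b) : Qt a b :=
  (H64.row v * T * (H64.row w)ᴴ) 0 0

theorem ev_single (T : Matrix (Fin 3) (Fin 3) (Qt a b)) (i j : Fin 3) (q : Qt a b) :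
    ev T (Pi.single i q) (Pi.single j 1) = q * T i j := by
  rw [ev, Matrix.mul_apply, Finset.sum_eq_single j]
  · rw [Matrix.mul_apply, Finset.sum_eq_single i]
    · simp [H64.row]
    · intro l _ hl
      simp [H64.row, hl]
    · intro h
      exact absurd (Finset.mem_univ _) h
  · intro l _ hl
    simp [H64.row, hl]
  · intro h
    exact absurd (Finset.mem_univ _) h

theorem eq_zero_of_row {T : Matrix (Fin 3) (Fin 3) (Qt a b)}
    (h : ∀ (v : Fin 3 → Qt a b) (j : Fin 3), (ev T v (Pi.single j 1)).re = 0) :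
    T = 0 := by
  apply Matrix.ext
  intro i j
  exact eq_zero_of_re fun q => by rw [← ev_single T i j q]; exact h _ j

theorem ev_sub (T U : Matrix (Fin 3) (Fin 3) (Qt a b)) (v w : Fin 3 → Qt a b) :
    ev (T - U) v w = ev T v w - ev U v w := by
  rw [ev, ev, ev, Matrix.mul_sub, Matrix.sub_mul, Matrix.sub_apply]

theorem eq_of_row {T U : Matrix (Fin 3) (Fin 3) (Qt a b)}
    (h : ∀ (v : Fin 3 → Qt a b) (j : Fin 3), (ev T v (Pi.single j 1)).re =
      (ev U v (Pi.single j 1)).re) : T = U := by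
  rw [← sub_eq_zero]
  apply eq_zero_of_row
  intro v j
  rw [ev_sub, QuaternionAlgebra.re_sub, h, sub_self]

theorem re_ev_comm {T : Matrix (Fin 3) (Fin 3) (Qt a b)} (hT : T.IsHermitian)
    (v w : Fin 3 → Qt a b) : (ev T w v).re = (ev T v w).re := by
  have h : (H64.row w * T * (H64.row v)ᴴ)ᴴ = H64.row v * T * (H64.row w)ᴴ := by
    rw [conjTranspose_mul, conjTranspose_mul, conjTranspose_conjTranspose, hT.eq,
      Matrix.mul_assoc]
  rw [ev, ev, ← h]
  simp [conjTranspose_apply]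

theorem ev_add (T : Matrix (Fin 3) (Fin 3) (Qt a b)) (v w : Fin 3 → Qt a b) :
    ev T (v + w) (v + w) = ev T v v + ev T w w + (ev T v w + ev T w v) := by
  have h : H64.row (v + w) = H64.row v + H64.row w := rfl
  rw [ev, h, conjTranspose_add, Matrix.add_mul, Matrix.add_mul, Matrix.mul_add,
    Matrix.mul_add, Matrix.add_apply, Matrix.add_apply, Matrix.add_apply]
  simp only [ev]
  abel

theorem eq_of_quad (h2 : (2 : F) ≠ 0) {T U : Matrix (Fin 3) (Fin 3) (Qt a b)}
    (hT : T.IsHermitian) (hU : U.IsHermitian)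
    (h : ∀ v : Fin 3 → Qt a b, (ev T v v).re = (ev U v v).re) : T = U := by
  apply eq_of_row
  intro v j
  have h1 := h (v + Pi.single j 1)
  rw [ev_add, ev_add, QuaternionAlgebra.re_add, QuaternionAlgebra.re_add,
    QuaternionAlgebra.re_add, QuaternionAlgebra.re_add, QuaternionAlgebra.re_add,
    QuaternionAlgebra.re_add, h, h, re_ev_comm hT v (Pi.single j 1),
    re_ev_comm hU v (Pi.single j 1)] at h1
  have h3 : (2 : F) * (ev T v (Pi.single j 1)).re = 2 * (ev U v (Pi.single j 1)).re := by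
    linear_combination h1
  exact mul_left_cancel₀ h2 h3

/-- Maps compatible with the left multiplications. -/
theorem map_mul_left {f : (Fin 3 → Qt a b) → (Fin 3 → Qt a b)}
    (hadd : ∀ v w, f (v + w) = f v + f w) (hsm : ∀ (r : F) v, f (r • v) = r • f v)
    (hi : ∀ v, f (fun i => gI a b * v i) = fun i => gI a b * f v i)
    (hj : ∀ v, f (fun i => gJ a b * v i) = fun i => gJ a b * f v i)
    (q : Qt a b) (v : Fin 3 → Qt a b) : f (fun i => q * v i) = fun i => q * f v i := by
  have e : ∀ w : Fin 3 → Qt a b, (fun i => q * w i) = q.re • w + q.imI • (fun i => gI a b * w i) +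
      q.imJ • (fun i => gJ a b * w i) + q.imK • (fun i => gI a b * (gJ a b * w i)) := by
    intro w
    funext i
    ext <;> simp [gI, gJ] <;> ring
  rw [e, e (f v), hadd, hadd, hadd, hsm, hsm, hsm, hsm, hi, hj, hi fun i => gJ a b * v i, hj]

theorem eq_vecMul {f : (Fin 3 → Qt a b) → (Fin 3 → Qt a b)}
    (hadd : ∀ v w, f (v + w) = f v + f w)
    (hmul : ∀ (q : Qt a b) v, f (fun i => q * v i) = fun i => q * f v i) (v : Fin 3 → Qt a b) :
    f v = vecMul v (Matrix.of fun i => f (Pi.single i 1)) := by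
  have e : v = (fun j => v 0 * (Pi.single 0 1 : Fin 3 → Qt a b) j) +
      (fun j => v 1 * (Pi.single 1 1 : Fin 3 → Qt a b) j) +
      (fun j => v 2 * (Pi.single 2 1 : Fin 3 → Qt a b) j) := by
    funext j
    fin_cases j <;> simp
  conv_lhs => rw [e]
  rw [hadd, hadd, hmul, hmul, hmul]
  funext j
  simp [vecMul, dotProduct, Fin.sum_univ_three]

theorem eq_one_of_vecMul {M : Matrix (Fin 3) (Fin 3) (Qt a b)}
    (h : ∀ v : Fin 3 → Qt a b, vecMul v M = v) : M = 1 := by
  apply Matrix.ext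
  intro i j
  have h1 := congrFun (h (Pi.single i 1)) j
  rw [Matrix.single_one_vecMul] at h1
  rw [Matrix.one_apply]
  exact h1.trans (by rw [Pi.single_apply]; simp only [eq_comm])

/-! ### The maps which commute with the norm one group -/

theorem mat_act_one (h2 : (2 : F) ≠ 0) (κ : Qt a b) (x : Alb a b c) :
    mat (act 1 κ x) = mat x := by
  rw [H64.mat_act h2, Units.val_one, conjTranspose_one, Matrix.one_mul, Matrix.mul_one]

theorem vec_act_one (κ : Qt a b) (x : Alb a b c) (i : Fin 3) :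
    Alb.vec (act 1 κ x) i = κ * Alb.vec x i := by
  rw [act, vec_ofMV, inv_one, Units.val_one, vecMul_one]

variable {φ : Alb a b c ≃ₗ[F] Alb a b c}

theorem vec_map_zero (h2 : (2 : F) ≠ 0) (hn : ∀ x, φ (act 1 (-1) x) = act 1 (-1) (φ x))
    {x : Alb a b c} (hx : Alb.vec x = 0) : Alb.vec (φ x) = 0 := by
  have e : act 1 (-1) x = x := by
    apply ext_mat_vec
    · exact mat_act_one h2 _ _
    · congr 1
      funext i
      rw [vec_act_one, hx, Pi.zero_apply, mul_zero]
  have h1 := hn x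
  rw [e] at h1
  funext i
  have h3 := vec_act_one (-1) (φ x) i
  rw [← h1, neg_mul, one_mul] at h3
  have h4 : (2 : F) • Alb.vec (φ x) i = 0 := by
    rw [two_smul]
    nth_rw 1 [h3]
    exact neg_add_cancel _
  exact (smul_eq_zero.mp h4).resolve_left h2

theorem mat_map_zero (h2 : (2 : F) ≠ 0) (hn : ∀ x, φ (act 1 (-1) x) = act 1 (-1) (φ x))
    {x : Alb a b c} (hx : mat x = 0) : mat (φ x) = 0 := by
  have e : act 1 (-1) x = (-1 : F) • x := by
    apply ext_mat_vec
    · rw [mat_act_one h2, hx, mat_smul, hx, smul_zero]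
    · congr 1
      funext i
      rw [vec_act_one, H64.vec_smul, Pi.smul_apply, neg_mul, one_mul, neg_smul, one_smul]
  have h1 := hn x
  rw [e, map_smul] at h1
  have h3 := mat_act_one h2 (-1) (φ x)
  rw [← h1, mat_smul, neg_smul, one_smul] at h3
  have h4 : (2 : F) • mat (φ x) = 0 := by
    rw [two_smul]
    nth_rw 1 [← h3]
    exact neg_add_cancel _
  exact (smul_eq_zero.mp h4).resolve_left h2

theorem mat_ofMV_zero (v : Fin 3 → Qt a b) : mat (ofMV 0 v : Alb a b c) = 0 := by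
  apply Matrix.ext
  intro i j
  fin_cases i <;> fin_cases j <;> simp [mat, ofMV]

theorem split (x : Alb a b c) : x = ofMV (mat x) 0 + ofMV 0 (Alb.vec x) := by
  rw [← ofMV_add, add_zero, zero_add, ofMV_mat_vec]

theorem vec_map (h2 : (2 : F) ≠ 0) (hn : ∀ x, φ (act 1 (-1) x) = act 1 (-1) (φ x))
    (x : Alb a b c) : Alb.vec (φ x) = Alb.vec (φ (ofMV 0 (Alb.vec x))) := by
  conv_lhs => rw [split x]
  rw [map_add, H64.vec_add, vec_map_zero h2 hn (vec_ofMV _ _), zero_add]

theorem mat_map (h2 : (2 : F) ≠ 0) (hn : ∀ x, φ (act 1 (-1) x) = act 1 (-1) (φ x))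
    (x : Alb a b c) : mat (φ x) = mat (φ (ofMV (mat x) 0)) := by
  conv_lhs => rw [split x]
  rw [map_add, mat_add, mat_map_zero h2 hn (mat_ofMV_zero _), add_zero]

/-- The action on the `l`-part. -/
def fv (φ : Alb a b c ≃ₗ[F] Alb a b c) (v : Fin 3 → Qt a b) : Fin 3 → Qt a b :=
  Alb.vec (φ (ofMV 0 v))

theorem fv_add (v w : Fin 3 → Qt a b) : fv φ (v + w) = fv φ v + fv φ w := by
  have e : (ofMV 0 (v + w) : Alb a b c) = ofMV 0 v + ofMV 0 w := by
    rw [← ofMV_add, add_zero]
  rw [fv, e, map_add, H64.vec_add]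
  rfl

theorem fv_smul (r : F) (v : Fin 3 → Qt a b) : fv φ (r • v) = r • fv φ v := by
  have e : (ofMV 0 (r • v) : Alb a b c) = r • ofMV 0 v := by
    rw [← ofMV_smul, smul_zero]
  rw [fv, e, map_smul, H64.vec_smul]
  rfl

theorem fv_act {t : Qt a b} (h2 : (2 : F) ≠ 0) (ht : ∀ x, φ (act 1 t x) = act 1 t (φ x))
    (v : Fin 3 → Qt a b) : fv φ (fun i => t * v i) = fun i => t * fv φ v i := by
  have e : (ofMV 0 (fun i => t * v i) : Alb a b c) = act 1 t (ofMV 0 v) := by
    apply ext_mat_vec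
    · rw [mat_act_one h2, mat_ofMV_zero, mat_ofMV_zero]
    · congr 1
      funext i
      rw [vec_act_one, vec_ofMV, vec_ofMV]
  funext i
  rw [fv, e, ht, vec_act_one]
  rfl

theorem fv_mul_of {q t : Qt a b} {α β : F} (hβ : β ≠ 0) (ht : t = (α : Qt a b) + β • q)
    (h : ∀ v, fv φ (fun i => t * v i) = fun i => t * fv φ v i) (v : Fin 3 → Qt a b) :
    fv φ (fun i => q * v i) = fun i => q * fv φ v i := by
  have e : ∀ w : Fin 3 → Qt a b, (fun i => t * w i) = α • w + β • fun i => q * w i := by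
    intro w
    funext i
    rw [ht, add_mul, smul_mul_assoc, QuaternionAlgebra.coe_mul_eq_smul]
    rfl
  have h1 := h v
  rw [e, e, fv_add, fv_smul, fv_smul] at h1
  exact smul_right_injective _ hβ (add_left_cancel h1)

/-- The matrix of the action on the `l`-part. -/
theorem exists_vecMul (h2 : (2 : F) ≠ 0) (hab : Aniso a b)
    (hn : ∀ x, φ (act 1 (-1) x) = act 1 (-1) (φ x))
    (hi : ∀ x, φ (act 1 ((((1 + a) / (1 - a) : F) : Qt a b) + (2 / (1 - a) : F) • gI a b) x) =
      act 1 ((((1 + a) / (1 - a) : F) : Qt a b) + (2 / (1 - a) : F) • gI a b) (φ x))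
    (hj : ∀ x, φ (act 1 ((((1 + b) / (1 - b) : F) : Qt a b) + (2 / (1 - b) : F) • gJ a b) x) =
      act 1 ((((1 + b) / (1 - b) : F) : Qt a b) + (2 / (1 - b) : F) • gJ a b) (φ x)) :
    ∃ h : Matrix (Fin 3) (Fin 3) (Qt a b), ∀ x, Alb.vec (φ x) = vecMul (Alb.vec x) h := by
  have ha : (1 - a : F) ≠ 0 := by
    intro h0
    have h1 := hab (1 + gI a b) (by simp [nrd, gI]; exact h0)
    have h3 := congrArg QuaternionAlgebra.re h1
    simp [gI] at h3
  have hb : (1 - b : F) ≠ 0 := by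
    intro h0
    have h1 := hab (1 + gJ a b) (by simp [nrd, gJ]; exact h0)
    have h3 := congrArg QuaternionAlgebra.re h1
    simp [gJ] at h3
  have h3 := map_mul_left (f := fv φ) fv_add fv_smul
    (fv_mul_of (div_ne_zero h2 ha) rfl (fv_act h2 hi))
    (fv_mul_of (div_ne_zero h2 hb) rfl (fv_act h2 hj))
  refine ⟨Matrix.of fun i => fv φ (Pi.single i 1), fun x => ?_⟩
  rw [vec_map h2 hn]
  exact eq_vecMul fv_add h3 _

theorem zero_isHermitian : (0 : Matrix (Fin 3) (Fin 3) (Qt a b)).IsHermitian := by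
  rw [IsHermitian, conjTranspose_zero]

theorem eq_one_of_inv {φ ψ : Alb a b c ≃ₗ[F] Alb a b c} (h0 : ∀ x, ψ (φ x) = x)
    {h h' : Matrix (Fin 3) (Fin 3) (Qt a b)} (h1 : ∀ x, Alb.vec (φ x) = vecMul (Alb.vec x) h)
    (h3 : ∀ x, Alb.vec (ψ x) = vecMul (Alb.vec x) h') : h * h' = 1 := by
  apply eq_one_of_vecMul
  intro v
  have e := h3 (φ (ofMV 0 v))
  rw [h0, h1, vec_ofMV, Matrix.vecMul_vecMul] at e
  exact e.symm

/-- The action on the hermitian part. -/
theorem mat_of_cub (h2 : (2 : F) ≠ 0) (hcub : ∀ x, cub (φ x) = cub x)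
    (hn : ∀ x, φ (act 1 (-1) x) = act 1 (-1) (φ x)) {h : Matrix (Fin 3) (Fin 3) (Qt a b)}
    (hh : ∀ x, Alb.vec (φ x) = vecMul (Alb.vec x) h) (x : Alb a b c) :
    h * mat (φ x) * hᴴ = mat x := by
  apply eq_of_quad h2 (conj_isHermitian (mat_isHermitian _) _) (mat_isHermitian _)
  intro v
  have h3 : ∀ w : Fin 3 → Qt a b, herN (mat (φ x)) + c * (ev (mat (φ x)) (vecMul w h)
      (vecMul w h)).re = herN (mat x) + c * (ev (mat x) w w).re := by
    intro w
    have h4 := hcub (ofMV (mat x) w)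
    rw [cub_eq, cub_eq, hh, vec_ofMV, mat_map h2 hn, mat_ofMV h2 (mat_isHermitian x),
      ← mat_map h2 hn] at h4
    exact h4
  have h4 := h3 0
  have h5 := h3 v
  have e0 : ∀ T : Matrix (Fin 3) (Fin 3) (Qt a b), ev T 0 0 = 0 := by
    intro T
    have : H64.row (0 : Fin 3 → Qt a b) = 0 := rfl
    rw [ev, this, Matrix.zero_mul, Matrix.zero_mul, Matrix.zero_apply]
  rw [zero_vecMul, e0, e0] at h4
  have e1 : ev (h * mat (φ x) * hᴴ) v v = ev (mat (φ x)) (vecMul v h) (vecMul v h) := by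
    rw [ev, ev, H64.row_vecMul, conjTranspose_mul]
    simp only [Matrix.mul_assoc]
  rw [e1]
  have h6 : (c : F) * (ev (mat (φ x)) (vecMul v h) (vecMul v h)).re =
      c * (ev (mat x) v v).re := by
    linear_combination h5 - h4
  exact mul_left_cancel₀ c.ne_zero h6

end field

section ext

variable {k K : Type} [Field k] [Field K] [Algebra k K] {σ : K ≃ₐ[k] K} {a b c : kˣ}
  {g : Fin 3 → kˣ}

theorem qup_coe (t : k) :
    qup K (t : Qt a b) = ((algebraMap k K t : K) : Qt (up K a) (up K b)) :=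
  QuaternionAlgebra.ext rfl (map_zero _) (map_zero _) (map_zero _)

theorem qup_gI : qup K (gI a b) = gI (up K a) (up K b) :=
  QuaternionAlgebra.ext (map_zero _) (map_one _) (map_zero _) (map_zero _)

theorem qup_gJ : qup K (gJ a b) = gJ (up K a) (up K b) :=
  QuaternionAlgebra.ext (map_zero _) (map_zero _) (map_one _) (map_zero _)

theorem qup_I : qup K ((((1 + a) / (1 - a) : k) : Qt a b) + (2 / (1 - a) : k) • gI a b) =
      (((1 + up K a) / (1 - up K a) : K) : Qt (up K a) (up K b)) +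
        (2 / (1 - up K a) : K) • gI (up K a) (up K b) := by
  rw [qup_add, qup_smul, qup_coe, qup_gI, map_div₀, map_div₀, map_add, map_sub, map_one,
    map_ofNat]
  rfl

theorem qup_J : qup K ((((1 + b) / (1 - b) : k) : Qt a b) + (2 / (1 - b) : k) • gJ a b) =
      (((1 + up K b) / (1 - up K b) : K) : Qt (up K a) (up K b)) +
        (2 / (1 - up K b) : K) • gJ (up K a) (up K b) := by
  rw [qup_add, qup_smul, qup_coe, qup_gJ, map_div₀, map_div₀, map_add, map_sub, map_one,
    map_ofNat]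
  rfl

theorem nrd_I (ha : (1 - a : k) ≠ 0) :
    nrd ((((1 + a) / (1 - a) : k) : Qt a b) + (2 / (1 - a) : k) • gI a b) = 1 := by
  simp [nrd, gI]
  field_simp
  ring

theorem nrd_J (hb : (1 - b : k) ≠ 0) :
    nrd ((((1 + b) / (1 - b) : k) : Qt a b) + (2 / (1 - b) : k) • gJ a b) = 1 := by
  simp [nrd, gJ]
  field_simp
  ring

theorem one_sub_ne {F : Type} [Field F] {a b : Fˣ} (hab : Aniso a b) :
    (1 - a : F) ≠ 0 ∧ (1 - b : F) ≠ 0 := by
  constructor
  · intro h0
    have h1 := hab (1 + gI a b) (by simp [nrd, gI]; exact h0)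
    have h3 := congrArg QuaternionAlgebra.re h1
    simp [gI] at h3
  · intro h0
    have h1 := hab (1 + gJ a b) (by simp [nrd, gJ]; exact h0)
    have h3 := congrArg QuaternionAlgebra.re h1
    simp [gJ] at h3

theorem map_single (j : Fin 3) :
    (fun i => qmap σ ((Pi.single j 1 : Fin 3 → Qt (up K a) (up K b)) i)) = Pi.single j 1 := by
  funext i
  by_cases h : i = j
  · subst h
    rw [Pi.single_eq_same, qmap_one]
  · rw [Pi.single_eq_of_ne h, qmap_zero]

theorem map_vecMul (v : Fin 3 → Qt (up K a) (up K b))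
    (h : Matrix (Fin 3) (Fin 3) (Qt (up K a) (up K b))) :
    (fun i => qmap σ (vecMul v h i)) = vecMul (fun i => qmap σ (v i)) (h.map (qmap σ)) := by
  funext i
  simp only [vecMul, dotProduct, Fin.sum_univ_three, qmap_add, qmap_mul, Matrix.map_apply]

/-- The hermitian form on the `l`-part. -/
theorem herm_vec {x y : AlbL K a b c} (hx : mat x = 0) :
    herm σ g x y = -(2 * (up K c : K) * (upG K g 0 * upG K g 1 * upG K g 2) *
      (ev (dgi (up K a) (up K b) (upG K g)) (Alb.vec x)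
        (fun i => qmap σ (Alb.vec y i))).re) := by
  rw [herm, tf_eq, hx, Matrix.zero_mul, Matrix.zero_mul, Matrix.zero_mul, Matrix.trace_zero,
    QuaternionAlgebra.re_zero, zero_sub]
  have e : Alb.vec (amap σ y) = fun i => qmap σ (Alb.vec y i) := funext fun i => vec_amap σ y i
  rw [e]
  rfl

end ext

end Vale.Agent.P011.E6.Cen

namespace Vale.Agent.P011.E6

open Vale.Agent.P011.MPQ Vale.Agent.P011.D4 Vale.Agent.P011.D4.Oct Vale.Agent.P011.E6.Alb
open Vale.Agent.P011.E6.H64

/-- The centralizer of the norm one group of the quaternion subalgebra is the special unitary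
group over the quaternion algebra. -/
theorem cen {k K : Type} [Field k] [Field K] [NeZero (2 : K)] [Algebra k K] {σ : K ≃ₐ[k] K}
    {a b c : kˣ} {g : Fin 3 → kˣ} (hQ : Aniso (up K a) (up K b))
    {φ : AlbL K a b c ≃ₗ[K] AlbL K a b c} (hφ : φ ∈ GE σ a b c g)
    (hc : ∀ t : Qt a b, nrd t = 1 → ∀ x, φ (Alb.act 1 (qup K t) x) = Alb.act 1 (qup K t) (φ x)) :
    ∃ m : (Matrix (Fin 3) (Fin 3) (Qt (up K a) (up K b)))ˣ,
      IsU σ g g (m : Matrix (Fin 3) (Fin 3) (Qt (up K a) (up K b))) ∧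
      nu (m : Matrix (Fin 3) (Fin 3) (Qt (up K a) (up K b))) = 1 ∧
      ∀ x, φ x = Alb.act m 1 x := by
  have h2 : (2 : K) ≠ 0 := two_ne_zero
  obtain ⟨ha, hb⟩ := Cen.one_sub_ne hQ
  have ha' : (1 - a : k) ≠ 0 := fun h0 => ha (by
    have := congrArg (algebraMap k K) h0
    rwa [map_sub, map_one, map_zero] at this)
  have hb' : (1 - b : k) ≠ 0 := fun h0 => hb (by
    have := congrArg (algebraMap k K) h0
    rwa [map_sub, map_one, map_zero] at this)
  -- both `φ` and its inverse commute with the three elements used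
  have key : ∀ ψ : AlbL K a b c ≃ₗ[K] AlbL K a b c,
      (∀ t : Qt a b, nrd t = 1 → ∀ x, ψ (Alb.act 1 (qup K t) x) = Alb.act 1 (qup K t) (ψ x)) →
      (∀ x, ψ (act 1 (-1) x) = act 1 (-1) (ψ x)) ∧
      ∃ h : Matrix (Fin 3) (Fin 3) (Qt (up K a) (up K b)),
        ∀ x, Alb.vec (ψ x) = vecMul (Alb.vec x) h := by
    intro ψ hψ
    have hn : ∀ x, ψ (act 1 (-1) x) = act 1 (-1) (ψ x) := by
      intro x
      have h1 := hψ (-1) (by simp [nrd]) x
      rwa [qup_neg, qup_one] at h1
    refine ⟨hn, Cen.exists_vecMul h2 hQ hn ?_ ?_⟩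
    · intro x
      have h1 := hψ _ (Cen.nrd_I ha') x
      rwa [Cen.qup_I] at h1
    · intro x
      have h1 := hψ _ (Cen.nrd_J hb') x
      rwa [Cen.qup_J] at h1
  obtain ⟨hn, h, hh⟩ := key φ hc
  obtain ⟨-, h', hh'⟩ := key φ.symm (by
    intro t ht x
    apply φ.injective
    rw [φ.apply_symm_apply, hc t ht, φ.apply_symm_apply])
  have e1 : h * h' = 1 := Cen.eq_one_of_inv (fun x => φ.symm_apply_apply x) hh hh'
  have e2 : h' * h = 1 := Cen.eq_one_of_inv (fun x => φ.apply_symm_apply x) hh' hh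
  let m : (Matrix (Fin 3) (Fin 3) (Qt (up K a) (up K b)))ˣ := ⟨h', h, e2, e1⟩
  have hmat : ∀ x, mat (φ x) = h' * mat x * h'ᴴ := by
    intro x
    have e3 : hᴴ * h'ᴴ = 1 := by rw [← conjTranspose_mul, e2, conjTranspose_one]
    rw [← Cen.mat_of_cub h2 hφ.1 hn hh x]
    calc mat (φ x) = (h' * h) * mat (φ x) * (hᴴ * h'ᴴ) := by
          rw [e2, e3, Matrix.one_mul, Matrix.mul_one]
      _ = _ := by simp only [Matrix.mul_assoc]
  have hact : ∀ x, φ x = Alb.act m 1 x := by
    intro x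
    apply ext_mat_vec
    · rw [hmat, H64.mat_act h2]
    · congr 1
      funext i
      rw [hh, act, vec_ofMV, one_mul]
      rfl
  refine ⟨m, ?_, ?_, hact⟩
  · -- the hermitian form
    have hT : h * dgi (up K a) (up K b) (upG K g) * (h.map (qmap σ))ᴴ =
        dgi (up K a) (up K b) (upG K g) := by
      apply Cen.eq_of_row
      intro v j
      have e3 := hφ.2 (ofMV 0 v) (ofMV 0 (Pi.single j 1))
      rw [Cen.herm_vec (Cen.mat_map_zero h2 hn (Cen.mat_ofMV_zero _)),
        Cen.herm_vec (Cen.mat_ofMV_zero _), hh, hh, vec_ofMV, vec_ofMV, Cen.map_vecMul,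
        Cen.map_single, neg_inj] at e3
      have e4 := mul_left_cancel₀ (mul_ne_zero (mul_ne_zero h2 (up K c).ne_zero)
        (mul_ne_zero (mul_ne_zero (upG K g 0).ne_zero (upG K g 1).ne_zero)
          (upG K g 2).ne_zero)) e3
      rw [← e4, Cen.ev, Cen.ev, H64.row_vecMul, H64.row_vecMul, conjTranspose_mul]
      simp only [Matrix.mul_assoc]
    have e5 : (h.map (qmap σ)) * (h'.map (qmap σ)) = 1 := by
      rw [← map_mul_qmap, e1]
      exact Matrix.map_one _ (qmap_zero σ) (qmap_one σ)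
    have e6 : (h'.map (qmap σ))ᴴ * (h.map (qmap σ))ᴴ = 1 := by
      rw [← conjTranspose_mul, e5, conjTranspose_one]
    change (h'.map (qmap σ))ᴴ * dg (up K a) (up K b) (upG K g) * h' = _
    calc (h'.map (qmap σ))ᴴ * dg (up K a) (up K b) (upG K g) * h' =
          (h'.map (qmap σ))ᴴ * dg (up K a) (up K b) (upG K g) * h' *
            (h * dgi (up K a) (up K b) (upG K g) * (h.map (qmap σ))ᴴ *
              dg (up K a) (up K b) (upG K g)) := by
            rw [hT, dgi_mul_dg, Matrix.mul_one]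
      _ = (h'.map (qmap σ))ᴴ * (dg (up K a) (up K b) (upG K g) * (h' * h) *
            dgi (up K a) (up K b) (upG K g)) * (h.map (qmap σ))ᴴ *
              dg (up K a) (up K b) (upG K g) := by simp only [Matrix.mul_assoc]
      _ = dg (up K a) (up K b) (upG K g) := by
            rw [e2, Matrix.mul_one, dg_mul_dgi, Matrix.mul_one, e6, Matrix.one_mul]
  · -- the reduced norm
    have e3 := hφ.1 (ofMV 1 0)
    rw [cub_eq, cub_eq, hmat, hh, vec_ofMV, zero_vecMul,
      mat_ofMV h2 isHermitian_one, H64.herN_mul h2 hQ _ _ isHermitian_one, herN_one, mul_one] at e3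
    have e0 : ∀ T : Matrix (Fin 3) (Fin 3) (Qt (up K a) (up K b)),
        (H64.row (0 : Fin 3 → Qt (up K a) (up K b)) * T *
          (H64.row (0 : Fin 3 → Qt (up K a) (up K b)))ᴴ) = 0 := by
      intro T
      have : H64.row (0 : Fin 3 → Qt (up K a) (up K b)) = 0 := rfl
      rw [this, Matrix.zero_mul, Matrix.zero_mul]
    rw [e0, e0, Matrix.zero_apply, QuaternionAlgebra.re_zero, mul_zero, add_zero, add_zero] at e3
    exact e3

end Vale.Agent.P011.E6
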