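import Vale.Agent.P011.E6.HitF2
import Vale.Agent.P011.E6.Cen
import Vale.Agent.P011.E6.FixB
import Vale.Agent.P011.E6.LanGood
import Vale.Agent.P011.E6.Five
import Vale.Agent.P011.E6.Reach
import Vale.Agent.P011.E6.H64.Glue

/-!
Normal subgroups of the group of type `²E₆` that are not central: they meet the special unitary
group of degree three over a quaternion subalgebra, in some coordinates, outside the scalars.
-/

open NumberField Topology Matrix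

namespace Vale.Agent.P011.E6

open Vale.Agent.P011.MPQ Vale.Agent.P011.D4 Vale.Agent.P011.D4.Oct Alb

section defs

variable {k K : Type} [Field k] [Field K] [Algebra k K]

/-- A normal subgroup of the group of type `²E₆`. -/
structure Ctx (σ : K ≃ₐ[k] K) {a b c : kˣ} (g : Fin 3 → kˣ)
    (N : Subgroup (AlbL K a b c ≃ₗ[K] AlbL K a b c)) : Prop where
  /-- the octonion algebra over the extension is a division algebra -/
  div : Division (up K a) (up K b) (up K c)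
  /-- the hermitian form is anisotropic -/
  anis : ∀ x : AlbL K a b c, herm σ g x x = 0 → x = 0
  /-- the subgroup is contained in the group -/
  le : N ≤ GE σ a b c g
  /-- the subgroup is normal -/
  normal : ∀ φ ∈ GE σ a b c g, ∀ n ∈ N, φ * n * φ⁻¹ ∈ N

/-- The element is over the quaternion algebra. -/
def Qd {F : Type} [Field F] {a b c : Fˣ} (x : Alb a b c) : Prop :=
  x.x1.snd = 0 ∧ x.x2.snd = 0 ∧ x.x3.snd = 0

end defs

section pull

variable {k K : Type} [Field k] [Field K] [Algebra k K] {σ : K ≃ₐ[k] K}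
  {a b c a' b' c' : kˣ} {g g' : Fin 3 → kˣ}

/-- The subgroup in other coordinates. -/
def pull (ψ : AlbL K a' b' c' ≃ₗ[K] AlbL K a b c)
    (N : Subgroup (AlbL K a b c ≃ₗ[K] AlbL K a b c)) :
    Subgroup (AlbL K a' b' c' ≃ₗ[K] AlbL K a' b' c') where
  carrier := {φ | (ψ.symm.trans φ).trans ψ ∈ N}
  mul_mem' := by
    intro φ φ' h h'
    have e : (ψ.symm.trans (φ * φ')).trans ψ =
        ((ψ.symm.trans φ).trans ψ) * ((ψ.symm.trans φ').trans ψ) := by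
      apply LinearEquiv.ext
      intro x
      change ψ (φ (φ' (ψ.symm x))) = ψ (φ (ψ.symm (ψ (φ' (ψ.symm x)))))
      rw [LinearEquiv.symm_apply_apply]
    change (ψ.symm.trans (φ * φ')).trans ψ ∈ N
    rw [e]
    exact mul_mem h h'
  one_mem' := by
    have e : (ψ.symm.trans (1 : AlbL K a' b' c' ≃ₗ[K] AlbL K a' b' c')).trans ψ = 1 := by
      apply LinearEquiv.ext
      intro x
      change ψ (ψ.symm x) = x
      rw [LinearEquiv.apply_symm_apply]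
    change (ψ.symm.trans (1 : AlbL K a' b' c' ≃ₗ[K] AlbL K a' b' c')).trans ψ ∈ N
    rw [e]
    exact one_mem _
  inv_mem' := by
    intro φ h
    have e : (ψ.symm.trans (φ⁻¹ : AlbL K a' b' c' ≃ₗ[K] AlbL K a' b' c')).trans ψ =
        ((ψ.symm.trans φ).trans ψ)⁻¹ := by
      rw [eq_inv_iff_mul_eq_one]
      apply LinearEquiv.ext
      intro x
      change ψ ((φ⁻¹ : AlbL K a' b' c' ≃ₗ[K] AlbL K a' b' c') (ψ.symm (ψ (φ (ψ.symm x))))) = x
      rw [LinearEquiv.symm_apply_apply, ← LinearEquiv.mul_apply, inv_mul_cancel]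
      exact ψ.apply_symm_apply x
    change (ψ.symm.trans (φ⁻¹ : AlbL K a' b' c' ≃ₗ[K] AlbL K a' b' c')).trans ψ ∈ N
    rw [e]
    exact inv_mem h

theorem mem_pull {ψ : AlbL K a' b' c' ≃ₗ[K] AlbL K a b c}
    {N : Subgroup (AlbL K a b c ≃ₗ[K] AlbL K a b c)}
    {φ : AlbL K a' b' c' ≃ₗ[K] AlbL K a' b' c'} :
    φ ∈ pull ψ N ↔ (ψ.symm.trans φ).trans ψ ∈ N := Iff.rfl

theorem mem_pull_of {ψ : AlbL K a' b' c' ≃ₗ[K] AlbL K a b c}
    {N : Subgroup (AlbL K a b c ≃ₗ[K] AlbL K a b c)} {φ : AlbL K a b c ≃ₗ[K] AlbL K a b c}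
    (h : φ ∈ N) : (ψ.trans φ).trans ψ.symm ∈ pull ψ N := by
  rw [mem_pull]
  have e : (ψ.symm.trans ((ψ.trans φ).trans ψ.symm)).trans ψ = φ := by
    apply LinearEquiv.ext
    intro x
    change ψ (ψ.symm (φ (ψ (ψ.symm x)))) = φ x
    rw [LinearEquiv.apply_symm_apply, LinearEquiv.apply_symm_apply]
  rw [e]
  exact h

theorem pull_le {ψ : AlbL K a' b' c' ≃ₗ[K] AlbL K a b c} (hψ : IsCoord σ g g' ψ)
    {N : Subgroup (AlbL K a b c ≃ₗ[K] AlbL K a b c)} (hN : N ≤ GE σ a b c g) :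
    pull ψ N ≤ GE σ a' b' c' g' := by
  intro φ hφ
  have h := hψ.symm.conj_mem (hN (mem_pull.1 hφ))
  have e : (ψ.symm.symm.trans ((ψ.symm.trans φ).trans ψ)).trans ψ.symm = φ := by
    apply LinearEquiv.ext
    intro x
    change ψ.symm (ψ (φ (ψ.symm (ψ x)))) = φ x
    rw [LinearEquiv.symm_apply_apply, LinearEquiv.symm_apply_apply]
  rwa [e] at h

theorem pull_normal {ψ : AlbL K a' b' c' ≃ₗ[K] AlbL K a b c} (hψ : IsCoord σ g g' ψ)
    {N : Subgroup (AlbL K a b c ≃ₗ[K] AlbL K a b c)}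
    (hN : ∀ φ ∈ GE σ a b c g, ∀ n ∈ N, φ * n * φ⁻¹ ∈ N) :
    ∀ φ ∈ GE σ a' b' c' g', ∀ n ∈ pull ψ N, φ * n * φ⁻¹ ∈ pull ψ N := by
  intro φ hφ n hn
  have h := hN _ (hψ.conj_mem hφ) _ (mem_pull.1 hn)
  rw [mem_pull]
  have e : (ψ.symm.trans (φ * n * φ⁻¹)).trans ψ =
      (ψ.symm.trans φ).trans ψ * (ψ.symm.trans n).trans ψ * ((ψ.symm.trans φ).trans ψ)⁻¹ := by
    rw [eq_mul_inv_iff_mul_eq]
    apply LinearEquiv.ext
    intro x
    change ψ (φ (n ((φ⁻¹ : AlbL K a' b' c' ≃ₗ[K] AlbL K a' b' c')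
      (ψ.symm (ψ (φ (ψ.symm x))))))) = ψ (φ (ψ.symm (ψ (n (ψ.symm x)))))
    rw [LinearEquiv.symm_apply_apply, LinearEquiv.symm_apply_apply,
      ← LinearEquiv.mul_apply φ⁻¹ φ, inv_mul_cancel]
    rfl
  rw [e]
  exact h

theorem Ctx.pull {ψ : AlbL K a' b' c' ≃ₗ[K] AlbL K a b c} (hψ : IsCoord σ g g' ψ)
    (hdiv : Division (up K a') (up K b') (up K c'))
    {N : Subgroup (AlbL K a b c ≃ₗ[K] AlbL K a b c)} (h : Ctx σ g N) :
    Ctx σ g' (E6.pull ψ N) := by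
  refine ⟨hdiv, fun x hx => ?_, pull_le hψ h.le, pull_normal hψ h.normal⟩
  rw [← hψ.herm] at hx
  have h1 := h.anis _ hx
  rwa [LinearEquiv.map_eq_zero_iff] at h1

end pull

section move

variable {F : Type} [Field F] {a b c : Fˣ}

theorem act_one_eq (κ : Qt a b) (x : Alb a b c) : Alb.act 1 κ x =
    ⟨x.d1, x.d2, x.d3, ⟨x.x1.fst, κ * x.x1.snd⟩, ⟨x.x2.fst, κ * x.x2.snd⟩,
      ⟨x.x3.fst, κ * x.x3.snd⟩⟩ := by
  unfold Alb.act
  rw [inv_one, Units.val_one, Matrix.one_mul, conjTranspose_one, Matrix.mul_one, vecMul_one]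
  rfl

theorem act_one_of_qd {κ : Qt a b} {x : Alb a b c} (hx : Qd x) : Alb.act 1 κ x = x := by
  obtain ⟨h1, h2, h3⟩ := hx
  rw [act_one_eq, h1, h2, h3, mul_zero]
  ext1
  · rfl
  · rfl
  · rfl
  · exact Oct.ext rfl h1.symm
  · exact Oct.ext rfl h2.symm
  · exact Oct.ext rfl h3.symm

end move

section long

variable {k K : Type} [Field k] [Field K] [NeZero (2 : K)] [Algebra k K] {σ : K ≃ₐ[k] K}
  {a b c : kˣ} {g : Fin 3 → kˣ}

theorem exists_long' (hab : Aniso (up K a) (up K b)) {t : Qt a b} (ht : nrd t = 1) :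
    ∃ L ∈ GE σ a b c g, ∀ x, L x = Alb.act 1 (qup K t) x := by
  have h2 : (2 : K) ≠ 0 := NeZero.ne 2
  have hn : nrd (qup K t) = 1 := by rw [nrd_qup, ht, map_one]
  let κ : (Qt (up K a) (up K b))ˣ :=
    ⟨qup K t, star (qup K t), H691.mul_star_self' hn, H691.star_mul_self' hn⟩
  have hκ : nrd (qup K t) = nu (((1 : (Matrix (Fin 3) (Fin 3) (Qt (up K a) (up K b)))ˣ)) :
      Matrix (Fin 3) (Fin 3) (Qt (up K a) (up K b))) := by
    rw [Units.val_one, hn, nu_one]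
  refine ⟨H64.actL h2 1 κ, ⟨fun x => ?_, ?_⟩, fun x => rfl⟩
  · change Alb.cub (Alb.act 1 (qup K t) x) = _
    rw [cub_act hab 1 (qup K t) hκ, Units.val_one, nu_one, one_mul]
  · exact (isCoord_act (c := c) hab (σ := σ) (m := 1) (H64.isU_one σ g) (by
      rw [Units.val_one]
      apply Matrix.ext
      intro i j
      rw [Matrix.map_apply, one_apply]
      split_ifs
      · exact qmap_one σ
      · exact qmap_zero σ) (qmap_qup σ t) hκ (H64.actL h2 1 κ) (fun _ => rfl)).herm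

end long

section scal

variable {F : Type} [Field F] {a b c : Fˣ}

/-- Scalars on the two parts. -/
def sc (r s : F) (x : Alb a b c) : Alb a b c :=
  ⟨r * x.d1, r * x.d2, r * x.d3, ⟨r • x.x1.fst, s • x.x1.snd⟩, ⟨r • x.x2.fst, s • x.x2.snd⟩,
    ⟨r • x.x3.fst, s • x.x3.snd⟩⟩

theorem sc_sc (r s r' s' : F) (x : Alb a b c) : sc r s (sc r' s' x) = sc (r * r') (s * s') x := by
  simp only [sc, mul_assoc, smul_smul]

theorem sc_of_qd {s : F} {x : Alb a b c} (hx : Qd x) : sc 1 s x = x := by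
  obtain ⟨h1, h2, h3⟩ := hx
  simp only [sc, h1, h2, h3, one_mul, one_smul, smul_zero]
  ext1
  · rfl
  · rfl
  · rfl
  · exact Oct.ext rfl h1.symm
  · exact Oct.ext rfl h2.symm
  · exact Oct.ext rfl h3.symm

theorem sc_self (r : F) (x : Alb a b c) : sc r r x = r • x := rfl

theorem act_scalar {m : (Matrix (Fin 3) (Fin 3) (Qt a b))ˣ} {l : F}
    (hm : (m : Matrix (Fin 3) (Fin 3) (Qt a b)) = l • 1) (x : Alb a b c) :
    Alb.act m 1 x = sc (l ^ 2) l⁻¹ x := by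
  have hl : l ≠ 0 := by
    rintro rfl
    rw [zero_smul] at hm
    exact m.ne_zero hm
  have hinv : ((m⁻¹ : (Matrix (Fin 3) (Fin 3) (Qt a b))ˣ) : Matrix (Fin 3) (Fin 3) (Qt a b)) =
      l⁻¹ • 1 := by
    apply m.isUnit.mul_left_cancel
    rw [Units.mul_inv, hm, Matrix.smul_mul, Matrix.one_mul, smul_smul, mul_inv_cancel₀ hl, one_smul]
  have hct : (l • (1 : Matrix (Fin 3) (Fin 3) (Qt a b))).conjTranspose = l • 1 := by
    apply Matrix.ext
    intro i j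
    rw [conjTranspose_apply, Matrix.smul_apply, Matrix.smul_apply, QuaternionAlgebra.star_smul,
      one_apply, one_apply]
    by_cases h : i = j
    · subst h
      simp
    · rw [if_neg h, if_neg (Ne.symm h), star_zero]
  unfold Alb.act
  rw [hm, hinv, hct, Matrix.smul_mul, Matrix.smul_mul, Matrix.one_mul, Matrix.mul_smul,
    Matrix.mul_one, smul_smul]
  have hv : ∀ i, (1 : Qt a b) * vecMul (Alb.vec x) (l⁻¹ • (1 : Matrix (Fin 3) (Fin 3) (Qt a b))) i =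
      l⁻¹ • Alb.vec x i := by
    intro i
    rw [one_mul, vecMul_smul, vecMul_one]
    rfl
  simp only [hv]
  ext1
  · change ((l * l) • algebraMap F (Qt a b) x.d1).re = l ^ 2 * x.d1
    rw [pow_two]
    rfl
  · change ((l * l) • algebraMap F (Qt a b) x.d2).re = l ^ 2 * x.d2
    rw [pow_two]
    rfl
  · change ((l * l) • algebraMap F (Qt a b) x.d3).re = l ^ 2 * x.d3
    rw [pow_two]
    rfl
  · rw [pow_two]
    rfl
  · rw [pow_two]
    rfl
  · rw [pow_two]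
    rfl

theorem nu_scalar (l : F) : nu (l • (1 : Matrix (Fin 3) (Fin 3) (Qt a b))) = l ^ 6 := by
  have h : l • (1 : Matrix (Fin 3) (Fin 3) (Qt a b)) = diagonal fun _ => l • (1 : Qt a b) := by
    rw [← diagonal_one, ← diagonal_smul]
    rfl
  have h2 : nrd (l • (1 : Qt a b)) = l ^ 2 := by
    simp [nrd]
  rw [h, nu_diag, h2]
  ring

end scal

section step

variable {k K : Type} [Field k] [CharZero k] [Field K] [CharZero K] [Algebra k K] {σ : K ≃ₐ[k] K}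
  {a b c a' b' c' : kˣ} {g g' : Fin 3 → kˣ} {N : Subgroup (AlbL K a b c ≃ₗ[K] AlbL K a b c)}

omit [CharZero k] [CharZero K] in
theorem apply_inv_self' (φ : AlbL K a b c ≃ₗ[K] AlbL K a b c) (x : AlbL K a b c) :
    φ ((φ⁻¹ : AlbL K a b c ≃ₗ[K] AlbL K a b c) x) = x := by
  rw [← LinearEquiv.mul_apply, mul_inv_cancel]
  rfl

omit [CharZero k] in
/-- The basic step: the commutators with the long subgroup over the ground field. -/
theorem step (hc : Ctx σ g N) {φ : AlbL K a b c ≃ₗ[K] AlbL K a b c} (hφ : φ ∈ N)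
    (hs : ¬ ∃ l : K, ∀ x, φ x = l • x) :
    Hit σ g N ∨ ∃ n ∈ N, n ≠ 1 ∧ ∀ x y, Qd x → Qd y → φ y = x → n x = x := by
  have hab : Aniso (up K a) (up K b) := H64.aniso_of_division hc.div
  by_cases hcom : ∀ t : Qt a b, nrd t = 1 → ∀ x,
      φ (Alb.act 1 (qup K t) x) = Alb.act 1 (qup K t) (φ x)
  · obtain ⟨m, hm, hn, hmx⟩ := cen hab (hc.le hφ) hcom
    by_cases hsc : ∃ l : K, (m : Matrix (Fin 3) (Fin 3) (Qt (up K a) (up K b))) = l • 1
    · obtain ⟨l, hl⟩ := hsc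
      right
      have h6 : l ^ 6 = 1 := by rw [← nu_scalar (a := up K a) (b := up K b) l, ← hl, hn]
      have hl0 : l ≠ 0 := by
        rintro rfl
        exact zero_ne_one (by rwa [zero_pow (by norm_num)] at h6)
      have h1 : ∀ x, (φ * φ * φ) x = sc 1 (l⁻¹ ^ 3) x := by
        intro x
        change φ (φ (φ x)) = _
        rw [hmx, hmx, hmx, act_scalar hl, act_scalar hl, act_scalar hl, sc_sc, sc_sc]
        congr 1
        · rw [← h6]; ring
        · ring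
      refine ⟨φ * φ * φ, mul_mem (mul_mem hφ hφ) hφ, fun h => ?_, fun x y hx _ _ => ?_⟩
      · apply hs
        have h3 : sc 1 (l⁻¹ ^ 3) (⟨0, 0, 0, ⟨0, 1⟩, 0, 0⟩ : AlbL K a b c) =
            ⟨0, 0, 0, ⟨0, 1⟩, 0, 0⟩ := by
          rw [← h1, h]
          rfl
        have h4 : l⁻¹ ^ 3 • (1 : Qt (up K a) (up K b)) = 1 :=
          congrArg (fun x : AlbL K a b c => x.x1.snd) h3
        have h5 : l⁻¹ ^ 3 = 1 := by
          have h7 := congrArg QuaternionAlgebra.re h4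
          simpa using h7
        have h8 : l ^ 2 = l⁻¹ := by
          rw [inv_pow, inv_eq_one] at h5
          apply eq_inv_of_mul_eq_one_left
          rw [← h5]
          ring
        exact ⟨l⁻¹, fun x => by rw [hmx, act_scalar hl, h8, sc_self]⟩
      · rw [h1, sc_of_qd hx]
    · left
      exact ⟨a, b, c, g, LinearEquiv.refl K _, Reach.refl, m, hm, hn, fun t ht => hsc ⟨t, ht⟩, φ,
        hφ, fun x => hmx x⟩
  · push Not at hcom
    obtain ⟨t, ht, x0, hx0⟩ := hcom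
    obtain ⟨L, hL, hLx⟩ := exists_long' (σ := σ) (c := c) (g := g) hab ht
    right
    refine ⟨φ * (L * φ⁻¹ * L⁻¹), mul_mem hφ (hc.normal L hL _ (inv_mem hφ)), fun h => ?_,
      fun x y hx hy hxy => ?_⟩
    · apply hx0
      have h1 : φ * L = L * φ := by
        calc φ * L = φ * (L * φ⁻¹ * L⁻¹) * (L * φ) := by group
          _ = L * φ := by rw [h, one_mul]
      rw [← hLx, ← hLx]
      exact congrArg (fun f : AlbL K a b c ≃ₗ[K] AlbL K a b c => f x0) h1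
    · have hLx' : ∀ z, Qd z → L z = z := fun z hz => by rw [hLx, act_one_of_qd hz]
      have e1 : (L⁻¹ : AlbL K a b c ≃ₗ[K] AlbL K a b c) x = x := by
        apply L.injective
        rw [apply_inv_self', hLx' x hx]
      have e2 : (φ⁻¹ : AlbL K a b c ≃ₗ[K] AlbL K a b c) x = y := by
        apply φ.injective
        rw [apply_inv_self', hxy]
      change φ (L ((φ⁻¹ : AlbL K a b c ≃ₗ[K] AlbL K a b c)
        ((L⁻¹ : AlbL K a b c ≃ₗ[K] AlbL K a b c) x))) = x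
      rw [e1, e2, hLx' y hy, hxy]

end step

section steps

variable {k K : Type} [Field k] [CharZero k] [Field K] [CharZero K] [Algebra k K] {σ : K ≃ₐ[k] K}
  {a b c a' b' c' : kˣ} {g g' : Fin 3 → kˣ} {N : Subgroup (AlbL K a b c ≃ₗ[K] AlbL K a b c)}

theorem hit_of_pull {ψ : AlbL K a' b' c' ≃ₗ[K] AlbL K a b c} (hR : Reach σ g g' ψ)
    (h : Hit σ g' (pull ψ N)) : Hit σ g N := by
  obtain ⟨a₂, b₂, c₂, g₂, ψ', hR', m, hm, hn, hs, φ, hφ, h⟩ := h
  refine ⟨a₂, b₂, c₂, g₂, ψ'.trans ψ, Reach.trans hR hR', m, hm, hn, hs, _, hφ,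
    fun x => ?_⟩
  change ψ (φ (ψ.symm (ψ (ψ' x)))) = ψ (ψ' (Alb.act m 1 x))
  rw [ψ.symm_apply_apply, h]

/-- The basic step, in other coordinates. -/
theorem step' {ψ : AlbL K a' b' c' ≃ₗ[K] AlbL K a b c} (hR : Reach σ g g' ψ) (hc : Ctx σ g N)
    {φ : AlbL K a b c ≃ₗ[K] AlbL K a b c} (hφ : φ ∈ N) (hs : ¬ ∃ l : K, ∀ x, φ x = l • x) :
    Hit σ g N ∨ (Ctx σ g' (pull ψ N) ∧ ∃ n ∈ pull ψ N, n ≠ 1 ∧
      ∀ x y, Qd x → Qd y → φ (ψ y) = ψ x → n x = x) := by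
  have hcd := Reach.isCoord hR hc.div
  have hc' := hc.pull hcd (Reach.division hR hc.div)
  have hs' : ¬ ∃ l : K, ∀ x, ((ψ.trans φ).trans ψ.symm) x = l • x := by
    rintro ⟨l, hl⟩
    apply hs
    refine ⟨l, fun x => ?_⟩
    apply ψ.symm.injective
    rw [map_smul, ← hl]
    change _ = ψ.symm (φ (ψ (ψ.symm x)))
    rw [ψ.apply_symm_apply]
  rcases step hc' (mem_pull_of (ψ := ψ) hφ) hs' with h | ⟨n, hn, hn1, hfix⟩
  · exact Or.inl (hit_of_pull hR h)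
  · refine Or.inr ⟨hc', n, hn, hn1, fun x y hx hy hxy => hfix x y hx hy ?_⟩
    change ψ.symm (φ (ψ y)) = x
    rw [hxy, LinearEquiv.symm_apply_apply]

/-- The basic step, in coordinates such that an octonion is a quaternion. -/
theorem trip_step (hc : Ctx σ g N) {φ : AlbL K a b c ≃ₗ[K] AlbL K a b c} (hφ : φ ∈ N)
    (hs : ¬ ∃ l : K, ∀ x, φ x = l • x) (u : Oct a b c) :
    Hit σ g N ∨ ∃ (a' b' c' : kˣ) (t : OctL K a' b' c' ≃ₗ[K] OctL K a b c) (q : Qt a' b')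
      (M : Subgroup (AlbL K a' b' c' ≃ₗ[K] AlbL K a' b' c')), Ctx σ g M ∧
      (Hit σ g M → Hit σ g N) ∧ t 1 = 1 ∧ t (H691.oq (qup K q)) = oup K u ∧
      ∃ n ∈ M, n ≠ 1 ∧ ∀ x y, Qd x → Qd y → φ (omapA t y) = omapA t x → n x = x := by
  obtain ⟨a', b', c', i, j, l, hT, ⟨q, hq⟩, -⟩ :=
    H369.exists_trip_of_two (division_down hc.div) u u
  have hR : Reach σ g g (tripA K hT) := Reach.trip Reach.refl hT _ fun x => tripA_apply hT x
  rcases step' hR hc hφ hs with h | ⟨hc', n, hn, hn1, hfix⟩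
  · exact Or.inl h
  · exact Or.inr ⟨a', b', c', tripO K hT, q, _, hc', hit_of_pull hR, hom_one (tripO_mul hT),
      by rw [tripO_oq, ← hq], n, hn, hn1, hfix⟩

omit [CharZero k] [CharZero K] in
theorem not_scalar {φ : AlbL K a b c ≃ₗ[K] AlbL K a b c} (h1 : φ ≠ 1) {v : AlbL K a b c}
    (hv0 : v ≠ 0) (hv : φ v = v) : ¬ ∃ l : K, ∀ x, φ x = l • x := by
  rintro ⟨l, hl⟩
  apply h1
  have h2 : (l - 1) • v = 0 := by rw [sub_smul, one_smul, ← hl, hv, sub_self]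
  rcases smul_eq_zero.1 h2 with h | h
  · apply LinearEquiv.ext
    intro x
    rw [hl, sub_eq_zero.1 h, one_smul]
    rfl
  · exact absurd h hv0

theorem e1_ne {F : Type} [Field F] {a b c : Fˣ} : (e1 : Alb a b c) ≠ 0 := by
  intro h
  exact one_ne_zero (congrArg Alb.d1 h)

theorem qd_e1 {F : Type} [Field F] {a b c : Fˣ} : Qd (e1 : Alb a b c) := ⟨rfl, rfl, rfl⟩
theorem qd_e2 {F : Type} [Field F] {a b c : Fˣ} : Qd (e2 : Alb a b c) := ⟨rfl, rfl, rfl⟩
theorem qd_e3 {F : Type} [Field F] {a b c : Fˣ} : Qd (e3 : Alb a b c) := ⟨rfl, rfl, rfl⟩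

omit [CharZero k] in
theorem cross_fix (hσ : ∀ t, σ (σ t) = t) {φ : AlbL K a b c ≃ₗ[K] AlbL K a b c}
    (hφ : φ ∈ GE σ a b c g) (h0 : φ (Alb.one _ _ _ (upG K g)) = Alb.one _ _ _ (upG K g))
    {e x : AlbL K a b c} (he : φ e = e) (hx : cross e x = 0) : cross e (φ x) = 0 := by
  have h := ge_cross hσ hφ h0 e x
  rw [hx, wt_zero, map_zero, he] at h
  apply wt_injective (upG K g)⁻¹
  rw [← h, wt_zero]

end steps

section chain

variable {k K : Type} [Field k] [CharZero k] [Field K] [CharZero K] [Algebra k K] {σ : K ≃ₐ[k] K}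

/-- The vector `(0; 1, 0, 0)`. -/
def f1 {F : Type} [Field F] {a b c : Fˣ} : Alb a b c := ⟨0, 0, 0, 1, 0, 0⟩
/-- The vector `(0; 0, 1, 0)`. -/
def f2 {F : Type} [Field F] {a b c : Fˣ} : Alb a b c := ⟨0, 0, 0, 0, 1, 0⟩

theorem qd_f1 {F : Type} [Field F] {a b c : Fˣ} : Qd (f1 : Alb a b c) := ⟨rfl, rfl, rfl⟩
theorem qd_f2 {F : Type} [Field F] {a b c : Fˣ} : Qd (f2 : Alb a b c) := ⟨rfl, rfl, rfl⟩

section om

variable {F : Type} [Field F] {a b c a' b' c' : Fˣ} (t : Oct a' b' c' ≃ₗ[F] Oct a b c)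

theorem omapA_e1 : omapA t (e1 : Alb a' b' c') = e1 := by
  simp [omapA, e1]

theorem omapA_e2 : omapA t (e2 : Alb a' b' c') = e2 := by
  simp [omapA, e2]

theorem omapA_e3 : omapA t (e3 : Alb a' b' c') = e3 := by
  simp [omapA, e3]

theorem omapA_f1 (h : t 1 = 1) : omapA t (f1 : Alb a' b' c') = f1 := by
  simp [omapA, f1, h]

theorem omapA_f2 (h : t 1 = 1) : omapA t (f2 : Alb a' b' c') = f2 := by
  simp [omapA, f2, h]

theorem omapA_one (g : Fin 3 → Fˣ) : omapA t (Alb.one a' b' c' g) = Alb.one a b c g := by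
  simp [omapA, Alb.one]

end om

/-- The last step. -/
theorem st5 (hfix : ∀ t : K, σ t = t → ∃ s : k, algebraMap k K s = t) {a b c : kˣ} {g : Fin 3 → kˣ}
    {N : Subgroup (AlbL K a b c ≃ₗ[K] AlbL K a b c)} (hc : Ctx σ g N)
    {φ : AlbL K a b c ≃ₗ[K] AlbL K a b c} (hφ : φ ∈ N) (h1 : φ ≠ 1)
    (he1 : φ e1 = e1) (he2 : φ e2 = e2) (he3 : φ e3 = e3) (hf1 : φ f1 = f1) (hf2 : φ f2 = f2) :
    Hit σ g N :=
  hit_five hfix hc.div hc.normal hφ (hc.le hφ) h1 he1 he2 he3 hf1 hf2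

theorem one_eq {F : Type} [Field F] {a b c : Fˣ} (g : Fin 3 → Fˣ) :
    Alb.one a b c g = (g 0 : F)⁻¹ • e1 + (g 1 : F)⁻¹ • e2 + (g 2 : F)⁻¹ • e3 := by
  ext1 <;> simp [e1, e2, e3]

theorem fix_one_of {F : Type} [Field F] {a b c : Fˣ} {g : Fin 3 → Fˣ}
    {φ : Alb a b c ≃ₗ[F] Alb a b c} (he1 : φ e1 = e1) (he2 : φ e2 = e2) (he3 : φ e3 = e3) :
    φ (Alb.one a b c g) = Alb.one a b c g := by
  rw [one_eq, map_add, map_add, map_smul, map_smul, map_smul, he1, he2, he3]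

theorem inv_fix {F : Type} [Field F] {a b c : Fˣ} {φ : Alb a b c ≃ₗ[F] Alb a b c}
    {x : Alb a b c} (h : φ x = x) : (φ⁻¹ : Alb a b c ≃ₗ[F] Alb a b c) x = x := by
  apply φ.injective
  rw [h, ← LinearEquiv.mul_apply, mul_inv_cancel]
  rfl

theorem st4 (hfix : ∀ t : K, σ t = t → ∃ s : k, algebraMap k K s = t)
    (hσ : ∀ t, σ (σ t) = t) {a b c : kˣ} {g : Fin 3 → kˣ}
    {N : Subgroup (AlbL K a b c ≃ₗ[K] AlbL K a b c)} (hc : Ctx σ g N)
    {φ : AlbL K a b c ≃ₗ[K] AlbL K a b c} (hφ : φ ∈ N) (h1 : φ ≠ 1)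
    (he1 : φ e1 = e1) (he2 : φ e2 = e2) (he3 : φ e3 = e3) (hf1 : φ f1 = f1) :
    Hit σ g N := by
  have hφi : φ⁻¹ ∈ GE σ a b c g := inv_mem (hc.le hφ)
  have h0 : (φ⁻¹ : AlbL K a b c ≃ₗ[K] AlbL K a b c) (Alb.one _ _ _ (upG K g)) =
      Alb.one _ _ _ (upG K g) := inv_fix (fix_one_of he1 he2 he3)
  have c1 := cross_fix hσ hφi h0 (inv_fix he1) (x := f2) (by
    rw [cross_e1]
    simp only [f2, neg_zero]
    rfl)
  have c3 := cross_fix hσ hφi h0 (inv_fix he3) (x := f2) (by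
    rw [cross_e3]
    simp only [f2, neg_zero]
    rfl)
  have hreal := ge_real hσ hφi h0 f2
  have hf2 : amap σ (f2 : AlbL K a b c) = f2 := by
    simp only [amap, f2, map_zero, omap_zero, omap_one]
  rw [hf2] at hreal
  obtain ⟨r, hr⟩ := exists_aup σ hfix hreal.symm
  set y := (φ⁻¹ : AlbL K a b c ≃ₗ[K] AlbL K a b c) f2 with hy
  rw [cross_e1] at c1
  rw [cross_e3] at c3
  have d1 : y.d3 = 0 := congrArg Alb.d2 c1
  have d2 : y.d2 = 0 := congrArg Alb.d3 c1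
  have d3 : y.x1 = 0 := neg_eq_zero.1 (congrArg Alb.x1 c1)
  have d4 : y.d1 = 0 := congrArg Alb.d2 c3
  have d5 : y.x3 = 0 := neg_eq_zero.1 (congrArg Alb.x3 c3)
  have d6 : y.x2 = oup K r.x2 := by rw [← hr]; rfl
  have hφy : φ y = f2 := apply_inv_self' φ f2
  rcases trip_step hc hφ (not_scalar h1 e1_ne he1) r.x2 with h | ⟨a', b', c', t, q, M, hcM, hM, t1,
    tq, n, hn, hn1, hn2⟩
  · exact h
  · refine hM (st5 hfix hcM hn hn1 (hn2 _ _ qd_e1 qd_e1 ?_) (hn2 _ _ qd_e2 qd_e2 ?_)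
      (hn2 _ _ qd_e3 qd_e3 ?_) (hn2 _ _ qd_f1 qd_f1 ?_)
      (hn2 _ ⟨0, 0, 0, 0, H691.oq (qup K q), 0⟩ qd_f2 ⟨rfl, rfl, rfl⟩ ?_))
    · rw [omapA_e1, he1]
    · rw [omapA_e2, he2]
    · rw [omapA_e3, he3]
    · rw [omapA_f1 _ t1, hf1]
    · rw [omapA_f2 _ t1, ← hφy]
      congr 1
      simp only [omapA, map_zero, tq]
      ext1
      · exact d4.symm
      · exact d2.symm
      · exact d1.symm
      · exact d3.symm
      · exact d6.symm
      · exact d5.symm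

theorem st3 (hfix : ∀ t : K, σ t = t → ∃ s : k, algebraMap k K s = t)
    (hσ : ∀ t, σ (σ t) = t) {a b c : kˣ} {g : Fin 3 → kˣ}
    {N : Subgroup (AlbL K a b c ≃ₗ[K] AlbL K a b c)} (hc : Ctx σ g N)
    {φ : AlbL K a b c ≃ₗ[K] AlbL K a b c} (hφ : φ ∈ N) (h1 : φ ≠ 1)
    (he1 : φ e1 = e1) (he2 : φ e2 = e2) (he3 : φ e3 = e3) : Hit σ g N := by
  have hφi : φ⁻¹ ∈ GE σ a b c g := inv_mem (hc.le hφ)
  have h0 : (φ⁻¹ : AlbL K a b c ≃ₗ[K] AlbL K a b c) (Alb.one _ _ _ (upG K g)) =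
      Alb.one _ _ _ (upG K g) := inv_fix (fix_one_of he1 he2 he3)
  have c1 := cross_fix hσ hφi h0 (inv_fix he2) (x := f1) (by
    rw [cross_e2]
    simp only [f1, neg_zero]
    rfl)
  have c3 := cross_fix hσ hφi h0 (inv_fix he3) (x := f1) (by
    rw [cross_e3]
    simp only [f1, neg_zero]
    rfl)
  have hreal := ge_real hσ hφi h0 f1
  have hf2 : amap σ (f1 : AlbL K a b c) = f1 := by
    simp only [amap, f1, map_zero, omap_zero, omap_one]
  rw [hf2] at hreal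
  obtain ⟨r, hr⟩ := exists_aup σ hfix hreal.symm
  set y := (φ⁻¹ : AlbL K a b c ≃ₗ[K] AlbL K a b c) f1 with hy
  rw [cross_e2] at c1
  rw [cross_e3] at c3
  have d1 : y.d3 = 0 := congrArg Alb.d1 c1
  have d2 : y.d1 = 0 := congrArg Alb.d3 c1
  have d3 : y.x2 = 0 := neg_eq_zero.1 (congrArg Alb.x2 c1)
  have d4 : y.d2 = 0 := congrArg Alb.d1 c3
  have d5 : y.x3 = 0 := neg_eq_zero.1 (congrArg Alb.x3 c3)
  have d6 : y.x1 = oup K r.x1 := by rw [← hr]; rfl
  have hφy : φ y = f1 := apply_inv_self' φ f1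
  rcases trip_step hc hφ (not_scalar h1 e1_ne he1) r.x1 with h | ⟨a', b', c', t, q, M, hcM, hM, t1,
    tq, n, hn, hn1, hn2⟩
  · exact h
  · refine hM (st4 hfix hσ hcM hn hn1 (hn2 _ _ qd_e1 qd_e1 ?_) (hn2 _ _ qd_e2 qd_e2 ?_)
      (hn2 _ _ qd_e3 qd_e3 ?_)
      (hn2 _ ⟨0, 0, 0, H691.oq (qup K q), 0, 0⟩ qd_f1 ⟨rfl, rfl, rfl⟩ ?_))
    · rw [omapA_e1, he1]
    · rw [omapA_e2, he2]
    · rw [omapA_e3, he3]
    · rw [omapA_f1 _ t1, ← hφy]
      congr 1
      simp only [omapA, map_zero, tq]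
      ext1
      · exact d2.symm
      · exact d4.symm
      · exact d1.symm
      · exact d6.symm
      · exact d3.symm
      · exact d5.symm

theorem qd_one {F : Type} [Field F] {a b c : Fˣ} (g : Fin 3 → Fˣ) : Qd (Alb.one a b c g) :=
  ⟨rfl, rfl, rfl⟩

theorem fix_e3_of {F : Type} [Field F] {a b c : Fˣ} {g : Fin 3 → Fˣ}
    {φ : Alb a b c ≃ₗ[F] Alb a b c} (h0 : φ (Alb.one a b c g) = Alb.one a b c g)
    (he1 : φ e1 = e1) (he2 : φ e2 = e2) : φ e3 = e3 := by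
  rw [one_eq, map_add, map_add, map_smul, map_smul, map_smul, he1, he2] at h0
  have h1 := add_left_cancel h0
  exact smul_right_injective _ (inv_ne_zero (g 2).ne_zero) h1

theorem st2 (hfix : ∀ t : K, σ t = t → ∃ s : k, algebraMap k K s = t)
    (hσ : ∀ t, σ (σ t) = t) {a b c : kˣ} {g : Fin 3 → kˣ}
    {N : Subgroup (AlbL K a b c ≃ₗ[K] AlbL K a b c)} (hc : Ctx σ g N)
    {φ : AlbL K a b c ≃ₗ[K] AlbL K a b c} (hφ : φ ∈ N) (h1 : φ ≠ 1)
    (h0 : φ (Alb.one _ _ _ (upG K g)) = Alb.one _ _ _ (upG K g)) (he1 : φ e1 = e1) :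
    Hit σ g N := by
  have hφi : φ⁻¹ ∈ GE σ a b c g := inv_mem (hc.le hφ)
  have h0' := inv_fix h0
  obtain ⟨d1, d2, d3⟩ := block hσ hφi h0' (inv_fix he1)
  have hreal := ge_real hσ hφi h0' e2
  have hf2 : amap σ (e2 : AlbL K a b c) = e2 := by
    simp only [amap, e2, map_zero, omap_zero, map_one]
  rw [hf2] at hreal
  obtain ⟨r, hr⟩ := exists_aup σ hfix hreal.symm
  set y := (φ⁻¹ : AlbL K a b c ≃ₗ[K] AlbL K a b c) e2 with hy
  have d6 : y.x1 = oup K r.x1 := by rw [← hr]; rfl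
  have hφy : φ y = e2 := apply_inv_self' φ e2
  rcases trip_step hc hφ (not_scalar h1 e1_ne he1) r.x1 with h | ⟨a', b', c', t, q, M, hcM, hM, t1,
    tq, n, hn, hn1, hn2⟩
  · exact h
  · have n0 := hn2 _ _ (qd_one (upG K g)) (qd_one (upG K g)) (by rw [omapA_one, h0])
    have n1 := hn2 _ _ qd_e1 qd_e1 (by rw [omapA_e1, he1])
    have n2 := hn2 e2 ⟨0, y.d2, y.d3, H691.oq (qup K q), 0, 0⟩ qd_e2 ⟨rfl, rfl, rfl⟩ (by
      rw [omapA_e2, ← hφy]
      congr 1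
      simp only [omapA, map_zero, tq]
      ext1
      · exact d1.symm
      · rfl
      · rfl
      · exact d6.symm
      · exact d2.symm
      · exact d3.symm)
    exact hM (st3 hfix hσ hcM hn hn1 n1 n2 (fix_e3_of n0 n1 n2))

end chain

section start

variable {k K : Type} [Field k] [NumberField k] [Field K] [NumberField K] [Algebra k K]
  {σ : K ≃ₐ[k] K}

omit [NumberField k] [NumberField K] in
theorem anis_down {a b c : kˣ} {g : Fin 3 → kˣ}
    (hanis : ∀ x : AlbL K a b c, herm σ g x x = 0 → x = 0) (x : Alb a b c)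
    (hx : tf (wt g x) x = 0) : x = 0 := by
  apply aup_injective (K := K)
  rw [aup_zero]
  apply hanis
  rw [herm, amap_aup, wt_aup, tf_aup, hx, map_zero]

theorem qd_ofF {F : Type} [Field F] {a b c : Fˣ} (R : Matrix (Fin 3) (Fin 3) F) :
    Qd (ofF R : Alb a b c) := by
  refine ⟨?_, ?_, ?_⟩ <;> simp [ofF]

omit [NumberField k] [NumberField K] in
theorem qd_aup {a b c : kˣ} {x : Alb a b c} (h : Qd x) : Qd (aup K x) := by
  obtain ⟨h1, h2, h3⟩ := h
  refine ⟨?_, ?_, ?_⟩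
  · change qup K x.x1.snd = 0
    rw [h1, qup_zero]
  · change qup K x.x2.snd = 0
    rw [h2, qup_zero]
  · change qup K x.x3.snd = 0
    rw [h3, qup_zero]

theorem st1 (hfix : ∀ t : K, σ t = t → ∃ s : k, algebraMap k K s = t)
    (hσ : ∀ t, σ (σ t) = t) {a b c : kˣ} {g : Fin 3 → kˣ}
    {N : Subgroup (AlbL K a b c ≃ₗ[K] AlbL K a b c)} (hc : Ctx σ g N)
    {φ : AlbL K a b c ≃ₗ[K] AlbL K a b c} (hφ : φ ∈ N) (h1 : φ ≠ 1)
    (h0 : φ (Alb.one _ _ _ (upG K g)) = Alb.one _ _ _ (upG K g)) : Hit σ g N := by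
  have hφi : φ⁻¹ ∈ GE σ a b c g := inv_mem (hc.le hφ)
  have h0' := inv_fix h0
  have hreal := ge_real hσ hφi h0' e1
  have hf2 : amap σ (e1 : AlbL K a b c) = e1 := by
    simp only [amap, e1, map_zero, omap_zero, map_one]
  rw [hf2] at hreal
  obtain ⟨r, hr⟩ := exists_aup σ hfix hreal.symm
  obtain ⟨a', b', c', g', ψ, hR, hψ1, -, -, -, R, -, hRr⟩ :=
    lanczos_good (σ := σ) hc.div (anis_down hc.anis) r
  have hone : (Alb.one _ _ _ (upG K g) : AlbL K a b c) ≠ 0 := by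
    intro h
    exact inv_ne_zero (upG K g 0).ne_zero ((d1_one (upG K g)).symm.trans (congrArg Alb.d1 h))
  have hcd := Reach.isCoord hR hc.div
  rcases step' hR hc hφ (not_scalar h1 hone h0) with h | ⟨hcM, n, hn, hn1, hn2⟩
  · exact h
  · have n0 := hn2 _ _ (qd_one (upG K g')) (qd_one (upG K g')) (by rw [hcd.one, h0])
    have n1 := hn2 e1 (aup K (ofF R)) qd_e1 (qd_aup (qd_ofF R)) (by
      rw [hRr, hr, hψ1, apply_inv_self'])
    exact hit_of_pull hR (st2 hfix hσ hcM hn hn1 n0 n1)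

section qd

variable {F : Type} [Field F] {a b c : Fˣ}

theorem qd_adj {x : Alb a b c} (h : Qd x) : Qd (adj x) := by
  obtain ⟨h1, h2, h3⟩ := h
  refine ⟨?_, ?_, ?_⟩ <;> simp [adj, h1, h2, h3]

theorem qd_sub {x y : Alb a b c} (h : Qd x) (h' : Qd y) : Qd (x - y) := by
  obtain ⟨h1, h2, h3⟩ := h
  obtain ⟨h4, h5, h6⟩ := h'
  refine ⟨?_, ?_, ?_⟩ <;> simp [h1, h2, h3, h4, h5, h6]

theorem qd_smul {x : Alb a b c} (h : Qd x) (s : F) : Qd (s • x) := by
  obtain ⟨h1, h2, h3⟩ := h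
  refine ⟨?_, ?_, ?_⟩ <;> simp [h1, h2, h3]

theorem qd_of_wt {g : Fin 3 → Fˣ} {x : Alb a b c} (h : Qd (wt g x)) : Qd x := by
  have key : ∀ s t : Fˣ, ∀ v : Qt a b, ((s : F) * t) • v = 0 → v = 0 := by
    intro s t v hv
    rcases smul_eq_zero.1 hv with h | h
    · exact absurd h (mul_ne_zero s.ne_zero t.ne_zero)
    · exact h
  obtain ⟨h1, h2, h3⟩ := h
  exact ⟨key _ _ _ h1, key _ _ _ h2, key _ _ _ h3⟩

end qd

omit [NumberField k] [NumberField K] in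
theorem qd_of_isCay {a b c : kˣ} {g : Fin 3 → kˣ} {δ z : K} {r : Alb a b c} {x : AlbL K a b c}
    (hr : Qd r) (h : IsCay δ z g r x) : Qd x := by
  have h1 : Qd (wt (upG K g) (x + z • Alb.one _ _ _ (upG K g))) := by
    rw [h.2]
    exact qd_smul (qd_adj (qd_sub (qd_one _) (qd_smul (qd_aup hr) _))) _
  have h2 := qd_sub (qd_of_wt h1) (qd_smul (qd_one (upG K g)) z)
  rwa [add_sub_cancel_right] at h2

theorem st0 (h2 : Module.finrank k K = 2) (hσ1 : σ ≠ 1) {δ : K} (hδ : σ δ = -δ) (hδ0 : δ ≠ 0)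
    {a b c : kˣ} {g : Fin 3 → kˣ}
    {N : Subgroup (AlbL K a b c ≃ₗ[K] AlbL K a b c)} (hc : Ctx σ g N)
    {φ : AlbL K a b c ≃ₗ[K] AlbL K a b c} (hφ : φ ∈ N) (hs : ¬ ∃ l : K, ∀ x, φ x = l • x) :
    Hit σ g N := by
  have hφi : φ⁻¹ ∈ GE σ a b c g := inv_mem (hc.le hφ)
  obtain ⟨z, r, hz, hcay⟩ := Five.exists_real h2 hσ1 hδ hδ0 hφi
  obtain ⟨a', b', c', g', ψ, hR, -, -, -, -, R, -, hRr⟩ :=
    lanczos_good (σ := σ) hc.div (anis_down hc.anis) r
  have hcd := Reach.isCoord hR hc.div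
  rcases step' hR hc hφ hs with h | ⟨hcM, n, hn, hn1, hn2⟩
  · exact h
  · set y := ψ.symm ((φ⁻¹ : AlbL K a b c ≃ₗ[K] AlbL K a b c) (Alb.one _ _ _ (upG K g))) with hy
    have hψy : ψ y = (φ⁻¹ : AlbL K a b c ≃ₗ[K] AlbL K a b c) (Alb.one _ _ _ (upG K g)) :=
      ψ.apply_symm_apply _
    have hcay' : IsCay δ z g' (ofF R) y := IsCoord.isCay hcd hRr (by rw [hψy]; exact hcay)
    have n0 := hn2 _ y (qd_one (upG K g')) (qd_of_isCay (qd_ofF R) hcay') (by
      rw [hψy, apply_inv_self', hcd.one])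
    exact hit_of_pull hR (st1 (Five.exists_fix h2 hδ hδ0) (Five.invol h2 hδ hδ0) hcM hn hn1 n0)

omit [NumberField k] [NumberField K] in
theorem exists_delta_ch (h2 : Module.finrank k K = 2) (hσ : σ ≠ 1) :
    ∃ δ : K, σ δ = -δ ∧ δ ≠ 0 := by
  classical
  have hfd : FiniteDimensional k K := Module.finite_of_finrank_eq_succ h2
  have hcard : Fintype.card (K ≃ₐ[k] K) ≤ 2 := by
    rw [← h2]
    exact AlgEquiv.card_le
  have hσσ : σ * σ = 1 := by
    by_contra h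
    have h3 : ({1, σ, σ * σ} : Finset (K ≃ₐ[k] K)).card = 3 := by
      rw [Finset.card_insert_of_notMem, Finset.card_insert_of_notMem, Finset.card_singleton]
      · rw [Finset.mem_singleton]
        intro h4
        apply hσ
        exact mul_left_cancel (a := σ) (by rw [← h4, mul_one])
      · rw [Finset.mem_insert, Finset.mem_singleton, not_or]
        exact ⟨fun h4 => hσ h4.symm, fun h4 => h h4.symm⟩
    have h4 := Finset.card_le_univ ({1, σ, σ * σ} : Finset (K ≃ₐ[k] K))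
    omega
  obtain ⟨t, ht⟩ : ∃ t, σ t ≠ t := by
    by_contra h
    push Not at h
    exact hσ (AlgEquiv.ext h)
  have hσt : σ (σ t) = t := congrArg (fun f : K ≃ₐ[k] K => f t) hσσ
  exact ⟨t - σ t, by rw [map_sub, hσt, neg_sub], sub_ne_zero.2 (Ne.symm ht)⟩

/-- A normal subgroup that is not central contains a non-scalar element of the special unitary
group of degree three over a quaternion subalgebra, in some coordinates. -/
theorem hit_of_noncentral (h2 : Module.finrank k K = 2) (hσ : σ ≠ 1) {a b c : kˣ}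
    {g : Fin 3 → kˣ} (hdiv : Division (up K a) (up K b) (up K c))
    (hanis : ∀ x : AlbL K a b c, herm σ g x x = 0 → x = 0)
    (N : Subgroup (GE σ a b c g)) [hN : N.Normal] (hNc : ¬ N ≤ Subgroup.center (GE σ a b c g)) :
    Hit σ g (N.map (GE σ a b c g).subtype) := by
  obtain ⟨δ, hδ, hδ0⟩ := exists_delta_ch h2 hσ
  have hc : Ctx σ g (N.map (GE σ a b c g).subtype) := by
    refine ⟨hdiv, hanis, ?_, ?_⟩
    · rintro _ ⟨n, -, rfl⟩
      exact n.2
    · rintro φ hφ _ ⟨n, hn, rfl⟩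
      exact ⟨⟨φ, hφ⟩ * n * ⟨φ, hφ⟩⁻¹, hN.conj_mem n hn ⟨φ, hφ⟩, rfl⟩
  rw [SetLike.not_le_iff_exists] at hNc
  obtain ⟨n, hn, hnc⟩ := hNc
  refine st0 h2 hσ hδ hδ0 hc ⟨n, hn, rfl⟩ ?_
  rintro ⟨l, hl⟩
  apply hnc
  rw [Subgroup.mem_center_iff]
  intro h
  apply Subtype.ext
  apply LinearEquiv.ext
  intro x
  change h.1 (n.1 x) = n.1 (h.1 x)
  have hl' : ∀ x, n.1 x = l • x := hl
  rw [hl', hl', map_smul]

end start

end Vale.Agent.P011.E6
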