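import Vale.Agent.P011.D4.R1
import Vale.Agent.P011.D4.Up

/-!
Hermitian matrices of degree three over octonions, and the groups of type `²E₆`.
-/

open NumberField Topology

namespace Vale.Agent.P011.E6

open Vale.Agent.P011.MPQ Vale.Agent.P011.D4 Vale.Agent.P011.D4.Oct

section alb

variable {F : Type} [Field F]

/-- The symmetric matrices of degree three over the octonion algebra `(a, b, c)`: `d1 d2 d3` are
the diagonal entries and `x1 x2 x3` the entries at `(2,3)`, `(3,1)`, `(1,2)`. -/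
@[ext]
structure Alb (a b c : Fˣ) : Type where
  /-- diagonal entry -/
  d1 : F
  /-- diagonal entry -/
  d2 : F
  /-- diagonal entry -/
  d3 : F
  /-- entry at `(2,3)` -/
  x1 : Oct a b c
  /-- entry at `(3,1)` -/
  x2 : Oct a b c
  /-- entry at `(1,2)` -/
  x3 : Oct a b c

namespace Alb

variable {a b c : Fˣ}

instance : Zero (Alb a b c) := ⟨⟨0, 0, 0, 0, 0, 0⟩⟩
instance : Add (Alb a b c) := ⟨fun x y =>
  ⟨x.d1 + y.d1, x.d2 + y.d2, x.d3 + y.d3, x.x1 + y.x1, x.x2 + y.x2, x.x3 + y.x3⟩⟩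
instance : Neg (Alb a b c) := ⟨fun x => ⟨-x.d1, -x.d2, -x.d3, -x.x1, -x.x2, -x.x3⟩⟩
instance : Sub (Alb a b c) := ⟨fun x y =>
  ⟨x.d1 - y.d1, x.d2 - y.d2, x.d3 - y.d3, x.x1 - y.x1, x.x2 - y.x2, x.x3 - y.x3⟩⟩
instance : SMul F (Alb a b c) := ⟨fun t x =>
  ⟨t * x.d1, t * x.d2, t * x.d3, t • x.x1, t • x.x2, t • x.x3⟩⟩

@[simp] theorem d1_zero : (0 : Alb a b c).d1 = 0 := rfl
@[simp] theorem d2_zero : (0 : Alb a b c).d2 = 0 := rfl
@[simp] theorem d3_zero : (0 : Alb a b c).d3 = 0 := rfl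
@[simp] theorem x1_zero : (0 : Alb a b c).x1 = 0 := rfl
@[simp] theorem x2_zero : (0 : Alb a b c).x2 = 0 := rfl
@[simp] theorem x3_zero : (0 : Alb a b c).x3 = 0 := rfl
@[simp] theorem d1_add (x y : Alb a b c) : (x + y).d1 = x.d1 + y.d1 := rfl
@[simp] theorem d2_add (x y : Alb a b c) : (x + y).d2 = x.d2 + y.d2 := rfl
@[simp] theorem d3_add (x y : Alb a b c) : (x + y).d3 = x.d3 + y.d3 := rfl
@[simp] theorem x1_add (x y : Alb a b c) : (x + y).x1 = x.x1 + y.x1 := rfl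
@[simp] theorem x2_add (x y : Alb a b c) : (x + y).x2 = x.x2 + y.x2 := rfl
@[simp] theorem x3_add (x y : Alb a b c) : (x + y).x3 = x.x3 + y.x3 := rfl
@[simp] theorem d1_neg (x : Alb a b c) : (-x).d1 = -x.d1 := rfl
@[simp] theorem d2_neg (x : Alb a b c) : (-x).d2 = -x.d2 := rfl
@[simp] theorem d3_neg (x : Alb a b c) : (-x).d3 = -x.d3 := rfl
@[simp] theorem x1_neg (x : Alb a b c) : (-x).x1 = -x.x1 := rfl
@[simp] theorem x2_neg (x : Alb a b c) : (-x).x2 = -x.x2 := rfl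
@[simp] theorem x3_neg (x : Alb a b c) : (-x).x3 = -x.x3 := rfl
@[simp] theorem d1_sub (x y : Alb a b c) : (x - y).d1 = x.d1 - y.d1 := rfl
@[simp] theorem d2_sub (x y : Alb a b c) : (x - y).d2 = x.d2 - y.d2 := rfl
@[simp] theorem d3_sub (x y : Alb a b c) : (x - y).d3 = x.d3 - y.d3 := rfl
@[simp] theorem x1_sub (x y : Alb a b c) : (x - y).x1 = x.x1 - y.x1 := rfl
@[simp] theorem x2_sub (x y : Alb a b c) : (x - y).x2 = x.x2 - y.x2 := rfl
@[simp] theorem x3_sub (x y : Alb a b c) : (x - y).x3 = x.x3 - y.x3 := rfl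
@[simp] theorem d1_smul (t : F) (x : Alb a b c) : (t • x).d1 = t * x.d1 := rfl
@[simp] theorem d2_smul (t : F) (x : Alb a b c) : (t • x).d2 = t * x.d2 := rfl
@[simp] theorem d3_smul (t : F) (x : Alb a b c) : (t • x).d3 = t * x.d3 := rfl
@[simp] theorem x1_smul (t : F) (x : Alb a b c) : (t • x).x1 = t • x.x1 := rfl
@[simp] theorem x2_smul (t : F) (x : Alb a b c) : (t • x).x2 = t • x.x2 := rfl
@[simp] theorem x3_smul (t : F) (x : Alb a b c) : (t • x).x3 = t • x.x3 := rfl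

instance : AddCommGroup (Alb a b c) where
  add_assoc x y z := by ext1 <;> simp [add_assoc]
  zero_add x := by ext1 <;> simp
  add_zero x := by ext1 <;> simp
  add_comm x y := by ext1 <;> simp [add_comm]
  neg_add_cancel x := by ext1 <;> simp
  sub_eq_add_neg x y := by ext1 <;> simp [sub_eq_add_neg]
  nsmul := nsmulRec
  zsmul := zsmulRec

instance : Module F (Alb a b c) where
  one_smul x := by ext1 <;> simp
  mul_smul s t x := by ext1 <;> simp [mul_smul, mul_assoc]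
  smul_zero t := by ext1 <;> simp
  smul_add t x y := by ext1 <;> simp [mul_add]
  add_smul s t x := by ext1 <;> simp [add_smul, add_mul]
  zero_smul x := by ext1 <;> simp

/-- The cubic norm. -/
def cub (x : Alb a b c) : F :=
  x.d1 * x.d2 * x.d3 - x.d1 * norm x.x1 - x.d2 * norm x.x2 - x.d3 * norm x.x3 +
    bil (x.x1 * x.x2 * x.x3) 1

/-- The adjoint. -/
def adj (x : Alb a b c) : Alb a b c :=
  ⟨x.d2 * x.d3 - norm x.x1, x.d3 * x.d1 - norm x.x2, x.d1 * x.d2 - norm x.x3,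
    star (x.x2 * x.x3) - x.d1 • x.x1, star (x.x3 * x.x1) - x.d2 • x.x2,
    star (x.x1 * x.x2) - x.d3 • x.x3⟩

/-- The polarisation of the adjoint. -/
def cross (x y : Alb a b c) : Alb a b c :=
  ⟨x.d2 * y.d3 + y.d2 * x.d3 - bil x.x1 y.x1, x.d3 * y.d1 + y.d3 * x.d1 - bil x.x2 y.x2,
    x.d1 * y.d2 + y.d1 * x.d2 - bil x.x3 y.x3,
    star (x.x2 * y.x3 + y.x2 * x.x3) - (x.d1 • y.x1 + y.d1 • x.x1),
    star (x.x3 * y.x1 + y.x3 * x.x1) - (x.d2 • y.x2 + y.d2 • x.x2),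
    star (x.x1 * y.x2 + y.x1 * x.x2) - (x.d3 • y.x3 + y.d3 • x.x3)⟩

/-- The trace form. -/
def tf (x y : Alb a b c) : F :=
  x.d1 * y.d1 + x.d2 * y.d2 + x.d3 * y.d3 + bil x.x1 y.x1 + bil x.x2 y.x2 + bil x.x3 y.x3

/-- The diagonal operator attached to `Γ = (γ₁, γ₂, γ₃)`: `X ↦ Γ X Γ`. -/
def wt (g : Fin 3 → Fˣ) (x : Alb a b c) : Alb a b c :=
  ⟨(g 0 : F) ^ 2 * x.d1, (g 1 : F) ^ 2 * x.d2, (g 2 : F) ^ 2 * x.d3,
    ((g 1 : F) * g 2) • x.x1, ((g 2 : F) * g 0) • x.x2, ((g 0 : F) * g 1) • x.x3⟩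

/-- The base point: the inverse of `Γ`. -/
def one (a b c : Fˣ) (g : Fin 3 → Fˣ) : Alb a b c :=
  ⟨((g 0)⁻¹ : Fˣ), ((g 1)⁻¹ : Fˣ), ((g 2)⁻¹ : Fˣ), 0, 0, 0⟩

/-- The diagonal idempotents, up to a scalar. -/
def e1 : Alb a b c := ⟨1, 0, 0, 0, 0, 0⟩
/-- The diagonal idempotents, up to a scalar. -/
def e2 : Alb a b c := ⟨0, 1, 0, 0, 0, 0⟩
/-- The diagonal idempotents, up to a scalar. -/
def e3 : Alb a b c := ⟨0, 0, 1, 0, 0, 0⟩

/-- The matrix in `Alb` with quaternion part `S` (a hermitian matrix) and with `l`-part `v`. -/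
def ofMV (S : Matrix (Fin 3) (Fin 3) (Qt a b)) (v : Fin 3 → Qt a b) : Alb a b c :=
  ⟨(S 0 0).re, (S 1 1).re, (S 2 2).re, ⟨S 1 2, v 0⟩, ⟨S 2 0, v 1⟩, ⟨S 0 1, v 2⟩⟩

/-- The quaternion part. -/
def mat (x : Alb a b c) : Matrix (Fin 3) (Fin 3) (Qt a b) :=
  !![algebraMap F _ x.d1, x.x3.fst, star x.x2.fst;
     star x.x3.fst, algebraMap F _ x.d2, x.x1.fst;
     x.x2.fst, star x.x1.fst, algebraMap F _ x.d3]

/-- The `l`-part. -/
def vec (x : Alb a b c) : Fin 3 → Qt a b := ![x.x1.snd, x.x2.snd, x.x3.snd]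

/-- The action of a matrix `g` over the quaternions and of a quaternion `κ`. -/
def act (g : (Matrix (Fin 3) (Fin 3) (Qt a b))ˣ) (κ : Qt a b) (x : Alb a b c) : Alb a b c :=
  ofMV ((g : Matrix (Fin 3) (Fin 3) (Qt a b)) * mat x *
      (g : Matrix (Fin 3) (Fin 3) (Qt a b)).conjTranspose)
    (fun i => κ * Matrix.vecMul (vec x) ((g⁻¹ : (Matrix (Fin 3) (Fin 3) (Qt a b))ˣ) :
      Matrix (Fin 3) (Fin 3) (Qt a b)) i)

/-- A symmetric matrix over the ground field, as an element of `Alb`. -/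
def ofF (S : Matrix (Fin 3) (Fin 3) F) : Alb a b c :=
  ⟨S 0 0, S 1 1, S 2 2, S 1 2 • 1, S 2 0 • 1, S 0 1 • 1⟩

/-- The effect of a homomorphism of octonion algebras. -/
def omapA {a' b' c' : Fˣ} (f : Oct a' b' c' → Oct a b c) (x : Alb a' b' c') : Alb a b c :=
  ⟨x.d1, x.d2, x.d3, f x.x1, f x.x2, f x.x3⟩

end Alb

/-- The reduced norm of a matrix over the quaternions. -/
def nu {a b : Fˣ} (g : Matrix (Fin 3) (Fin 3) (Qt a b)) : F :=
  Alb.cub (Alb.ofMV (g * g.conjTranspose) 0 : Alb a b 1)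

/-- The diagonal matrix `Γ` over the quaternions. -/
def dg (a b : Fˣ) (g : Fin 3 → Fˣ) : Matrix (Fin 3) (Fin 3) (Qt a b) :=
  Matrix.diagonal fun i => algebraMap F (Qt a b) (g i : F)

end alb

section ext

variable {k K : Type} [Field k] [Field K] [Algebra k K]

/-- `Alb` over the extension field. -/
abbrev AlbL (K : Type) [Field K] [Algebra k K] (a b c : kˣ) : Type :=
  Alb (up K a) (up K b) (up K c)

/-- The weights over the extension field. -/
abbrev upG (K : Type) [Field K] [Algebra k K] (g : Fin 3 → kˣ) : Fin 3 → Kˣ := fun i => up K (g i)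

/-- An element over the ground field, as an element over the extension field. -/
def aup (K : Type) [Field K] [Algebra k K] {a b c : kˣ} (x : Alb a b c) : AlbL K a b c :=
  ⟨algebraMap k K x.d1, algebraMap k K x.d2, algebraMap k K x.d3, oup K x.x1, oup K x.x2,
    oup K x.x3⟩

/-- The action of an automorphism of the extension field on the coefficients. -/
def amap (σ : K ≃ₐ[k] K) {a b c : kˣ} (x : AlbL K a b c) : AlbL K a b c :=
  ⟨σ x.d1, σ x.d2, σ x.d3, omap σ x.x1, omap σ x.x2, omap σ x.x3⟩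

/-- The hermitian form attached to the weights. -/
def herm (σ : K ≃ₐ[k] K) {a b c : kˣ} (g : Fin 3 → kˣ) (x y : AlbL K a b c) : K :=
  Alb.tf (Alb.wt (upG K g) x) (amap σ y)

/-- The group of the `K`-linear automorphisms of the space of hermitian matrices of degree three
over the octonion algebra that preserve the cubic norm and the hermitian form: the rational points
of a simply connected group of type `²E₆` if `σ` is the conjugation of the quadratic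
extension `K/k`. -/
def GE (σ : K ≃ₐ[k] K) (a b c : kˣ) (g : Fin 3 → kˣ) :
    Subgroup (AlbL K a b c ≃ₗ[K] AlbL K a b c) where
  carrier := {φ | (∀ x, Alb.cub (φ x) = Alb.cub x) ∧ ∀ x y, herm σ g (φ x) (φ y) = herm σ g x y}
  mul_mem' := by
    rintro φ ψ ⟨h1, h2⟩ ⟨h3, h4⟩
    refine ⟨fun x => ?_, fun x y => ?_⟩
    · rw [LinearEquiv.mul_apply, h1, h3]
    · rw [LinearEquiv.mul_apply, LinearEquiv.mul_apply, h2, h4]
  one_mem' := ⟨fun _ => rfl, fun _ _ => rfl⟩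
  inv_mem' := by
    rintro φ ⟨h1, h2⟩
    have h : ∀ z, φ (φ⁻¹ z) = z := fun z => by
      rw [← LinearEquiv.mul_apply, mul_inv_cancel]; rfl
    refine ⟨fun x => ?_, fun x y => ?_⟩
    · rw [← h1, h]
    · rw [← h2, h, h]

/-- The special unitary group over the quaternion algebra, as a group of matrices. -/
def IsU (σ : K ≃ₐ[k] K) {a b : kˣ} (g g' : Fin 3 → kˣ)
    (m : Matrix (Fin 3) (Fin 3) (Qt (up K a) (up K b))) : Prop :=
  (m.map (qmap σ)).conjTranspose * dg (up K a) (up K b) (upG K g) * m =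
    dg (up K a) (up K b) (upG K g')

/-- A change of coordinates. -/
structure IsCoord (σ : K ≃ₐ[k] K) {a b c a' b' c' : kˣ} (g g' : Fin 3 → kˣ)
    (ψ : AlbL K a' b' c' ≃ₗ[K] AlbL K a b c) : Prop where
  /-- the cubic norm is multiplied by a constant -/
  cub : ∃ μ : K, μ ≠ 0 ∧ ∀ x, Alb.cub (ψ x) = μ * Alb.cub x
  /-- the hermitian forms correspond -/
  herm : ∀ x y, herm σ g (ψ x) (ψ y) = E6.herm σ g' x y
  /-- the map is defined over the ground field -/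
  real : ∀ x, ψ (amap σ x) = amap σ (ψ x)
  /-- the base points correspond -/
  one : ψ (Alb.one _ _ _ (upG K g')) = Alb.one _ _ _ (upG K g)

/-- The element `x` is the Cayley transform `z (2 (1 - δ r)⁻¹ - 1)` of `r`, the inverse being
taken in the cubic norm structure with base point `Γ⁻¹`. -/
def IsCay (δ z : K) {a b c : kˣ} (g : Fin 3 → kˣ) (r : Alb a b c) (x : AlbL K a b c) : Prop :=
  Alb.cub (Alb.one _ _ _ (upG K g) - δ • aup K r) ≠ 0 ∧
    Alb.wt (upG K g) (x + z • Alb.one _ _ _ (upG K g)) =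
      (2 * z * (Alb.cub (Alb.one _ _ _ (upG K g) - δ • aup K r))⁻¹) •
        Alb.adj (Alb.one _ _ _ (upG K g) - δ • aup K r)

/-- The coordinates reached by changes of the quaternion subalgebra and by the real matrices over
the quaternions. -/
inductive Reach (σ : K ≃ₐ[k] K) {a b c : kˣ} (g : Fin 3 → kˣ) :
    ∀ {a' b' c' : kˣ}, (Fin 3 → kˣ) → (AlbL K a' b' c' ≃ₗ[K] AlbL K a b c) → Prop
  | refl : Reach σ g g (LinearEquiv.refl K _)
  | trip {a' b' c' : kˣ} {g' : Fin 3 → kˣ} {Ψ : AlbL K a' b' c' ≃ₗ[K] AlbL K a b c}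
      (h : Reach σ g g' Ψ) {a₂ b₂ c₂ : kˣ} {i j l : Oct a' b' c'} (ht : Trip a₂ b₂ c₂ i j l)
      (Ψ₂ : AlbL K a₂ b₂ c₂ ≃ₗ[K] AlbL K a b c)
      (h₂ : ∀ x, Ψ₂ x = Ψ (Alb.omapA (emb (oup K i) (oup K j) (oup K l)) x)) :
      Reach σ g g' Ψ₂
  | act {a' b' c' : kˣ} {g' : Fin 3 → kˣ} {Ψ : AlbL K a' b' c' ≃ₗ[K] AlbL K a b c}
      (h : Reach σ g g' Ψ) {g₂ : Fin 3 → kˣ}
      (m : (Matrix (Fin 3) (Fin 3) (Qt (up K a') (up K b')))ˣ) (κ : Qt (up K a') (up K b'))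
      (hm : IsU σ g' g₂ (m : Matrix (Fin 3) (Fin 3) (Qt (up K a') (up K b'))))
      (hmσ : (m : Matrix (Fin 3) (Fin 3) (Qt (up K a') (up K b'))).map (qmap σ) = m)
      (hκσ : qmap σ κ = κ)
      (hκ : nrd κ = nu (m : Matrix (Fin 3) (Fin 3) (Qt (up K a') (up K b'))))
      (Ψ₂ : AlbL K a' b' c' ≃ₗ[K] AlbL K a b c) (h₂ : ∀ x, Ψ₂ x = Ψ (Alb.act m κ x)) :
      Reach σ g g₂ Ψ₂

/-- The octonion algebra is definite at a real place. -/
def Dfn {F : Type} [Field F] (φ : F →+* ℝ) (a b c : Fˣ) : Prop := φ a < 0 ∧ φ b < 0 ∧ φ c < 0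

/-- The subgroup contains the special unitary groups of degree three over the quaternion
subalgebras, in all coordinates. -/
def HasA (σ : K ≃ₐ[k] K) {a b c : kˣ} (g : Fin 3 → kˣ)
    (N : Subgroup (AlbL K a b c ≃ₗ[K] AlbL K a b c)) : Prop :=
  ∀ (a' b' c' : kˣ) (g' : Fin 3 → kˣ) (ψ : AlbL K a' b' c' ≃ₗ[K] AlbL K a b c),
    Reach σ g g' ψ → ∀ m : (Matrix (Fin 3) (Fin 3) (Qt (up K a') (up K b')))ˣ,
      IsU σ g' g' (m : Matrix (Fin 3) (Fin 3) (Qt (up K a') (up K b'))) →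
      nu (m : Matrix (Fin 3) (Fin 3) (Qt (up K a') (up K b'))) = 1 →
      ∀ φ : AlbL K a b c ≃ₗ[K] AlbL K a b c, (∀ x, φ (ψ x) = ψ (Alb.act m 1 x)) → φ ∈ N

end ext

end Vale.Agent.P011.E6
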