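import Vale.Agent.P011.E6.ExM3

/-!
(E6) The matrix lemma: the literal of Spec (with the additional hypothesis `hab`).
-/

open Polynomial Matrix NumberField

namespace Vale.Agent.P011.E6

open Vale.Agent.P011.MPQ Vale.Agent.P011.D4 Vale.Agent.P011.D4.Oct Vale.Agent.P011.E6.H64

section

variable {k K : Type} [Field k] [Field K] [Algebra k K]

theorem anisG_of_herm [NeZero (2 : k)] {σ : K ≃ₐ[k] K} {a b c : kˣ} {g : Fin 3 → kˣ}
    (hanis : ∀ x : AlbL K a b c, herm σ g x x = 0 → x = 0) : AnisG g := by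
  intro s hs
  have h1 : Alb.tf (Alb.wt g (rk a b c (s 0) (s 1) (s 2))) (rk a b c (s 0) (s 1) (s 2)) =
      ((g 0 : k) * s 0 ^ 2 + g 1 * s 1 ^ 2 + g 2 * s 2 ^ 2) ^ 2 := by
    simp only [Alb.tf, Alb.wt, rk, bil_smul_left, bil_smul_right, bil_one_one]
    ring
  have h2 := hanis (aup K (rk a b c (s 0) (s 1) (s 2))) (by
    rw [herm, Alb.amap_aup, Alb.wt_aup, Alb.tf_aup, h1, hs]
    simp)
  have h3 : ∀ t : k, algebraMap k K (t ^ 2) = 0 → t = 0 := by
    intro t ht
    have := (map_eq_zero (algebraMap k K)).1 ht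
    exact pow_eq_zero_iff two_ne_zero |>.1 this
  funext i
  fin_cases i
  · exact h3 _ (congrArg Alb.d1 h2)
  · exact h3 _ (congrArg Alb.d2 h2)
  · exact h3 _ (congrArg Alb.d3 h2)

theorem exists_eta {σ : K ≃ₐ[k] K} {δ z : K} (hδ : σ δ = -δ) (hδ0 : δ ≠ 0) (hz : z * σ z = 1) :
    ∃ η : K, η ≠ 0 ∧ η = z * σ η := by
  by_cases h : 1 + z = 0
  · have h1 : z = -1 := by linear_combination h
    refine ⟨δ, hδ0, ?_⟩
    rw [hδ, h1]
    ring
  · refine ⟨1 + z, h, ?_⟩
    rw [map_add, map_one]
    linear_combination -hz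

theorem aeval_map_alg (T : Matrix (Fin 3) (Fin 3) k) (p : k[X]) :
    aeval (T.map (algebraMap k K)) (p.map (algebraMap k K)) =
      (aeval T p).map (algebraMap k K) := by
  have h1 : ((algebraMap k K).mapMatrix : Matrix (Fin 3) (Fin 3) k →+* Matrix (Fin 3) (Fin 3) K)
      (aeval T p) = aeval (T.map (algebraMap k K)) (p.map (algebraMap k K)) := by
    rw [aeval_def, aeval_def, hom_eval₂, eval₂_map]
    congr 1
    ext t i j
    simp only [RingHom.comp_apply, RingHom.mapMatrix_apply, Matrix.map_apply,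
      Matrix.algebraMap_matrix_apply]
    split_ifs
    · rfl
    · exact map_zero _
  exact h1.symm

end

/-- The sign computation. -/
theorem sign_aux {k K : Type} [Field k] [CharZero k] [Field K] [Algebra k K]
    (h2 : Module.finrank k K = 2) {σ : K ≃ₐ[k] K} {δ : K} (hδ : σ δ = -δ)
    (hδ0 : δ ≠ 0) {a b c : kˣ} {g : Fin 3 → kˣ}
    (hgood : ∀ φ : k →+* ℝ, φ a < 0 → φ b < 0 → Dfn φ a b c)
    (hg : ∀ w : K →+* ℝ, Dfn (w.comp (algebraMap k K)) a b c → ∀ i, 0 < w (algebraMap k K (g i)))
    {z : K} {T0 : Matrix (Fin 3) (Fin 3) k} {Z X : Matrix (Fin 3) (Fin 3) K}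
    (hX : X.transpose = X) (hXd : X.det ≠ 0)
    (hXZ : X * (Matrix.diagonal fun i => (upG K g i : K)) = Z)
    (hZ : Z * (1 - δ • T0.map (algebraMap k K)) = z • (1 + δ • T0.map (algebraMap k K)))
    (hpos : ∀ (w : K →+* ℝ), Dfn (w.comp (algebraMap k K)) a b c →
      ∀ u : Fin 3 → K, 0 ≤ w (u ⬝ᵥ X *ᵥ u)) {η : K} (hη0 : η ≠ 0) (hη : η = z * σ η) {n0 d : k}
    (hn0 : algebraMap k K n0 = η * σ η) (hd : algebraMap k K d = δ ^ 2)
    (τ : k →+* ℝ) (ρ : ℝ) (u : Fin 3 → ℝ) (ha : τ a < 0) (hb : τ b < 0) (hu : u ≠ 0)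
    (he : (T0.map τ).mulVec u = ρ • u) : 0 < τ n0 * (1 - τ d * ρ ^ 2) := by
  have : CharZero K := charZero_of_injective_algebraMap (algebraMap k K).injective
  have hd0 : d ≠ 0 := by
    rintro rfl
    rw [map_zero] at hd
    exact hδ0 (pow_eq_zero_iff two_ne_zero |>.1 hd.symm)
  rcases lt_or_gt_of_ne ((map_ne_zero τ).2 hd0) with hτ | hτ
  · -- no real embedding of `K`
    obtain ⟨r, s, hrs⟩ := Five.exists_pair h2 hδ hδ0 η
    have h1 : n0 = r ^ 2 - d * s ^ 2 := by
      apply (algebraMap k K).injective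
      rw [hn0, map_sub, map_mul, map_pow, map_pow, hd, hrs, map_add, map_mul, σ.commutes,
        σ.commutes, hδ]
      ring
    have h3 : 0 < τ n0 := by
      have e : τ n0 = τ r ^ 2 + (-τ d) * τ s ^ 2 := by
        rw [h1]; simp only [map_sub, map_mul, map_pow]; ring
      rw [e]
      have hd' : 0 < -τ d := neg_pos.2 hτ
      by_cases hr : r = 0
      · have hs : s ≠ 0 := by
          rintro rfl
          apply hη0
          rw [hrs, hr]
          simp
        have := (map_ne_zero τ).2 hs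
        positivity
      · have := (map_ne_zero τ).2 hr
        positivity
    have h4 : 0 < 1 - τ d * ρ ^ 2 := by
      have : 0 ≤ (-τ d) * ρ ^ 2 := mul_nonneg (neg_pos.2 hτ).le (sq_nonneg ρ)
      linarith
    exact mul_pos h3 h4
  · obtain ⟨w, hw⟩ := exists_real_ext h2 hδ hδ0 hd hτ
    have hwk : ∀ t : k, w (algebraMap k K t) = τ t := fun t => by rw [← hw]; rfl
    have hD : Dfn (w.comp (algebraMap k K)) a b c := by
      rw [hw]
      exact hgood τ ha hb
    have hgw := hg w hD
    have hz0 : w z ≠ 0 := by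
      intro h
      have hz : z = 0 := (map_eq_zero w).1 h
      rw [hz, zero_mul] at hη
      exact hη0 hη
    -- the matrices over the reals
    have hTu : ((T0.map (algebraMap k K)).map w).mulVec u = ρ • u := by
      rw [Matrix.map_map]
      have : (w ∘ algebraMap k K) = τ := by
        funext t
        exact hwk t
      rw [this, he]
    have hAu : ((1 - δ • T0.map (algebraMap k K)).map w).mulVec u = (1 - w δ * ρ) • u := by
      have : (1 - δ • T0.map (algebraMap k K)).map w =
          1 - w δ • (T0.map (algebraMap k K)).map w := by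
        ext i j
        simp only [Matrix.map_apply, Matrix.sub_apply, Matrix.smul_apply, smul_eq_mul, map_sub,
          map_mul, Matrix.one_apply]
        split_ifs <;> simp
      rw [this, Matrix.sub_mulVec, Matrix.one_mulVec, Matrix.smul_mulVec, hTu, smul_smul,
        sub_smul, one_smul]
    have hBu : ((1 + δ • T0.map (algebraMap k K)).map w).mulVec u = (1 + w δ * ρ) • u := by
      have : (1 + δ • T0.map (algebraMap k K)).map w =
          1 + w δ • (T0.map (algebraMap k K)).map w := by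
        ext i j
        simp only [Matrix.map_apply, Matrix.add_apply, Matrix.smul_apply, smul_eq_mul, map_add,
          map_mul, Matrix.one_apply]
        split_ifs <;> simp
      rw [this, Matrix.add_mulVec, Matrix.one_mulVec, Matrix.smul_mulVec, hTu, smul_smul,
        add_smul, one_smul]
    have hZu : (1 - w δ * ρ) • (Z.map w).mulVec u = (w z * (1 + w δ * ρ)) • u := by
      have h3 : ((Z * (1 - δ • T0.map (algebraMap k K))).map w).mulVec u =
          ((z • (1 + δ • T0.map (algebraMap k K))).map w).mulVec u := by rw [hZ]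
      rw [Matrix.map_mul, ← Matrix.mulVec_mulVec, hAu, Matrix.mulVec_smul] at h3
      rw [h3]
      have : (z • (1 + δ • T0.map (algebraMap k K))).map w =
          w z • (1 + δ • T0.map (algebraMap k K)).map w := by
        ext i j
        simp only [Matrix.map_apply, Matrix.smul_apply, smul_eq_mul, map_mul]
      rw [this, Matrix.smul_mulVec, hBu, smul_smul]
    have hne : 1 - w δ * ρ ≠ 0 := by
      intro h
      rw [h, zero_smul] at hZu
      have h3 := smul_eq_zero.1 hZu.symm
      rcases h3 with h3 | h3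
      · rcases mul_eq_zero.1 h3 with h4 | h4
        · exact hz0 h4
        · linarith
      · exact hu h3
    have hev : (X.map w * Matrix.diagonal fun i => w (upG K g i)).mulVec u =
        (w z * (1 + w δ * ρ) / (1 - w δ * ρ)) • u := by
      have h3 : X.map w * (Matrix.diagonal fun i => w (upG K g i)) = Z.map w := by
        rw [← hXZ, Matrix.map_mul]
        congr 1
        ext i j
        by_cases hij : i = j
        · subst hij; simp
        · simp [hij]
      rw [h3, div_eq_inv_mul, mul_smul, ← hZu, smul_smul, inv_mul_cancel₀ hne, one_smul]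
    have hξ : 0 < w z * (1 + w δ * ρ) / (1 - w δ * ρ) := by
      refine eig_pos (a := up K a) (b := up K b) (c := up K c) (S := X) hX hXd ?_ (upG K g) hgw hu
        hev
      intro w1 w2 w3
      rw [val_ofF hX]
      exact hpos w hD ![w1, w2, w3]
    have hn : τ n0 * (1 - τ d * ρ ^ 2) =
        w z * (1 + w δ * ρ) / (1 - w δ * ρ) * (w (σ η) * (1 - w δ * ρ)) ^ 2 := by
      have e1 : τ n0 = w z * w (σ η) ^ 2 := by
        rw [← hwk, hn0, map_mul]
        have : w η = w z * w (σ η) := by
          conv_lhs => rw [hη]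
          rw [map_mul]
        rw [this]
        ring
      have e2 : τ d = w δ ^ 2 := by rw [← hwk, hd, map_pow]
      rw [e1, e2]
      field_simp
      ring
    rw [hn]
    have hση : w (σ η) ≠ 0 := by
      rw [_root_.map_ne_zero, _root_.map_ne_zero]
      exact hη0
    positivity

theorem dgi_isHermitian {F : Type} [Field F] {a b : Fˣ} (g : Fin 3 → Fˣ) :
    (dgi a b g).IsHermitian := by
  rw [Matrix.IsHermitian, dgi, diagonal_conjTranspose]
  congr 1
  funext i
  exact star_coe' _

theorem ofMV_dgi {F : Type} [Field F] {a b c : Fˣ} (g : Fin 3 → Fˣ) :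
    (Alb.ofMV (dgi a b g) 0 : Alb a b c) = Alb.one a b c g := by
  rw [dgi_toM, ofMV_toM, one_ofF]

/-- (E6) The matrix lemma. -/
theorem exists_m {k K : Type} [Field k] [NumberField k] [Field K] [NumberField K] [Algebra k K]
    (h2 : Module.finrank k K = 2) {σ : K ≃ₐ[k] K} {δ : K} (hδ : σ δ = -δ)
    (hδ0 : δ ≠ 0) {a b c : kˣ} {g : Fin 3 → kˣ} (hab : Aniso (up K a) (up K b))
    (hgood : ∀ φ : k →+* ℝ, φ a < 0 → φ b < 0 → Dfn φ a b c)
    (hg : ∀ w : K →+* ℝ, Dfn (w.comp (algebraMap k K)) a b c → ∀ i, 0 < w (algebraMap k K (g i)))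
    (hanis : ∀ x : AlbL K a b c, herm σ g x x = 0 → x = 0)
    {z : K} (hz : z * σ z = 1) {R : Matrix (Fin 3) (Fin 3) k} (hR : R.transpose = R)
    {x : AlbL K a b c} (hx : IsCay δ z g (Alb.ofF R) x)
    (hnm : Alb.cub x = Alb.cub (Alb.one (up K a) (up K b) (up K c) (upG K g)))
    (hpos : ∀ (w : K →+* ℝ), Dfn (w.comp (algebraMap k K)) a b c → ∀ X : Matrix (Fin 3) (Fin 3) K,
      X.transpose = X → x = Alb.ofF X → ∀ u : Fin 3 → K, 0 ≤ w (u ⬝ᵥ X *ᵥ u)) :
    ∃ m : (Matrix (Fin 3) (Fin 3) (Qt (up K a) (up K b)))ˣ,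
      IsU σ g g (m : Matrix (Fin 3) (Fin 3) (Qt (up K a) (up K b))) ∧
      nu (m : Matrix (Fin 3) (Fin 3) (Qt (up K a) (up K b))) = 1 ∧
      Alb.act m 1 (Alb.one _ _ _ (upG K g)) = x := by
  obtain ⟨hx1, hx2⟩ := hx
  rw [aup_ofF] at hx1 hx2
  set RK : Matrix (Fin 3) (Fin 3) K := R.map (algebraMap k K) with hRK
  have hRKs : RK.transpose = RK := by rw [hRK, ← transpose_map, hR]
  obtain ⟨hAdet, hxX⟩ := cay_matrix (upG K g) hRKs hx1 hx2
  -- the matrices
  set D : Matrix (Fin 3) (Fin 3) K := Matrix.diagonal fun i => (upG K g i : K) with hD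
  set D' : Matrix (Fin 3) (Fin 3) K := Matrix.diagonal fun i => ((upG K g i : K))⁻¹ with hD'
  have hDD' : D * D' = 1 := by
    rw [hD, hD', diagonal_mul_diagonal, ← diagonal_one]
    congr 1
    funext i
    exact mul_inv_cancel₀ (upG K g i).ne_zero
  have hD'D : D' * D = 1 := by
    rw [hD, hD', diagonal_mul_diagonal, ← diagonal_one]
    congr 1
    funext i
    exact inv_mul_cancel₀ (upG K g i).ne_zero
  set T0 : Matrix (Fin 3) (Fin 3) k := R * Matrix.diagonal fun i => (g i : k) with hT0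
  have hT0K : T0.map (algebraMap k K) = RK * D := by
    rw [hT0, Matrix.map_mul, hRK]
    congr 1
    ext i j
    by_cases hij : i = j
    · subst hij; simp [D]
    · simp [D, hij]
  rw [← hT0K] at hAdet hxX
  set T : Matrix (Fin 3) (Fin 3) K := T0.map (algebraMap k K) with hTdef
  have hT0s : T0.transpose * Matrix.diagonal (fun i => (g i : k)) =
      Matrix.diagonal (fun i => (g i : k)) * T0 := by
    rw [hT0, transpose_mul, hR, diagonal_transpose, mul_assoc]
  have hTs : T.transpose * D = D * T := by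
    rw [hT0K, transpose_mul, hRKs, hD, diagonal_transpose, mul_assoc]
  have hTσ : T.map σ = T := by
    ext i j
    simp only [hTdef, Matrix.map_apply, σ.commutes]
  set A : Matrix (Fin 3) (Fin 3) K := 1 - δ • T with hA
  set B : Matrix (Fin 3) (Fin 3) K := 1 + δ • T with hB
  have hAu : IsUnit A.det := isUnit_iff_ne_zero.2 hAdet
  have hBA : A.map σ = B := by
    ext i j
    have := congrFun (congrFun hTσ i) j
    simp only [Matrix.map_apply] at this
    simp only [hA, hB, Matrix.map_apply, Matrix.sub_apply, Matrix.add_apply, Matrix.smul_apply,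
      smul_eq_mul, map_sub, map_mul, hδ, this, Matrix.one_apply]
    split_ifs <;> simp
  have hBdet : B.det ≠ 0 := by
    have h1 : B.det = σ A.det := by
      rw [← hBA]
      exact (RingHom.map_det (σ : K →+* K) A).symm
    rw [h1, _root_.map_ne_zero]
    exact hAdet
  have hcomm : A * B = B * A := by
    rw [hA, hB]
    generalize δ • T = S
    noncomm_ring
  set Z : Matrix (Fin 3) (Fin 3) K := z • (B * A⁻¹) with hZdef
  have hZA : Z * A = z • B := by
    rw [hZdef, smul_mul_assoc, mul_assoc, Matrix.nonsing_inv_mul _ hAu, mul_one]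
  have hz0 : z ≠ 0 := by
    rintro rfl
    rw [zero_mul] at hz
    exact zero_ne_one hz
  set X : Matrix (Fin 3) (Fin 3) K := Z * D' with hXdef
  have hXD : X * D = Z := by rw [hXdef, mul_assoc, hD'D, mul_one]
  -- symmetry
  have hAs : A.transpose * D = D * A := by
    rw [hA, transpose_sub, transpose_one, transpose_smul, sub_mul, one_mul, smul_mul_assoc, hTs,
      mul_sub, mul_one, mul_smul_comm]
  have hBs : B.transpose * D = D * B := by
    rw [hB, transpose_add, transpose_one, transpose_smul, add_mul, one_mul, smul_mul_assoc, hTs,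
      mul_add, mul_one, mul_smul_comm]
  have hAtu : IsUnit A.transpose.det := by rwa [det_transpose]
  have hZs : Z.transpose * D = D * Z := by
    have h1 : A.transpose * (Z.transpose * D) = A.transpose * (D * Z) := by
      rw [← mul_assoc, ← transpose_mul, hZA, transpose_smul, smul_mul_assoc, hBs, ← mul_assoc,
        hAs, mul_assoc]
      have h3 : A * Z = z • B := by
        rw [hZdef, mul_smul_comm, ← mul_assoc, hcomm, mul_assoc, Matrix.mul_nonsing_inv _ hAu,
          mul_one]
      rw [h3, mul_smul_comm]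
    calc Z.transpose * D = (A.transpose)⁻¹ * (A.transpose * (Z.transpose * D)) := by
          rw [← mul_assoc, Matrix.nonsing_inv_mul _ hAtu, one_mul]
      _ = D * Z := by rw [h1, ← mul_assoc, Matrix.nonsing_inv_mul _ hAtu, one_mul]
  have hXs : X.transpose = X := by
    have hD't : D'.transpose = D' := by rw [hD', diagonal_transpose]
    have h1 : Z.transpose = D * Z * D' := by rw [← hZs, mul_assoc, hDD', mul_one]
    rw [hXdef, transpose_mul, hD't, h1, ← mul_assoc, ← mul_assoc, hD'D, one_mul]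
  have hXdet : X.det ≠ 0 := by
    rw [hXdef, det_mul, hZdef, det_smul, det_mul, Matrix.det_nonsing_inv, Ring.inverse_eq_inv']
    refine mul_ne_zero (mul_ne_zero (pow_ne_zero _ hz0) (mul_ne_zero hBdet (inv_ne_zero hAdet))) ?_
    rw [hD', det_diagonal]
    exact Finset.prod_ne_zero_iff.2 fun i _ => inv_ne_zero (upG K g i).ne_zero
  -- the polynomials
  obtain ⟨η, hη0, hη⟩ := exists_eta hδ hδ0 hz
  obtain ⟨n0, hn0⟩ := Five.exists_fix h2 hδ hδ0 (η * σ η) (by
    rw [map_mul, Five.invol h2 hδ hδ0, mul_comm])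
  obtain ⟨d, hd⟩ := Five.exists_fix h2 hδ hδ0 (δ ^ 2) (by rw [map_pow, hδ, neg_sq])
  have hση0 : σ η ≠ 0 := by rwa [_root_.map_ne_zero]
  let Y : K[X] := C η * (1 + C δ * Polynomial.X)
  let Yσ : K[X] := C (σ η) * (1 - C δ * Polynomial.X)
  let p0 : k[X] := C n0 * (1 - C d * Polynomial.X ^ 2)
  have hP : p0.map (algebraMap k K) = Y * Yσ := by
    simp only [p0, Y, Yσ, Polynomial.map_mul, Polynomial.map_sub, Polynomial.map_one, map_C,
      Polynomial.map_pow, map_X, hn0, hd, map_mul, map_pow]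
    ring
  have hYT : aeval T Y = η • B := by
    simp only [Y, map_mul, map_add, map_one, aeval_C, aeval_X, Algebra.algebraMap_eq_smul_one,
      smul_mul_assoc, one_mul, hB]
  have hYσT : aeval T Yσ = σ η • A := by
    simp only [Yσ, map_mul, map_sub, map_one, aeval_C, aeval_X, Algebra.algebraMap_eq_smul_one,
      smul_mul_assoc, one_mul, hA]
  have hp0 : IsUnit (aeval T0 p0) := by
    rw [Matrix.isUnit_iff_isUnit_det, isUnit_iff_ne_zero]
    intro h0
    have h1 : ((aeval T0 p0).map (algebraMap k K)).det = 0 := by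
      have h3 := RingHom.map_det (algebraMap k K) (aeval T0 p0)
      rw [h0, map_zero] at h3
      exact h3.symm
    rw [← aeval_map_alg, hP, map_mul, hYT, hYσT, det_mul, det_smul, det_smul] at h1
    have h3 : η ^ Fintype.card (Fin 3) * B.det * (σ η ^ Fintype.card (Fin 3) * A.det) ≠ 0 :=
      mul_ne_zero (mul_ne_zero (pow_ne_zero _ hη0) hBdet)
        (mul_ne_zero (pow_ne_zero _ hση0) hAdet)
    exact h3 h1
  obtain ⟨q0, q1, q2, q3, q, hq, hq1⟩ := exists_nrd_poly hT0s (anisG_of_herm hanis) hp0 (by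
    intro τ ρ u ha hb hu he
    have h1 := sign_aux h2 hδ hδ0 hgood hg hXs hXdet hXD (by rw [← hTdef, ← hA, ← hB]; exact hZA)
      (fun w hw u => hpos w hw X hXs hxX u) hη0 hη hn0 hd τ ρ u ha hb hu he
    have h3 : p0.eval₂ τ ρ = τ n0 * (1 - τ d * ρ ^ 2) := by
      simp only [p0, eval₂_mul, eval₂_C, eval₂_sub, eval₂_one, eval₂_pow, eval₂_X]
    rw [h3]
    exact h1)
  let n : QP K a b := ⟨q0.map (algebraMap k K), q1.map (algebraMap k K), q2.map (algebraMap k K),
    q3.map (algebraMap k K)⟩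
  have hmapσ : ∀ p : k[X], (p.map (algebraMap k K)).map (σ : K →+* K) = p.map (algebraMap k K) := by
    intro p
    rw [Polynomial.map_map]
    congr 1
    ext t
    exact σ.commutes t
  have hYY : Y.map (σ : K →+* K) = Yσ := by
    simp only [Y, Yσ, Polynomial.map_mul, Polynomial.map_add, Polynomial.map_one, map_C, map_X,
      RingHom.coe_coe, hδ, map_neg, neg_mul, sub_eq_add_neg]
  have hNn : aeval T (NnS n) = aeval T (p0.map (algebraMap k K)) := by
    rw [aeval_map_alg, ← hq, ← aeval_map_alg]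
    congr 1
    simp only [NnS, n, Polynomial.map_add, Polynomial.map_sub, Polynomial.map_mul,
      Polynomial.map_pow, map_C]
    rfl
  have hPQ : aeval T (p0.map (algebraMap k K) * q.map (algebraMap k K)) = 1 := by
    rw [← Polynomial.map_mul, aeval_map_alg, hq1]
    ext i j
    simp only [Matrix.map_apply, Matrix.one_apply]
    split_ifs <;> simp
  obtain ⟨m, hm1, hm2⟩ := exists_core σ g hTs hTσ hP hYY (hmapσ q) (hmapσ q0) (hmapσ q1)
    (hmapσ q2) (hmapσ q3) hNn hPQ
  -- identification of the first factor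
  have hYZ : aeval T (Y ^ 2 * q.map (algebraMap k K)) = Z := by
    have h1 : aeval T (Y ^ 2 * q.map (algebraMap k K)) * (σ η • A) = η • B := by
      rw [← hYσT, ← map_mul]
      have h3 : Y ^ 2 * q.map (algebraMap k K) * Yσ =
          Y * (p0.map (algebraMap k K) * q.map (algebraMap k K)) := by
        rw [hP]
        ring
      rw [h3, map_mul, hPQ, mul_one, hYT]
    have h3 : aeval T (Y ^ 2 * q.map (algebraMap k K)) * A = z • B := by
      rw [mul_smul_comm] at h1
      have h4 := congrArg (fun M => (σ η)⁻¹ • M) h1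
      simp only [smul_smul, inv_mul_cancel₀ hση0, one_smul] at h4
      rw [h4]
      congr 1
      rw [inv_mul_eq_iff_eq_mul₀ hση0, mul_comm]
      exact hη
    calc aeval T (Y ^ 2 * q.map (algebraMap k K))
        = aeval T (Y ^ 2 * q.map (algebraMap k K)) * A * A⁻¹ := by
          rw [mul_assoc, Matrix.mul_nonsing_inv _ hAu, mul_one]
      _ = Z := by rw [h3, smul_mul_assoc]
  rw [hYZ, toM_mul_dgi] at hm2
  have h2K : (2 : K) ≠ 0 := two_ne_zero
  have hact : Alb.act m 1 (Alb.one (up K a) (up K b) (up K c) (upG K g)) = x := by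
    have e1 : Alb.mat (Alb.one (up K a) (up K b) (up K c) (upG K g)) =
        dgi (up K a) (up K b) (upG K g) := by
      rw [← ofMV_dgi, mat_ofMV h2K (dgi_isHermitian _)]
    have e2 : Alb.vec (Alb.one (up K a) (up K b) (up K c) (upG K g)) = 0 := by
      funext i
      fin_cases i <;> simp [Alb.vec, Alb.one]
    rw [Alb.act, e1, e2, hm2, hxX, ← ofMV_toM (a := up K a) (b := up K b)]
    congr 1
    funext i
    simp
  refine ⟨m, hm1, ?_, hact⟩
  have h3 := herN_mul h2K hab (m : Matrix (Fin 3) (Fin 3) (Qt (up K a) (up K b)))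
    (dgi (up K a) (up K b) (upG K g)) (dgi_isHermitian _)
  rw [hm2, ← cub_ofMV_zero (c := up K c), ofMV_toM, ← cub_ofMV_zero (c := up K c)
    (dgi (up K a) (up K b) (upG K g)), ofMV_dgi, ← hnm] at h3
  have h4 : Alb.cub x = Alb.cub (Alb.ofF X : AlbL K a b c) := by rw [← hxX]
  rw [← h4] at h3
  have h5 : Alb.cub x ≠ 0 := by
    rw [hnm, Alb.cub_one]
    exact inv_ne_zero (Alb.gam_ne _)
  exact mul_right_cancel₀ h5 (by rw [← h3, one_mul])

namespace Lit

/-- (E6) of Spec, with the additional hypothesis `hab`. -/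
theorem exists_m {k K : Type} [Field k] [NumberField k] [Field K] [NumberField K] [Algebra k K]
    (h2 : Module.finrank k K = 2) {σ : K ≃ₐ[k] K} (_hσ : σ ≠ 1) {δ : K} (hδ : σ δ = -δ)
    (hδ0 : δ ≠ 0) {a b c : kˣ} {g : Fin 3 → kˣ} (hab : Aniso (up K a) (up K b))
    (hgood : ∀ φ : k →+* ℝ, φ a < 0 → φ b < 0 → Dfn φ a b c)
    (hg : ∀ w : K →+* ℝ, Dfn (w.comp (algebraMap k K)) a b c → ∀ i, 0 < w (algebraMap k K (g i)))
    (hanis : ∀ x : AlbL K a b c, herm σ g x x = 0 → x = 0)
    {z : K} (hz : z * σ z = 1) {R : Matrix (Fin 3) (Fin 3) k} (hR : R.transpose = R)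
    {x : AlbL K a b c} (hx : IsCay δ z g (Alb.ofF R) x)
    (hnm : Alb.cub x = Alb.cub (Alb.one (up K a) (up K b) (up K c) (upG K g)))
    (hpos : ∀ (w : K →+* ℝ), Dfn (w.comp (algebraMap k K)) a b c → ∀ X : Matrix (Fin 3) (Fin 3) K,
      X.transpose = X → x = Alb.ofF X → ∀ u : Fin 3 → K, 0 ≤ w (u ⬝ᵥ X *ᵥ u)) :
    ∃ m : (Matrix (Fin 3) (Fin 3) (Qt (up K a) (up K b)))ˣ,
      IsU σ g g (m : Matrix (Fin 3) (Fin 3) (Qt (up K a) (up K b))) ∧
      nu (m : Matrix (Fin 3) (Fin 3) (Qt (up K a) (up K b))) = 1 ∧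
      Alb.act m 1 (Alb.one _ _ _ (upG K g)) = x :=
  E6.exists_m h2 hδ hδ0 hab hgood hg hanis hz hR hx hnm hpos

end Lit

end Vale.Agent.P011.E6
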