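import Vale.Agent.P011.E6.Phi
import Vale.Agent.P011.E6.H64.Act

/-!
(E6) The element of the special unitary group attached to a polynomial identity.
-/

open Polynomial Matrix

namespace Vale.Agent.P011.E6

open Vale.Agent.P011.MPQ Vale.Agent.P011.D4 Vale.Agent.P011.E6.H64

section core

variable {k K : Type} [Field k] [Field K] [Algebra k K] {a b : kˣ}

/-- The quaternions over the polynomial ring. -/
abbrev QP (K : Type) [Field K] [Algebra k K] (a b : kˣ) : Type :=
  QuaternionAlgebra K[X] (C ((up K a : Kˣ) : K)) 0 (C ((up K b : Kˣ) : K))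

theorem aeval_map_sigma (σ : K ≃ₐ[k] K) {T : Matrix (Fin 3) (Fin 3) K} (hT : T.map σ = T)
    (p : K[X]) : (aeval T p).map σ = aeval T (p.map (σ : K →+* K)) := by
  have h1 : ((σ : K →+* K).mapMatrix : Matrix (Fin 3) (Fin 3) K →+* Matrix (Fin 3) (Fin 3) K)
      (aeval T p) = aeval T (p.map (σ : K →+* K)) := by
    rw [aeval_def, aeval_def, hom_eval₂, eval₂_map]
    congr 1
    ext t i j
    simp only [RingHom.comp_apply, RingHom.mapMatrix_apply, Matrix.map_apply,
      Matrix.algebraMap_matrix_apply, RingHom.coe_coe]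
    split_ifs
    · rfl
    · exact map_zero _
  exact h1

theorem Phi_map (σ : K ≃ₐ[k] K) {T : Matrix (Fin 3) (Fin 3) K} (hT : T.map σ = T)
    {p q : QP K a b} (h0 : p.re.map (σ : K →+* K) = q.re)
    (h1 : p.imI.map (σ : K →+* K) = q.imI) (h2 : p.imJ.map (σ : K →+* K) = q.imJ)
    (h3 : p.imK.map (σ : K →+* K) = q.imK) :
    (Phi (up K a) (up K b) T p).map (qmap σ) = Phi (up K a) (up K b) T q := by
  rw [Phi_apply, Phi_apply, ← h0, ← h1, ← h2, ← h3, ← aeval_map_sigma σ hT,
    ← aeval_map_sigma σ hT, ← aeval_map_sigma σ hT, ← aeval_map_sigma σ hT]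
  rfl

section gen

variable {S : Type} [CommRing S] {α β : S}

/-- The reduced norm. -/
def NnS (n : QuaternionAlgebra S α 0 β) : S :=
  n.re ^ 2 - α * n.imI ^ 2 - β * n.imJ ^ 2 + α * β * n.imK ^ 2

theorem quat_id1 (n : QuaternionAlgebra S α 0 β) (y z q : S) :
    (y : QuaternionAlgebra S α 0 β) * star n * (q : QuaternionAlgebra S α 0 β) *
      (n * (z : QuaternionAlgebra S α 0 β) * (q : QuaternionAlgebra S α 0 β)) =
      ((y * z * q * (NnS n * q) : S) : QuaternionAlgebra S α 0 β) := by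
  apply QuaternionAlgebra.ext
  all_goals
    simp only [QuaternionAlgebra.re_mul, QuaternionAlgebra.imI_mul, QuaternionAlgebra.imJ_mul,
      QuaternionAlgebra.imK_mul, QuaternionAlgebra.re_star, QuaternionAlgebra.imI_star,
      QuaternionAlgebra.imJ_star, QuaternionAlgebra.imK_star, QuaternionAlgebra.re_coe,
      QuaternionAlgebra.imI_coe, QuaternionAlgebra.imJ_coe, QuaternionAlgebra.imK_coe, NnS]
    ring

theorem quat_id2 (n : QuaternionAlgebra S α 0 β) (y z q : S) :
    n * (z : QuaternionAlgebra S α 0 β) * (q : QuaternionAlgebra S α 0 β) *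
      ((y : QuaternionAlgebra S α 0 β) * star n * (q : QuaternionAlgebra S α 0 β)) =
      ((y * z * q * (NnS n * q) : S) : QuaternionAlgebra S α 0 β) := by
  apply QuaternionAlgebra.ext
  all_goals
    simp only [QuaternionAlgebra.re_mul, QuaternionAlgebra.imI_mul, QuaternionAlgebra.imJ_mul,
      QuaternionAlgebra.imK_mul, QuaternionAlgebra.re_star, QuaternionAlgebra.imI_star,
      QuaternionAlgebra.imJ_star, QuaternionAlgebra.imK_star, QuaternionAlgebra.re_coe,
      QuaternionAlgebra.imI_coe, QuaternionAlgebra.imJ_coe, QuaternionAlgebra.imK_coe, NnS]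
    ring

theorem quat_id3 (n : QuaternionAlgebra S α 0 β) (y z q : S) :
    star ((z : QuaternionAlgebra S α 0 β) * star n * (q : QuaternionAlgebra S α 0 β)) *
      ((y : QuaternionAlgebra S α 0 β) * star n * (q : QuaternionAlgebra S α 0 β)) =
      ((y * z * q * (NnS n * q) : S) : QuaternionAlgebra S α 0 β) := by
  apply QuaternionAlgebra.ext
  all_goals
    simp only [QuaternionAlgebra.re_mul, QuaternionAlgebra.imI_mul, QuaternionAlgebra.imJ_mul,
      QuaternionAlgebra.imK_mul, QuaternionAlgebra.re_star, QuaternionAlgebra.imI_star,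
      QuaternionAlgebra.imJ_star, QuaternionAlgebra.imK_star, QuaternionAlgebra.re_coe,
      QuaternionAlgebra.imI_coe, QuaternionAlgebra.imJ_coe, QuaternionAlgebra.imK_coe, NnS]
    ring

theorem quat_id4 (n : QuaternionAlgebra S α 0 β) (y q : S) :
    (y : QuaternionAlgebra S α 0 β) * star n * (q : QuaternionAlgebra S α 0 β) *
      star ((y : QuaternionAlgebra S α 0 β) * star n * (q : QuaternionAlgebra S α 0 β)) =
      ((y ^ 2 * q * (NnS n * q) : S) : QuaternionAlgebra S α 0 β) := by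
  apply QuaternionAlgebra.ext
  all_goals
    simp only [QuaternionAlgebra.re_mul, QuaternionAlgebra.imI_mul, QuaternionAlgebra.imJ_mul,
      QuaternionAlgebra.imK_mul, QuaternionAlgebra.re_star, QuaternionAlgebra.imI_star,
      QuaternionAlgebra.imJ_star, QuaternionAlgebra.imK_star, QuaternionAlgebra.re_coe,
      QuaternionAlgebra.imI_coe, QuaternionAlgebra.imJ_coe, QuaternionAlgebra.imK_coe, NnS]
    ring

end gen

/-- The element. -/
theorem exists_core (σ : K ≃ₐ[k] K) (g : Fin 3 → kˣ) {T : Matrix (Fin 3) (Fin 3) K}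
    (hT : T.transpose * Matrix.diagonal (fun i => (upG K g i : K)) =
      Matrix.diagonal (fun i => (upG K g i : K)) * T) (hTσ : T.map σ = T)
    {Y Yσ P Q : K[X]} {n : QP K a b} (hP : P = Y * Yσ)
    (hY : Y.map (σ : K →+* K) = Yσ)
    (hQσ : Q.map (σ : K →+* K) = Q) (hn0 : n.re.map (σ : K →+* K) = n.re)
    (hn1 : n.imI.map (σ : K →+* K) = n.imI) (hn2 : n.imJ.map (σ : K →+* K) = n.imJ)
    (hn3 : n.imK.map (σ : K →+* K) = n.imK)
    (hN : aeval T (NnS n) = aeval T P) (hQ : aeval T (P * Q) = 1) :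
    ∃ m : (Matrix (Fin 3) (Fin 3) (Qt (up K a) (up K b)))ˣ,
      IsU σ g g (m : Matrix (Fin 3) (Fin 3) (Qt (up K a) (up K b))) ∧
      (m : Matrix (Fin 3) (Fin 3) (Qt (up K a) (up K b))) * dgi (up K a) (up K b) (upG K g) *
        (m : Matrix (Fin 3) (Fin 3) (Qt (up K a) (up K b)))ᴴ =
        toM (up K a) (up K b) (aeval T (Y ^ 2 * Q)) 0 0 0 * dgi (up K a) (up K b) (upG K g) := by
  let Φ := Phi (up K a) (up K b) T
  have hNQ : aeval T (NnS n) * aeval T Q = 1 := by rw [hN, ← map_mul, hQ]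
  have hc : ∀ {p q : K[X]}, aeval T p = aeval T q → Φ (p : QP K a b) = Φ (q : QP K a b) :=
    fun h => Phi_coe_congr h
  have h1 : Φ ((1 : K[X]) : QP K a b) = 1 := by
    have : ((1 : K[X]) : QP K a b) = 1 := rfl
    rw [this, map_one]
  obtain ⟨me, hme⟩ : ∃ me : QP K a b, me = (Y : QP K a b) * star n * (Q : QP K a b) := ⟨_, rfl⟩
  obtain ⟨mi, hmi⟩ : ∃ mi : QP K a b, mi = n * (Yσ : QP K a b) * (Q : QP K a b) := ⟨_, rfl⟩
  obtain ⟨ms, hms⟩ : ∃ ms : QP K a b, ms = (Yσ : QP K a b) * star n * (Q : QP K a b) := ⟨_, rfl⟩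
  have hc1 : ∀ p : K[X], aeval T p = 1 → Φ (p : QP K a b) = 1 := by
    intro p hp
    rw [← h1]
    apply hc
    rw [hp, map_one]
  have e1 : me * mi = ((P * Q * (NnS n * Q) : K[X]) : QP K a b) := by
    rw [hP, hme, hmi, quat_id1]
  have e2 : mi * me = ((P * Q * (NnS n * Q) : K[X]) : QP K a b) := by
    rw [hP, hme, hmi, quat_id2]
  have e3 : star ms * me = ((P * Q * (NnS n * Q) : K[X]) : QP K a b) := by
    rw [hP, hme, hms, quat_id3]
  have e4 : me * star me = ((Y ^ 2 * Q * (NnS n * Q) : K[X]) : QP K a b) := by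
    rw [hme, quat_id4]
  have hone : aeval T (P * Q * (NnS n * Q)) = 1 := by
    rw [map_mul, hQ, map_mul, hNQ, one_mul]
  let m : (Matrix (Fin 3) (Fin 3) (Qt (up K a) (up K b)))ˣ :=
    ⟨Φ me, Φ mi, by rw [← map_mul, e1, hc1 _ hone], by rw [← map_mul, e2, hc1 _ hone]⟩
  have hm : (m : Matrix (Fin 3) (Fin 3) (Qt (up K a) (up K b))) = Φ me := rfl
  have hs : (Φ me).map (qmap σ) = Φ ms := by
    apply Phi_map σ hTσ
    all_goals
      simp only [hme, hms, QuaternionAlgebra.re_mul, QuaternionAlgebra.imI_mul,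
        QuaternionAlgebra.imJ_mul, QuaternionAlgebra.imK_mul, QuaternionAlgebra.re_star,
        QuaternionAlgebra.imI_star, QuaternionAlgebra.imJ_star, QuaternionAlgebra.imK_star,
        QuaternionAlgebra.re_coe, QuaternionAlgebra.imI_coe, QuaternionAlgebra.imJ_coe,
        QuaternionAlgebra.imK_coe, Polynomial.map_add, Polynomial.map_sub, Polynomial.map_mul,
        Polynomial.map_neg, Polynomial.map_zero, hY, hn0, hn1, hn2, hn3, hQσ, mul_zero, zero_mul,
        add_zero, sub_zero, zero_add, zero_sub]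
  refine ⟨m, ?_, ?_⟩
  · rw [IsU, hm, hs]
    have h2 : (Φ ms)ᴴ * dg (up K a) (up K b) (upG K g) =
      dg (up K a) (up K b) (upG K g) * Φ (star ms) := Phi_conj hT ms
    rw [h2, mul_assoc, ← map_mul, e3, hc1 _ hone, mul_one]
  · rw [hm]
    have h2 : (Φ me)ᴴ * dg (up K a) (up K b) (upG K g) =
      dg (up K a) (up K b) (upG K g) * Φ (star me) := Phi_conj hT me
    have h3 : (Φ me)ᴴ = dg (up K a) (up K b) (upG K g) * Φ (star me) *
        dgi (up K a) (up K b) (upG K g) := by
      rw [← h2, mul_assoc, dg_mul_dgi, mul_one]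
    rw [h3, mul_assoc (Φ me), ← mul_assoc (dgi _ _ _), ← mul_assoc (dgi _ _ _), dgi_mul_dg,
      one_mul, ← mul_assoc, ← map_mul, e4]
    congr 1
    rw [← Phi_coe]
    apply hc
    rw [map_mul, map_mul (aeval T) (NnS n), hNQ, mul_one]

end core

end Vale.Agent.P011.E6
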