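import Vale.Agent.P011.E6.ExM1
import Vale.Agent.P011.E6.Five
import Vale.Agent.P011.E6.Pos3

/-!
(E6) Symmetric matrices, the Cayley transform, extensions of real embeddings.
-/

open Polynomial Matrix

namespace Vale.Agent.P011.E6

open Vale.Agent.P011.MPQ Vale.Agent.P011.D4 Vale.Agent.P011.D4.Oct Vale.Agent.P011.E6.H64

/-- Extension of real embeddings to quadratic extensions. -/
theorem exists_real_ext {k K : Type} [Field k] [CharZero k] [Field K] [Algebra k K]
    (h2 : Module.finrank k K = 2) {σ : K ≃ₐ[k] K} {δ : K} (hδ : σ δ = -δ) (hδ0 : δ ≠ 0) {d : k}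
    (hd : algebraMap k K d = δ ^ 2) {τ : k →+* ℝ} (hτ : 0 < τ d) :
    ∃ w : K →+* ℝ, w.comp (algebraMap k K) = τ := by
  have : CharZero K := charZero_of_injective_algebraMap (algebraMap k K).injective
  have hsurj : Function.Surjective (aeval δ : k[X] →ₐ[k] K).toRingHom := fun x => by
    obtain ⟨r, s, rfl⟩ := Five.exists_pair h2 hδ hδ0 x
    refine ⟨C r + C s * X, ?_⟩
    simp
  have hindep : ∀ r s : k, algebraMap k K r + algebraMap k K s * δ = 0 → r = 0 ∧ s = 0 := by
    intro r s h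
    have h1 := congrArg σ h
    rw [map_add, map_mul, σ.commutes, σ.commutes, hδ, map_zero] at h1
    have h3 : (2 : K) * algebraMap k K r = 0 := by linear_combination h + h1
    have h4 : algebraMap k K r = 0 := (mul_eq_zero.1 h3).resolve_left two_ne_zero
    have h5 : algebraMap k K s = 0 := by
      rw [h4, zero_add] at h
      exact (mul_eq_zero.1 h).resolve_right hδ0
    exact ⟨(map_eq_zero _).1 h4, (map_eq_zero _).1 h5⟩
  have hmon : (X ^ 2 - C d : k[X]).Monic := monic_X_pow_sub_C d two_ne_zero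
  have hker : RingHom.ker (aeval δ : k[X] →ₐ[k] K).toRingHom ≤
      RingHom.ker (eval₂RingHom τ (Real.sqrt (τ d))) := by
    intro p hp
    have hp' : aeval δ p = 0 := hp
    have hdiv := modByMonic_add_div p (X ^ 2 - C d)
    have hdeg : (p %ₘ (X ^ 2 - C d)).natDegree ≤ 1 := by
      have h1 := natDegree_modByMonic_lt p hmon (by
        intro h
        have := congrArg natDegree h
        rw [natDegree_X_pow_sub_C, natDegree_one] at this
        exact two_ne_zero this)
      rw [natDegree_X_pow_sub_C] at h1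
      omega
    obtain ⟨s, r, hrs⟩ := exists_eq_X_add_C_of_natDegree_le_one hdeg
    rw [hrs] at hdiv
    have h1 := congrArg (aeval δ) hdiv
    rw [hp'] at h1
    simp only [map_add, map_mul, aeval_C, aeval_X, map_sub, map_pow, hd, sub_self, zero_mul,
      add_zero] at h1
    obtain ⟨hr, hs⟩ := hindep r s (by linear_combination h1)
    rw [hr, hs] at hdiv
    rw [RingHom.mem_ker, coe_eval₂RingHom, ← hdiv]
    simp [Real.sq_sqrt hτ.le]
  let ψ : K →+* ℝ := RingHom.liftOfSurjective _ hsurj ⟨eval₂RingHom τ (Real.sqrt (τ d)), hker⟩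
  have hψ : ∀ p : k[X], ψ (aeval δ p) = p.eval₂ τ (Real.sqrt (τ d)) := fun p =>
    RingHom.liftOfRightInverse_comp_apply (aeval δ : k[X] →ₐ[k] K).toRingHom _ _
      ⟨eval₂RingHom τ (Real.sqrt (τ d)), hker⟩ p
  refine ⟨ψ, ?_⟩
  ext a
  have h1 := hψ (C a)
  rw [aeval_C, eval₂_C] at h1
  exact h1

section sym

variable {F : Type} [Field F] {a b c : Fˣ}

theorem cub_ofF {S : Matrix (Fin 3) (Fin 3) F} (hS : S.transpose = S) :
    Alb.cub (Alb.ofF S : Alb a b c) = S.det := by
  have h10 : S 1 0 = S 0 1 := congrFun (congrFun hS 0) 1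
  have h21 : S 2 1 = S 1 2 := congrFun (congrFun hS 1) 2
  have h02 : S 0 2 = S 2 0 := congrFun (congrFun hS 2) 0
  rw [Matrix.det_fin_three]
  simp only [Alb.cub, Alb.ofF, smul_mul_oct, mul_smul_oct, one_mul, bil_smul_left, bil_one_one,
    Oct.norm_smul, Oct.norm_one, h10, h21, h02]
  ring

theorem adj_ofF {S : Matrix (Fin 3) (Fin 3) F} (hS : S.transpose = S) :
    Alb.adj (Alb.ofF S : Alb a b c) = Alb.ofF S.adjugate := by
  have h10 : S 1 0 = S 0 1 := congrFun (congrFun hS 0) 1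
  have h21 : S 2 1 = S 1 2 := congrFun (congrFun hS 1) 2
  have h02 : S 0 2 = S 2 0 := congrFun (congrFun hS 2) 0
  rw [Matrix.adjugate_fin_three]
  ext1
  · simp only [Alb.adj, Alb.ofF, Oct.norm_smul, Oct.norm_one, Matrix.of_apply, Matrix.cons_val',
      Matrix.cons_val_zero, Matrix.cons_val_one, Matrix.cons_val, h10, h21, h02]
    ring
  · simp only [Alb.adj, Alb.ofF, Oct.norm_smul, Oct.norm_one, Matrix.of_apply, Matrix.cons_val',
      Matrix.cons_val_zero, Matrix.cons_val_one, Matrix.cons_val, h10, h21, h02]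
    ring
  · simp only [Alb.adj, Alb.ofF, Oct.norm_smul, Oct.norm_one, Matrix.of_apply, Matrix.cons_val',
      Matrix.cons_val_zero, Matrix.cons_val_one, Matrix.cons_val, h10, h21, h02]
    ring
  · simp only [Alb.adj, Alb.ofF, smul_mul_oct, mul_smul_oct, one_mul, star_smul_oct, star_one,
      Matrix.of_apply, Matrix.cons_val', Matrix.cons_val_zero, Matrix.cons_val_one,
      Matrix.cons_val, h10, h21, h02]
    module
  · simp only [Alb.adj, Alb.ofF, smul_mul_oct, mul_smul_oct, one_mul, star_smul_oct, star_one,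
      Matrix.of_apply, Matrix.cons_val', Matrix.cons_val_zero, Matrix.cons_val_one,
      Matrix.cons_val, h10, h21, h02]
    module
  · simp only [Alb.adj, Alb.ofF, smul_mul_oct, mul_smul_oct, one_mul, star_smul_oct, star_one,
      Matrix.of_apply, Matrix.cons_val', Matrix.cons_val_zero, Matrix.cons_val_one,
      Matrix.cons_val, h10, h21, h02]
    module

theorem wt_ofF (g : Fin 3 → Fˣ) (S : Matrix (Fin 3) (Fin 3) F) :
    Alb.wt g (Alb.ofF S : Alb a b c) =
      Alb.ofF (Matrix.diagonal (fun i => (g i : F)) * S * Matrix.diagonal (fun i => (g i : F))) := by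
  ext1
  · simp only [Alb.wt, Alb.ofF, Matrix.mul_diagonal, Matrix.diagonal_mul]; ring
  · simp only [Alb.wt, Alb.ofF, Matrix.mul_diagonal, Matrix.diagonal_mul]; ring
  · simp only [Alb.wt, Alb.ofF, Matrix.mul_diagonal, Matrix.diagonal_mul]; ring
  · simp only [Alb.wt, Alb.ofF, Matrix.mul_diagonal, Matrix.diagonal_mul]; module
  · simp only [Alb.wt, Alb.ofF, Matrix.mul_diagonal, Matrix.diagonal_mul]; module
  · simp only [Alb.wt, Alb.ofF, Matrix.mul_diagonal, Matrix.diagonal_mul]; module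

theorem one_ofF (g : Fin 3 → Fˣ) : (Alb.one a b c g) =
    Alb.ofF (Matrix.diagonal (fun i => ((g i)⁻¹ : F))) := by
  ext1 <;> simp [Alb.one, Alb.ofF]

theorem ofF_add (S S' : Matrix (Fin 3) (Fin 3) F) :
    (Alb.ofF (S + S') : Alb a b c) = Alb.ofF S + Alb.ofF S' := by
  ext1 <;> simp [Alb.ofF, add_smul]

theorem ofF_sub (S S' : Matrix (Fin 3) (Fin 3) F) :
    (Alb.ofF (S - S') : Alb a b c) = Alb.ofF S - Alb.ofF S' := by
  ext1 <;> simp [Alb.ofF, sub_smul]

theorem ofF_smul (t : F) (S : Matrix (Fin 3) (Fin 3) F) :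
    (Alb.ofF (t • S) : Alb a b c) = t • Alb.ofF S := by
  ext1 <;> simp [Alb.ofF, smul_smul]

theorem ofMV_toM (S : Matrix (Fin 3) (Fin 3) F) :
    (Alb.ofMV (toM a b S 0 0 0) 0 : Alb a b c) = Alb.ofF S := by
  ext1
  · rfl
  · rfl
  · rfl
  · apply ext8 <;> simp [Alb.ofMV, Alb.ofF, toM]
  · apply ext8 <;> simp [Alb.ofMV, Alb.ofF, toM]
  · apply ext8 <;> simp [Alb.ofMV, Alb.ofF, toM]

theorem dgi_toM (g : Fin 3 → Fˣ) :
    dgi a b g = toM a b (Matrix.diagonal fun i => ((g i)⁻¹ : F)) 0 0 0 := by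
  ext i j
  all_goals
    by_cases h : i = j
    · subst h; simp [toM, dgi]
    · simp [toM, dgi, h]

theorem toM_mul_dgi (S : Matrix (Fin 3) (Fin 3) F) (g : Fin 3 → Fˣ) :
    toM a b S 0 0 0 * dgi a b g = toM a b (S * Matrix.diagonal fun i => ((g i)⁻¹ : F)) 0 0 0 := by
  rw [dgi_toM, toM_mul]
  apply toM_ext <;> simp

end sym

theorem aup_ofF {k K : Type} [Field k] [Field K] [Algebra k K] {a b c : kˣ}
    (S : Matrix (Fin 3) (Fin 3) k) :
    aup K (Alb.ofF S : Alb a b c) = Alb.ofF (S.map (algebraMap k K)) := by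
  ext1
  · rfl
  · rfl
  · rfl
  · simp [aup, Alb.ofF, oup_smul, oup_one]
  · simp [aup, Alb.ofF, oup_smul, oup_one]
  · simp [aup, Alb.ofF, oup_smul, oup_one]

end Vale.Agent.P011.E6
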