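import Vale.Agent.P011.E6.ExM2

/-!
(E6) The matrix lemma.
-/

open Polynomial Matrix NumberField

namespace Vale.Agent.P011.E6

open Vale.Agent.P011.MPQ Vale.Agent.P011.D4 Vale.Agent.P011.D4.Oct Vale.Agent.P011.E6.H64

section mat

variable {K : Type} [Field K] {a b c : Kˣ}

/-- The Cayley transform in matrices. -/
theorem cay_matrix [NeZero (2 : K)] (g : Fin 3 → Kˣ) {δ z : K} {R : Matrix (Fin 3) (Fin 3) K}
    (hR : R.transpose = R) {x : Alb a b c}
    (h0 : Alb.cub (Alb.one a b c g - δ • Alb.ofF R) ≠ 0)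
    (hx : Alb.wt g (x + z • Alb.one a b c g) =
      (2 * z * (Alb.cub (Alb.one a b c g - δ • Alb.ofF R))⁻¹) •
        Alb.adj (Alb.one a b c g - δ • Alb.ofF R)) :
    (1 - δ • (R * Matrix.diagonal fun i => (g i : K))).det ≠ 0 ∧
    x = Alb.ofF (z • ((1 + δ • (R * Matrix.diagonal fun i => (g i : K))) *
      (1 - δ • (R * Matrix.diagonal fun i => (g i : K)))⁻¹) *
      Matrix.diagonal fun i => ((g i)⁻¹ : K)) := by
  set D : Matrix (Fin 3) (Fin 3) K := Matrix.diagonal fun i => (g i : K) with hD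
  set D' : Matrix (Fin 3) (Fin 3) K := Matrix.diagonal fun i => ((g i)⁻¹ : K) with hD'
  have hDD' : D * D' = 1 := by
    rw [hD, hD', diagonal_mul_diagonal, ← diagonal_one]
    congr 1
    funext i
    exact mul_inv_cancel₀ (g i).ne_zero
  have hD'D : D' * D = 1 := by
    rw [hD, hD', diagonal_mul_diagonal, ← diagonal_one]
    congr 1
    funext i
    exact inv_mul_cancel₀ (g i).ne_zero
  set A : Matrix (Fin 3) (Fin 3) K := 1 - δ • (R * D) with hA
  have hM : Alb.one a b c g - δ • Alb.ofF R = Alb.ofF (D' - δ • R) := by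
    rw [ofF_sub, ofF_smul, one_ofF]
  have hMs : (D' - δ • R).transpose = D' - δ • R := by
    rw [transpose_sub, transpose_smul, hR, hD', diagonal_transpose]
  rw [hM, cub_ofF hMs] at h0 hx
  rw [adj_ofF hMs] at hx
  have hMA : (D' - δ • R) * D = A := by
    rw [sub_mul, hD'D, smul_mul_assoc, hA]
  have hAD : A * D' = D' - δ • R := by
    rw [← hMA, mul_assoc, hDD', mul_one]
  have hAdet : A.det ≠ 0 := by
    rw [← hMA, det_mul]
    refine mul_ne_zero h0 ?_
    rw [hD, det_diagonal]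
    exact Finset.prod_ne_zero_iff.2 fun i _ => (g i).ne_zero
  refine ⟨hAdet, ?_⟩
  have hAu : IsUnit A.det := isUnit_iff_ne_zero.2 hAdet
  have hinv : (D' - δ • R)⁻¹ = D * A⁻¹ := by
    apply Matrix.inv_eq_right_inv
    rw [← mul_assoc, hMA, Matrix.mul_nonsing_inv _ hAu]
  apply Alb.wt_injective (g := g)
  have h1 : Alb.wt g x = Alb.wt g (x + z • Alb.one a b c g) - Alb.wt g (z • Alb.one a b c g) := by
    rw [Alb.wt_add]
    abel
  rw [h1, hx, one_ofF, ← ofF_smul, wt_ofF, ← ofF_smul, wt_ofF, ← ofF_sub]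
  congr 1
  rw [← hD, ← hD']
  have h2 : (2 * z * (D' - δ • R).det⁻¹) • (D' - δ • R).adjugate = (2 * z) • (D * A⁻¹) := by
    rw [← hinv, Matrix.inv_def, Ring.inverse_eq_inv', smul_smul]
  rw [h2]
  have h3 : D * (z • D') * D = z • D := by
    rw [mul_smul_comm, hDD', smul_mul_assoc, one_mul]
  have h4 : D * (z • ((1 + δ • (R * D)) * A⁻¹) * D') * D = z • (D * ((1 + δ • (R * D)) * A⁻¹)) := by
    rw [mul_assoc, mul_assoc (z • ((1 + δ • (R * D)) * A⁻¹)), hD'D, mul_one, mul_smul_comm]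
  rw [h3, h4]
  have h5 : (1 : Matrix (Fin 3) (Fin 3) K) + δ • (R * D) = (2 : K) • 1 - A := by
    rw [hA, two_smul]
    abel
  rw [h5, sub_mul, Matrix.mul_nonsing_inv _ hAu, mul_sub, mul_one, smul_mul_assoc, one_mul,
    mul_smul_comm, smul_sub, smul_smul, mul_comm z 2]

end mat

end Vale.Agent.P011.E6
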