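import Vale.Agent.P011.E6.Reach
import Vale.Agent.P011.E6.ExM
import Vale.Agent.P011.E6.Five
import Vale.Agent.P011.E6.LanGood
import Vale.Agent.P011.E6.H64.Glue

/-!
The subgroup generated by the unitary groups of the quaternion subalgebras acts transitively on
the orbit of the base point.
-/

open NumberField Matrix

namespace Vale.Agent.P011.E6

open Vale.Agent.P011.MPQ Vale.Agent.P011.D4 Vale.Agent.P011.D4.Oct

/-- A quadratic extension is generated by an element on which the conjugation acts by `-1`. -/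
theorem exists_delta_fo {k K : Type} [Field k] [Field K] [Algebra k K]
    (h2 : Module.finrank k K = 2) {σ : K ≃ₐ[k] K} (hσ : σ ≠ 1) :
    ∃ δ : K, σ δ = -δ ∧ δ ≠ 0 := by
  classical
  have hfd : FiniteDimensional k K := Module.finite_of_finrank_pos (by rw [h2]; norm_num)
  have hinv : ∀ t, σ (σ t) = t := by
    have hc : Fintype.card (K ≃ₐ[k] K) ≤ 2 := h2 ▸ AlgEquiv.card_le
    have h : σ ^ 2 = 1 := by
      by_contra hne
      have h3 : ({1, σ, σ ^ 2} : Finset (K ≃ₐ[k] K)).card ≤ 2 := (Finset.card_le_univ _).trans hc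
      have h12 : σ ≠ σ ^ 2 := by
        intro h
        apply hσ
        rw [sq] at h
        exact (left_eq_mul).1 h
      rw [Finset.card_insert_of_notMem, Finset.card_insert_of_notMem, Finset.card_singleton] at h3
      · omega
      · simpa using h12
      · simp only [Finset.mem_insert, Finset.mem_singleton, not_or]
        exact ⟨hσ.symm, fun h => hne h.symm⟩
    intro t
    have := DFunLike.congr_fun h t
    rwa [sq, AlgEquiv.mul_apply] at this
  obtain ⟨t, ht⟩ : ∃ t, σ t ≠ t := by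
    by_contra hne
    push Not at hne
    exact hσ (AlgEquiv.ext hne)
  refine ⟨t - σ t, ?_, sub_ne_zero.2 (Ne.symm ht)⟩
  rw [map_sub, hinv]
  ring

section main

variable {k K : Type} [Field k] [NumberField k] [Field K] [NumberField K] [Algebra k K]
  {σ : K ≃ₐ[k] K} {a b c : kˣ} {g : Fin 3 → kˣ}

omit [NumberField k] [NumberField K] in
theorem herm_aup_fo (x y : Alb a b c) :
    herm σ g (aup K x) (aup K y) = algebraMap k K (Alb.tf (Alb.wt g x) y) := by
  rw [herm, Alb.amap_aup, Alb.wt_aup, Alb.tf_aup]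

theorem anis_down_fo (hanis : ∀ x : AlbL K a b c, herm σ g x x = 0 → x = 0) (x : Alb a b c)
    (hx : Alb.tf (Alb.wt g x) x = 0) : x = 0 := by
  apply Alb.aup_injective (K := K)
  rw [hanis (aup K x) (by rw [herm_aup_fo, hx, map_zero])]
  symm
  apply hanis
  rw [herm_aup_fo]
  have h : Alb.wt g (0 : Alb a b c) = (0 : k) • Alb.wt g (0 : Alb a b c) := by
    rw [← Alb.wt_smul, zero_smul]
  rw [h, Alb.tf_smul_left, zero_mul, map_zero]

variable (h2 : Module.finrank k K = 2) (hσ : σ ≠ 1)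
  (hdiv : Division (up K a) (up K b) (up K c))
  (hanis : ∀ x : AlbL K a b c, herm σ g x x = 0 → x = 0)
  (hpos : ∀ w : K →+* ℝ, Dfn (w.comp (algebraMap k K)) a b c → ∀ i, 0 < w (algebraMap k K (g i)))
  (N : Subgroup (AlbL K a b c ≃ₗ[K] AlbL K a b c)) (hNle : N ≤ GE σ a b c g)
  (hN : ∀ φ ∈ GE σ a b c g, ∀ n ∈ N, φ * n * φ⁻¹ ∈ N) (hA : HasA σ g N)

include h2 hσ hdiv hanis hpos hNle hA hN

/-- (A): the elements of `N` move every element of the orbit of the base point to the base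
point. -/
theorem fix_one {φ : AlbL K a b c ≃ₗ[K] AlbL K a b c} (hφ : φ ∈ GE σ a b c g) :
    ∃ n ∈ N, (n * φ) (Alb.one _ _ _ (upG K g)) = Alb.one _ _ _ (upG K g) := by
  obtain ⟨δ, hδ, hδ0⟩ := exists_delta_fo h2 hσ
  obtain ⟨z, r, hz, hr⟩ := Five.exists_real h2 hσ hδ hδ0 hφ
  obtain ⟨a', b', c', g', ψ, hψ, -, -, -, hgood, R, hR, hRr⟩ :=
    lanczos_good (K := K) (σ := σ) hdiv (anis_down_fo hanis) r
  have hcoord := Reach.isCoord hψ hdiv
  have hdiv' := Reach.division hψ hdiv
  have hab : Aniso (up K a') (up K b') := Division.aniso hdiv'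
  have hanis' : ∀ x : AlbL K a' b' c', herm σ g' x x = 0 → x = 0 := H64.anis_coord hcoord hanis
  have hpos' : ∀ w : K →+* ℝ, Dfn (w.comp (algebraMap k K)) a' b' c' →
      ∀ i, 0 < w (algebraMap k K (g' i)) := by
    intro w hw i
    have hw' := (Reach.dfn hψ (w.comp (algebraMap k K))).1 hw
    exact Reach.pos hψ w hw' (hpos w hw') i
  set x := ψ.symm (φ (Alb.one _ _ _ (upG K g))) with hx
  have hψx : ψ x = φ (Alb.one _ _ _ (upG K g)) := ψ.apply_symm_apply _
  have hcay : IsCay δ z g' (Alb.ofF R) x :=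
    IsCoord.isCay hcoord hRr (by rw [hψx]; exact hr)
  obtain ⟨μ, hμ, hcub⟩ := hcoord.cub
  have hnm : Alb.cub x = Alb.cub (Alb.one (up K a') (up K b') (up K c') (upG K g')) := by
    apply mul_left_cancel₀ hμ
    rw [← hcub, ← hcub, hψx, hφ.1, hcoord.one]
  have hP : ∀ (w : K →+* ℝ), Dfn (w.comp (algebraMap k K)) a' b' c' →
      ∀ X : Matrix (Fin 3) (Fin 3) K, X.transpose = X → x = Alb.ofF X → ∀ u : Fin 3 → K,
        0 ≤ w (u ⬝ᵥ X *ᵥ u) := by
    intro w hw X hX hxX u
    refine Lit.pos_of_orbit (a := up K a') (b := up K b') (c := up K c') (g := upG K g') w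
      hw (hpos' w hw) (φ := (ψ.trans φ).trans ψ.symm) (fun y => ?_) hX ?_ u
    · apply mul_left_cancel₀ hμ
      rw [← hcub, LinearEquiv.trans_apply, LinearEquiv.trans_apply,
        LinearEquiv.apply_symm_apply, hφ.1, hcub]
    · rw [LinearEquiv.trans_apply, LinearEquiv.trans_apply, hcoord.one, ← hx, hxX]
  obtain ⟨m, hm, hnu, hmx⟩ := Lit.exists_m h2 hσ hδ hδ0 hab hgood hpos' hanis' hz hR hcay hnm hP
  obtain ⟨φ', hφ', hact⟩ := exists_actU (σ := σ) (c := c') (g := g') hab m hm hnu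
  have hmem : (ψ.symm.trans φ').trans ψ ∈ N := by
    refine hA a' b' c' g' ψ hψ m hm hnu _ fun y => ?_
    rw [LinearEquiv.trans_apply, LinearEquiv.trans_apply, LinearEquiv.symm_apply_apply, hact]
  refine ⟨((ψ.symm.trans φ').trans ψ)⁻¹, inv_mem hmem, ?_⟩
  have h1 : ((ψ.symm.trans φ').trans ψ) (Alb.one _ _ _ (upG K g)) =
      φ (Alb.one _ _ _ (upG K g)) := by
    rw [LinearEquiv.trans_apply, LinearEquiv.trans_apply, ← hcoord.one,
      LinearEquiv.symm_apply_apply, hact, hmx, hψx]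
    rw [hcoord.one]
  rw [LinearEquiv.mul_apply, ← h1, ← LinearEquiv.mul_apply, inv_mul_cancel]
  rfl

end main

end Vale.Agent.P011.E6
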