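import Vale.Agent.P011.E6.Defs

/-!
The group of type `²E₆` as a group of permutations.
-/

namespace Vale.Agent.P011.E6

open Vale.Agent.P011.D4

variable {k K : Type} [Field k] [Field K] [Algebra k K]

/-- The map `φ` is linear over `K` and preserves the cubic norm and the hermitian form. -/
def IsE6 (σ : K ≃ₐ[k] K) {a b c : kˣ} (g : Fin 3 → kˣ) (φ : AlbL K a b c → AlbL K a b c) : Prop :=
  (∀ x y, φ (x + y) = φ x + φ y) ∧ (∀ (t : K) x, φ (t • x) = t • φ x) ∧
    (∀ x, Alb.cub (φ x) = Alb.cub x) ∧ ∀ x y, herm σ g (φ x) (φ y) = herm σ g x y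

/-- The group of rational points of the group of type `²E₆` of the extension `K/k` with
conjugation `σ`, of the octonion algebra `(a, b, c)` and of the weights `g`. -/
def GP (σ : K ≃ₐ[k] K) (a b c : kˣ) (g : Fin 3 → kˣ) : Subgroup (Equiv.Perm (AlbL K a b c)) where
  carrier := {φ | IsE6 σ g φ}
  mul_mem' := by
    rintro φ ψ ⟨f1, f2, f3, f4⟩ ⟨h1, h2, h3, h4⟩
    refine ⟨fun x y => ?_, fun t x => ?_, fun x => ?_, fun x y => ?_⟩
    · rw [Equiv.Perm.mul_apply, h1, f1]; rfl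
    · rw [Equiv.Perm.mul_apply, h2, f2]; rfl
    · rw [Equiv.Perm.mul_apply, f3, h3]
    · rw [Equiv.Perm.mul_apply, Equiv.Perm.mul_apply, f4, h4]
  one_mem' := ⟨fun _ _ => rfl, fun _ _ => rfl, fun _ => rfl, fun _ _ => rfl⟩
  inv_mem' := by
    rintro φ ⟨f1, f2, f3, f4⟩
    have e : ∀ x, φ (φ⁻¹ x) = x := fun x => φ.apply_symm_apply x
    refine ⟨fun x y => ?_, fun t x => ?_, fun x => ?_, fun x y => ?_⟩
    · apply φ.injective
      rw [f1, e, e, e]
    · apply φ.injective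
      rw [f2, e, e]
    · rw [← f3, e]
    · rw [← f4, e, e]

end Vale.Agent.P011.E6
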