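import Vale.Agent.P011.E6.HDefs
import Vale.Agent.P011.E6.Asm

/-!
The final theorem on groups of type `²E₆`, for the group of permutations.
-/

namespace Vale.Agent.P011.E6

open Vale.Agent.P011.D4 Vale.Agent.P011.D4.Oct

section hom

variable {k K : Type} [Field k] [Field K] [Algebra k K] {σ : K ≃ₐ[k] K} {a b c : kˣ}
  {g : Fin 3 → kˣ}

/-- The two descriptions of the group agree. -/
def toGP : GE σ a b c g →* GP σ a b c g where
  toFun φ := ⟨φ.1.toEquiv, fun x y => map_add φ.1 x y, fun t x => map_smul φ.1 t x, φ.2.1, φ.2.2⟩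
  map_one' := rfl
  map_mul' _ _ := rfl

theorem toGP_surjective : Function.Surjective (toGP (σ := σ) (a := a) (b := b) (c := c)
    (g := g)) := by
  rintro ⟨φ, f1, f2, f3, f4⟩
  refine ⟨⟨{ φ with
    map_add' := f1
    map_smul' := f2 }, fun x => f3 x, fun x y => f4 x y⟩, ?_⟩
  apply Subtype.ext
  apply Equiv.ext
  intro x
  rfl

theorem toGP_injective : Function.Injective (toGP (σ := σ) (a := a) (b := b) (c := c)
    (g := g)) := by
  intro φ ψ h
  apply Subtype.ext
  apply LinearEquiv.ext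
  intro x
  exact congrArg (fun f : GP σ a b c g => (f : Equiv.Perm (AlbL K a b c)) x) h

end hom

/-- **Groups of type `²E₆`**, final form. -/
theorem gp_main {k K : Type} [Field k] [NumberField k] [Field K] [NumberField K] [Algebra k K]
    (h2 : Module.finrank k K = 2) {σ : K ≃ₐ[k] K} (hσ : σ ≠ 1) {a b c : kˣ} {g : Fin 3 → kˣ}
    (hdiv : Division (up K a) (up K b) (up K c))
    (hanis : ∀ x : AlbL K a b c, herm σ g x x = 0 → x = 0)
    (hpos : ∀ w : K →+* ℝ, Dfn (w.comp (algebraMap k K)) a b c →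
      ∀ i, 0 < w (algebraMap k K (g i))) (N : Subgroup (GP σ a b c g)) :
    (N.index ≠ 0 → N = ⊤) ∧ (N.Normal → N ≤ Subgroup.center (GP σ a b c g) ∨ N = ⊤) := by
  have htop : N.comap (toGP (σ := σ) (a := a) (b := b) (c := c) (g := g)) = ⊤ → N = ⊤ := by
    intro h
    rw [eq_top_iff]
    intro φ _
    obtain ⟨ψ, rfl⟩ := toGP_surjective φ
    have h3 : ψ ∈ N.comap toGP := by rw [h]; exact Subgroup.mem_top ψ
    exact h3
  refine ⟨fun hi => htop (e6_index h2 hσ hdiv hanis hpos _ ?_), fun hN => ?_⟩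
  · rw [Subgroup.index_comap_of_surjective _ toGP_surjective]
    exact hi
  · rcases e6_normal h2 hσ hdiv hanis hpos
      (N.comap (toGP (σ := σ) (a := a) (b := b) (c := c) (g := g))) with h | h
    · left
      intro φ hφ
      obtain ⟨ψ, rfl⟩ := toGP_surjective φ
      rw [Subgroup.mem_center_iff]
      intro χ
      obtain ⟨ψ', rfl⟩ := toGP_surjective χ
      have h1 := Subgroup.mem_center_iff.mp (h (Subgroup.mem_comap.mpr hφ)) ψ'
      rw [← map_mul, h1, map_mul]
    · exact Or.inr (htop h)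

end Vale.Agent.P011.E6
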