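import Vale.Agent.P011.E6.Coord
import Vale.Agent.P011.E6.Herm
import Vale.Agent.P011.E6.Act
import Vale.Agent.P011.E6.H691.ActD
import Vale.Agent.P011.D4.H369.Two

/-!
A nontrivial automorphism of the octonion algebra in a normal subgroup gives an element of a
special unitary group over a quaternion subalgebra.
-/

open Matrix

namespace Vale.Agent.P011.E6

open Vale.Agent.P011.MPQ Vale.Agent.P011.D4 Vale.Agent.P011.D4.Oct

variable {k K : Type} [Field k] [Field K] [Algebra k K] (σ : K ≃ₐ[k] K) {a b c : kˣ}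

/-- The subgroup contains an element of a special unitary group of degree three over a quaternion
subalgebra, that is not a scalar matrix. -/
def Hit (g : Fin 3 → kˣ) (N : Subgroup (AlbL K a b c ≃ₗ[K] AlbL K a b c)) : Prop :=
  ∃ (a' b' c' : kˣ) (g' : Fin 3 → kˣ) (ψ : AlbL K a' b' c' ≃ₗ[K] AlbL K a b c),
    Reach σ g g' ψ ∧ ∃ m : (Matrix (Fin 3) (Fin 3) (Qt (up K a') (up K b')))ˣ,
      IsU σ g' g' (m : Matrix (Fin 3) (Fin 3) (Qt (up K a') (up K b'))) ∧
      nu (m : Matrix (Fin 3) (Fin 3) (Qt (up K a') (up K b'))) = 1 ∧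
      (∀ t : K, (m : Matrix (Fin 3) (Fin 3) (Qt (up K a') (up K b'))) ≠ t • 1) ∧
      ∃ φ ∈ N, ∀ x, φ (ψ x) = ψ (Alb.act m 1 x)

section norm

variable [NeZero (2 : k)]

theorem exists_norm_one (hdiv : Division a b c) {i : Oct a b c} (hi : star i = -i) :
    ∃ z : Oct a b c, norm z = 1 ∧ ∃ r s : k, s ≠ 0 ∧ z = r • 1 + s • i := by
  have h2 : (2 : k) ≠ 0 := NeZero.ne 2
  have hb : bil i 1 = 0 := star_eq_neg_iff.1 hi
  have hn : ∀ r s : k, norm (r • (1 : Oct a b c) + s • i) = r ^ 2 + s ^ 2 * norm i := by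
    intro r s
    rw [norm_add, Oct.norm_smul, Oct.norm_smul, Oct.norm_one, bil_smul_left, bil_smul_right, bil_comm, hb]
    ring
  have h1 : 1 + norm i ≠ 0 := by
    intro h
    have h3 : norm ((1 : k) • (1 : Oct a b c) + (1 : k) • i) = 0 := by
      rw [hn]
      linear_combination h
    have h4 := hdiv _ h3
    rw [one_smul, one_smul] at h4
    have h5 : bil ((1 : Oct a b c) + i) 1 = 0 := by rw [h4, bil_zero_left]
    rw [bil_add_left, hb, bil_self, Oct.norm_one, add_zero, mul_one] at h5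
    exact h2 h5
  refine ⟨((1 + norm i)⁻¹ * (1 - norm i)) • 1 + ((1 + norm i)⁻¹ * 2) • i, ?_, _, _, ?_, rfl⟩
  · rw [hn]
    field_simp
    ring
  · exact mul_ne_zero (inv_ne_zero h1) h2

end norm

section aut

theorem aut_eq_id {t : OctL K a b c ≃ₗ[K] OctL K a b c} (hi : t gi = gi) (hj : t gj = gj)
    (hl : t gl = gl) (ht : ∀ x y, t (x * y) = t x * t y) (x : OctL K a b c) : t x = x := by
  have h : (t : OctL K a b c →ₗ[K] OctL K a b c) = LinearMap.id :=
    hom_ext ht (fun _ _ => rfl) (hom_one ht) hi hj hl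
  exact congrArg (fun f : OctL K a b c →ₗ[K] OctL K a b c => f x) h

theorem exists_moved [NeZero (2 : k)] (hdiv : Division a b c)
    {t : OctL K a b c ≃ₗ[K] OctL K a b c} (ht : ∀ x y, t (x * y) = t x * t y)
    (ht1 : ∃ x, t x ≠ x) : ∃ z : Oct a b c, norm z = 1 ∧ t (oup K z) ≠ oup K z := by
  by_contra h
  push Not at h
  have key : ∀ i : Oct a b c, star i = -i → t (oup K i) = oup K i := by
    intro i hi
    obtain ⟨z, hz, r, s, hs, rfl⟩ := exists_norm_one hdiv hi
    have h1 := h _ hz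
    rw [oup_add, oup_smul, oup_smul, oup_one, map_add, map_smul, map_smul, hom_one ht] at h1
    have h2 := add_left_cancel h1
    have hs' : algebraMap k K s ≠ 0 := by
      rw [map_ne_zero]
      exact hs
    exact smul_right_injective _ hs' h2
  obtain ⟨x, hx⟩ := ht1
  have hstd := trip_std (a := a) (b := b) (c := c)
  apply hx
  refine aut_eq_id ?_ ?_ ?_ ht x
  · have h1 := key gi hstd.si
    rwa [oup_gi] at h1
  · have h1 := key gj hstd.sj
    rwa [oup_gj] at h1
  · have h1 := key gl hstd.sl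
    rwa [oup_gl] at h1

end aut

section hit

variable {σ}

/-- The diagonal matrix `(p, q, 1)`. -/
def dd {F : Type} [Field F] {a b : Fˣ} (p q : Qt a b) (hp : nrd p = 1) (hq : nrd q = 1) :
    (Matrix (Fin 3) (Fin 3) (Qt a b))ˣ where
  val := diagonal ![p, q, 1]
  inv := diagonal ![star p, star q, 1]
  val_inv := by
    rw [diagonal_mul_diagonal, ← diagonal_one]
    congr 1
    funext i
    fin_cases i
    · exact H691.mul_star_self' hp
    · exact H691.mul_star_self' hq
    · exact one_mul _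
  inv_val := by
    rw [diagonal_mul_diagonal, ← diagonal_one]
    congr 1
    funext i
    fin_cases i
    · exact H691.star_mul_self' hp
    · exact H691.star_mul_self' hq
    · exact one_mul _

theorem isU_dd {g : Fin 3 → kˣ} {p q : Qt (up K a) (up K b)} (hp : nrd p = 1) (hq : nrd q = 1)
    (hσp : qmap σ p = p) (hσq : qmap σ q = q) :
    IsU σ g g ((dd p q hp hq : (Matrix (Fin 3) (Fin 3) (Qt (up K a) (up K b)))ˣ) :
      Matrix (Fin 3) (Fin 3) (Qt (up K a) (up K b))) := by
  have hval : ((dd p q hp hq : (Matrix (Fin 3) (Fin 3) (Qt (up K a) (up K b)))ˣ) :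
      Matrix (Fin 3) (Fin 3) (Qt (up K a) (up K b))) = diagonal ![p, q, 1] := rfl
  rw [IsU, hval, dg, diagonal_map (qmap_zero σ), diagonal_conjTranspose, diagonal_mul_diagonal,
    diagonal_mul_diagonal]
  congr 1
  funext i
  fin_cases i
  · change star (qmap σ p) * algebraMap K _ _ * p = _
    rw [hσp, ← Algebra.commutes, mul_assoc, H691.star_mul_self' hp, mul_one]
  · change star (qmap σ q) * algebraMap K _ _ * q = _
    rw [hσq, ← Algebra.commutes, mul_assoc, H691.star_mul_self' hq, mul_one]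
  · change star (qmap σ 1) * algebraMap K _ _ * 1 = _
    rw [qmap_one, star_one, one_mul, mul_one]

theorem nrd_star' {F : Type} [Field F] {a b : Fˣ} (q : Qt a b) : nrd (star q) = nrd q := by
  simp [nrd]

theorem nu_dd {F : Type} [Field F] {a b : Fˣ} {p q : Qt a b} (hp : nrd p = 1)
    (hq : nrd q = 1) :
    nu ((dd p q hp hq : (Matrix (Fin 3) (Fin 3) (Qt a b))ˣ) : Matrix (Fin 3) (Fin 3) (Qt a b)) =
      1 := by
  have hval : ((dd p q hp hq : (Matrix (Fin 3) (Fin 3) (Qt a b))ˣ) :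
      Matrix (Fin 3) (Fin 3) (Qt a b)) = diagonal ![p, q, 1] := rfl
  rw [hval, nu_diag]
  change nrd p * nrd q * nrd 1 = 1
  rw [hp, hq, one_mul, one_mul]
  simp [nrd]

theorem dz_mul_inv {F : Type} [Field F] {a b : Fˣ} {p q : Qt a b} (hp : nrd p = 1)
    (hq : nrd q = 1) (h1 : nrd (p * star q) = 1) (h2 : nrd (star p * q) = 1) :
    H691.dz p hp * (H691.dz q hq)⁻¹ = dd (p * star q) (star p * q) h1 h2 := by
  apply Units.ext
  change diagonal ![p, star p, 1] * diagonal ![star q, q, 1] = diagonal ![_, _, _]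
  rw [diagonal_mul_diagonal]
  congr 1
  funext i
  fin_cases i
  · rfl
  · rfl
  · exact one_mul _

variable [NeZero (2 : K)]

theorem tripO_oq {a' b' c' : kˣ} {i j l : Oct a b c} (hT : Trip a' b' c' i j l)
    (x : Qt a' b') : tripO K hT (H691.oq (qup K x)) = oup K (qemb i j x) := by
  rw [tripO_apply, oup_qemb, emb]
  change qemb (oup K i) (oup K j) (qup K x) + qemb (oup K i) (oup K j) 0 * oup K l = _
  rw [qemb_zero, zero_mul, add_zero]

theorem conj_dz {a' b' c' : kˣ} {i j l : Oct a b c} (hT : Trip a' b' c' i j l)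
    {q : Qt (up K a') (up K b')} (hq : nrd q = 1) {D : AlbL K a b c ≃ₗ[K] AlbL K a b c}
    (hD : ∀ w, D (tripA K hT w) = tripA K hT (Alb.act (H691.dz q hq) 1 w)) (X : AlbL K a b c) :
    D X = ⟨X.d1, X.d2, X.d3, star (tripO K hT (H691.oq q)) * X.x1,
      X.x2 * star (tripO K hT (H691.oq q)),
      tripO K hT (H691.oq q) * X.x3 * tripO K hT (H691.oq q)⟩ := by
  obtain ⟨w, rfl⟩ := (tripA K hT).surjective X
  rw [hD, H691.act_dz]
  simp only [tripA, Alb.mapE_apply, Alb.omapA, tripO_mul, hom_star (tripO_mul hT)]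

/-- A nontrivial real automorphism of the octonion algebra in a normal subgroup gives an element
of a special unitary group over a quaternion subalgebra. -/
theorem hit_of_aut [NeZero (2 : k)] (hfix : ∀ t : K, σ t = t → ∃ s : k, algebraMap k K s = t)
    (hdiv : Division (up K a) (up K b) (up K c)) {g : Fin 3 → kˣ}
    {N : Subgroup (AlbL K a b c ≃ₗ[K] AlbL K a b c)}
    (hN : ∀ φ ∈ GE σ a b c g, ∀ n ∈ N, φ * n * φ⁻¹ ∈ N)
    {φ : AlbL K a b c ≃ₗ[K] AlbL K a b c} (hφN : φ ∈ N)
    {t : OctL K a b c ≃ₗ[K] OctL K a b c} (ht : ∀ x y, t (x * y) = t x * t y)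
    (htσ : ∀ x, t (omap σ x) = omap σ (t x)) (hφt : ∀ x, φ x = Alb.omapA t x)
    (ht1 : ∃ x, t x ≠ x) : Hit σ g N := by
  have hdivk : Division a b c := by
    intro x hx
    apply Alb.oup_injective (K := K)
    rw [oup_zero]
    apply hdiv
    rw [norm_oup, hx, map_zero]
  obtain ⟨z, hz, htz⟩ := exists_moved hdivk ht ht1
  obtain ⟨z', hz'⟩ : ∃ z' : Oct a b c, oup K z' = t (oup K z) := by
    have h1 : amap σ (⟨0, 0, 0, t (oup K z), 0, 0⟩ : AlbL K a b c) =
        ⟨0, 0, 0, t (oup K z), 0, 0⟩ := by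
      simp only [amap, map_zero, ← htσ, omap_oup, omap_zero]
    obtain ⟨y, hy⟩ := Alb.exists_aup σ hfix h1
    exact ⟨y.x1, congrArg Alb.x1 hy⟩
  have hz1 : norm z' = 1 := by
    apply (algebraMap k K).injective
    rw [← norm_oup, hz', hom_norm ht, norm_oup, hz]
  obtain ⟨a', b', c', i, j, l, hT, ⟨x, hx⟩, ⟨y, hy⟩⟩ := H369.exists_trip_of_two hdivk z z'
  have hTb := hT.triple.toBasic
  have hxn : nrd (qup K x) = 1 := by
    rw [nrd_qup, ← hTb.norm_qemb, ← hx, hz, map_one]
  have hyn : nrd (qup K y) = 1 := by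
    rw [nrd_qup, ← hTb.norm_qemb, ← hy, hz1, map_one]
  have hab : Aniso (up K a') (up K b') := (aniso_of_trip hdiv (trip_up (L := K) hT)).1
  have hreal : ∀ w : Qt a' b', qmap σ (qup K w) = qup K w := fun w => qmap_qup σ w
  -- the elements
  have hex : ∀ (q : Qt a' b') (hq : nrd (qup K q) = 1), ∃ D ∈ GE σ a b c g,
      ∀ w, D (tripA K hT w) = tripA K hT (Alb.act (H691.dz (qup K q) hq) 1 w) := by
    intro q hq
    have hs : nrd (star (qup K q)) = 1 := by rw [nrd_star', hq]
    obtain ⟨χ, hχ, hχ'⟩ := exists_actU (σ := σ) (c := c') (g := g) hab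
      (H691.dz (qup K q) hq) (isU_dd hq hs (hreal q) (by rw [qmap_star, hreal]))
      (nu_dd hq hs)
    refine ⟨_, (isCoord_tripA (g := g) σ hT).conj_mem hχ, fun w => ?_⟩
    change tripA K hT (χ ((tripA K hT).symm (tripA K hT w))) = _
    rw [LinearEquiv.symm_apply_apply, hχ']
  obtain ⟨D, hD, hDw⟩ := hex x hxn
  obtain ⟨D', hD', hDw'⟩ := hex y hyn
  have hTx : tripO K hT (H691.oq (qup K x)) = oup K z := by rw [tripO_oq, ← hx]
  have hTy : tripO K hT (H691.oq (qup K y)) = oup K z' := by rw [tripO_oq, ← hy]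
  have hconj : φ * D * φ⁻¹ = D' := by
    rw [mul_inv_eq_iff_eq_mul]
    apply LinearEquiv.ext
    intro X
    rw [LinearEquiv.mul_apply, LinearEquiv.mul_apply, conj_dz hT hxn hDw, conj_dz hT hyn hDw',
      hφt, hφt, hTx, hTy]
    simp only [Alb.omapA, ht, hom_star ht, hz']
  have hmem : D' * D⁻¹ ∈ N := by
    have h1 := N.mul_mem hφN (hN D hD _ (N.inv_mem hφN))
    rwa [← mul_assoc, ← mul_assoc, hconj] at h1
  have h1 : nrd (qup K y * star (qup K x)) = 1 := by
    rw [nrd_mul, nrd_star', hyn, hxn, one_mul]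
  have h2 : nrd (star (qup K y) * qup K x) = 1 := by
    rw [nrd_mul, nrd_star', hyn, hxn, one_mul]
  refine ⟨a', b', c', g, tripA K hT, ?_, dd _ _ h1 h2, isU_dd h1 h2 ?_ ?_, nu_dd h1 h2, ?_,
    D' * D⁻¹, hmem, fun w => ?_⟩
  · exact Reach.trip Reach.refl hT _ fun x => tripA_apply hT x
  · rw [qmap_mul, qmap_star, hreal, hreal]
  · rw [qmap_mul, qmap_star, hreal, hreal]
  · intro s hs
    have e2 : (1 : Qt (up K a') (up K b')) = s • 1 := by
      have h3 := congrFun (congrFun hs 2) 2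
      rw [Matrix.smul_apply, one_apply_eq] at h3
      exact h3
    have e0 : qup K y * star (qup K x) = s • 1 := by
      have h3 := congrFun (congrFun hs 0) 0
      rw [Matrix.smul_apply, one_apply_eq] at h3
      exact h3
    rw [← e2] at e0
    apply htz
    rw [← hz', hy, hx]
    congr 2
    apply Alb.qup_injective (K := K)
    calc qup K y = qup K y * (star (qup K x) * qup K x) := by
          rw [H691.star_mul_self' hxn, mul_one]
      _ = qup K x := by rw [← mul_assoc, e0, one_mul]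
  · rw [← dz_mul_inv hyn hxn h1 h2, ← mul_one (1 : Qt (up K a') (up K b')), ← act_act,
      LinearEquiv.mul_apply, ← hDw']
    congr 1
    apply D.injective
    rw [hDw, act_act, mul_one, mul_inv_cancel, act_one_one, ← LinearEquiv.mul_apply, mul_inv_cancel]
    rfl

end hit

end Vale.Agent.P011.E6
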