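import Vale.Agent.P011.E6.HitF

/-!
The elements that fix the diagonal and two units are given by automorphisms of the octonion
algebra.
-/

namespace Vale.Agent.P011.E6

open Vale.Agent.P011.MPQ Vale.Agent.P011.D4 Vale.Agent.P011.D4.Oct Alb

section fix

variable {F : Type} [Field F] {a b c : Fˣ} {φ : Alb a b c ≃ₗ[F] Alb a b c}

theorem cross_e1 (y : Alb a b c) : cross e1 y = ⟨0, y.d3, y.d2, -y.x1, 0, 0⟩ := by
  simp [cross, e1]

theorem cross_e2 (y : Alb a b c) : cross e2 y = ⟨y.d3, 0, y.d1, 0, -y.x2, 0⟩ := by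
  simp [cross, e2]

theorem cross_e3 (y : Alb a b c) : cross e3 y = ⟨y.d2, y.d1, 0, 0, 0, -y.x3⟩ := by
  simp [cross, e3]

theorem zero_def : (0 : Alb a b c) = ⟨0, 0, 0, 0, 0, 0⟩ := rfl

theorem eq_sum (x : Alb a b c) : x = x.d1 • e1 + x.d2 • e2 + x.d3 • e3 + ⟨0, 0, 0, x.x1, 0, 0⟩ +
    ⟨0, 0, 0, 0, x.x2, 0⟩ + ⟨0, 0, 0, 0, 0, x.x3⟩ := by
  apply Alb.ext <;> simp [e1, e2, e3]

theorem eq_of_cross (y : Alb a b c) :
    (cross e1 y = 0 → y.d2 = 0 ∧ y.d3 = 0 ∧ y.x1 = 0) ∧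
    (cross e2 y = 0 → y.d1 = 0 ∧ y.d3 = 0 ∧ y.x2 = 0) ∧
    (cross e3 y = 0 → y.d1 = 0 ∧ y.d2 = 0 ∧ y.x3 = 0) := by
  refine ⟨fun h => ?_, fun h => ?_, fun h => ?_⟩
  · rw [cross_e1] at h
    exact ⟨congrArg d3 h, congrArg d2 h, neg_eq_zero.1 (congrArg x1 h)⟩
  · rw [cross_e2] at h
    exact ⟨congrArg d3 h, congrArg d1 h, neg_eq_zero.1 (congrArg x2 h)⟩
  · rw [cross_e3] at h
    exact ⟨congrArg d2 h, congrArg d1 h, neg_eq_zero.1 (congrArg x3 h)⟩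

variable [NeZero (2 : F)]

theorem tf_cross_map (h : ∀ x, cub (φ x) = cub x) (x y z : Alb a b c) :
    tf (cross (φ x) (φ y)) (φ z) = tf (cross x y) z := by
  have h0 : ∀ x y, tf (adj (φ x)) (φ y) = tf (adj x) y := fun x y => by
    have h1 := tf_adj_of_cub (φ := φ.toLinearMap) (μ := 1)
      (fun x => by rw [one_mul]; exact h x) x y
    rwa [one_mul] at h1
  have h1 := h0 (x + y) z
  rw [map_add, adj_add, adj_add, tf_add_left, tf_add_left, tf_add_left, tf_add_left, h0, h0] at h1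
  linear_combination h1

theorem cross_map_zero (h : ∀ x, cub (φ x) = cub x) {x y : Alb a b c} (hxy : cross x y = 0) :
    cross (φ x) (φ y) = 0 := by
  apply eq_zero_of_tf
  intro z
  obtain ⟨w, rfl⟩ := φ.surjective z
  rw [tf_cross_map h, hxy, tf_zero_left]

theorem fix_x (h : ∀ x, cub (φ x) = cub x) (h1 : φ e1 = e1) (h2 : φ e2 = e2) (h3 : φ e3 = e3)
    (x : Oct a b c) :
    φ ⟨0, 0, 0, x, 0, 0⟩ = ⟨0, 0, 0, (φ ⟨0, 0, 0, x, 0, 0⟩).x1, 0, 0⟩ ∧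
    φ ⟨0, 0, 0, 0, x, 0⟩ = ⟨0, 0, 0, 0, (φ ⟨0, 0, 0, 0, x, 0⟩).x2, 0⟩ ∧
    φ ⟨0, 0, 0, 0, 0, x⟩ = ⟨0, 0, 0, 0, 0, (φ ⟨0, 0, 0, 0, 0, x⟩).x3⟩ := by
  have k1 : ∀ y, cross e1 y = 0 → cross e1 (φ y) = 0 := fun y hy => by
    have h4 := cross_map_zero h hy
    rwa [h1] at h4
  have k2 : ∀ y, cross e2 y = 0 → cross e2 (φ y) = 0 := fun y hy => by
    have h4 := cross_map_zero h hy
    rwa [h2] at h4
  have k3 : ∀ y, cross e3 y = 0 → cross e3 (φ y) = 0 := fun y hy => by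
    have h4 := cross_map_zero h hy
    rwa [h3] at h4
  refine ⟨?_, ?_, ?_⟩
  · have e2' := (eq_of_cross _).2.1 (k2 ⟨0, 0, 0, x, 0, 0⟩ (by rw [cross_e2]; simp [zero_def]))
    have e3' := (eq_of_cross _).2.2 (k3 ⟨0, 0, 0, x, 0, 0⟩ (by rw [cross_e3]; simp [zero_def]))
    exact Alb.ext e2'.1 e3'.2.1 e2'.2.1 rfl e2'.2.2 e3'.2.2
  · have e1' := (eq_of_cross _).1 (k1 ⟨0, 0, 0, 0, x, 0⟩ (by rw [cross_e1]; simp [zero_def]))
    have e3' := (eq_of_cross _).2.2 (k3 ⟨0, 0, 0, 0, x, 0⟩ (by rw [cross_e3]; simp [zero_def]))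
    exact Alb.ext e3'.1 e1'.1 e1'.2.1 e1'.2.2 rfl e3'.2.2
  · have e1' := (eq_of_cross _).1 (k1 ⟨0, 0, 0, 0, 0, x⟩ (by rw [cross_e1]; simp [zero_def]))
    have e2' := (eq_of_cross _).2.1 (k2 ⟨0, 0, 0, 0, 0, x⟩ (by rw [cross_e2]; simp [zero_def]))
    exact Alb.ext e2'.1 e1'.1 e1'.2.1 e1'.2.2 e2'.2.2 rfl

theorem fix_eq (h : ∀ x, cub (φ x) = cub x) (h1 : φ e1 = e1) (h2 : φ e2 = e2) (h3 : φ e3 = e3)
    (x : Alb a b c) : φ x = ⟨x.d1, x.d2, x.d3, (φ ⟨0, 0, 0, x.x1, 0, 0⟩).x1,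
      (φ ⟨0, 0, 0, 0, x.x2, 0⟩).x2, (φ ⟨0, 0, 0, 0, 0, x.x3⟩).x3⟩ := by
  conv_lhs => rw [eq_sum x]
  rw [map_add, map_add, map_add, map_add, map_add, map_smul, map_smul, map_smul, h1, h2, h3,
    (fix_x h h1 h2 h3 _).1, (fix_x h h1 h2 h3 _).2.1, (fix_x h h1 h2 h3 _).2.2]
  apply Alb.ext <;> simp [e1, e2, e3]

/-- The three components. -/
theorem exists_t (h : ∀ x, cub (φ x) = cub x) (h1 : φ e1 = e1) (h2 : φ e2 = e2)
    (h3 : φ e3 = e3) : ∃ (t : Oct a b c ≃ₗ[F] Oct a b c) (t' t'' : Oct a b c → Oct a b c),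
      ∀ x, φ x = ⟨x.d1, x.d2, x.d3, t x.x1, t' x.x2, t'' x.x3⟩ := by
  have h' : ∀ x, cub (φ.symm x) = cub x := fun x => by
    rw [← h, LinearEquiv.apply_symm_apply]
  have h1' : φ.symm e1 = e1 := by rw [LinearEquiv.symm_apply_eq, h1]
  have h2' : φ.symm e2 = e2 := by rw [LinearEquiv.symm_apply_eq, h2]
  have h3' : φ.symm e3 = e3 := by rw [LinearEquiv.symm_apply_eq, h3]
  let t : Oct a b c ≃ₗ[F] Oct a b c :=
    { toFun := fun x => (φ ⟨0, 0, 0, x, 0, 0⟩).x1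
      invFun := fun x => (φ.symm ⟨0, 0, 0, x, 0, 0⟩).x1
      map_add' := fun x y => by
        rw [← x1_add, ← map_add]
        congr 2
        apply Alb.ext <;> simp
      map_smul' := fun r x => by
        rw [RingHom.id_apply, ← x1_smul, ← map_smul]
        congr 2
        apply Alb.ext <;> simp
      left_inv := fun x => by
        change (φ.symm ⟨0, 0, 0, (φ ⟨0, 0, 0, x, 0, 0⟩).x1, 0, 0⟩).x1 = x
        rw [← (fix_x h h1 h2 h3 x).1, LinearEquiv.symm_apply_apply]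
      right_inv := fun x => by
        change (φ ⟨0, 0, 0, (φ.symm ⟨0, 0, 0, x, 0, 0⟩).x1, 0, 0⟩).x1 = x
        rw [← (fix_x h' h1' h2' h3' x).1, LinearEquiv.apply_symm_apply] }
  exact ⟨t, fun y => (φ ⟨0, 0, 0, 0, y, 0⟩).x2, fun z => (φ ⟨0, 0, 0, 0, 0, z⟩).x3,
    fun x => fix_eq h h1 h2 h3 x⟩

/-- The elements that fix the diagonal and two units are automorphisms of the octonions. -/
theorem exists_aut (h : ∀ x, cub (φ x) = cub x) (h1 : φ e1 = e1) (h2 : φ e2 = e2)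
    (h3 : φ e3 = e3) (h4 : φ ⟨0, 0, 0, 1, 0, 0⟩ = ⟨0, 0, 0, 1, 0, 0⟩)
    (h5 : φ ⟨0, 0, 0, 0, 1, 0⟩ = ⟨0, 0, 0, 0, 1, 0⟩) :
    ∃ t : Oct a b c ≃ₗ[F] Oct a b c, (∀ x y, t (x * y) = t x * t y) ∧
      ∀ x, φ x = omapA t x := by
  obtain ⟨t, t', t'', ht⟩ := exists_t h h1 h2 h3
  have et : t 1 = 1 := by
    rw [ht] at h4
    exact congrArg x1 h4
  have et' : t' 1 = 1 := by
    rw [ht] at h5
    exact congrArg x2 h5
  have h0 : t' 0 = 0 ∧ t'' 0 = 0 := by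
    have h6 := ht 0
    rw [map_zero] at h6
    exact ⟨(congrArg x2 h6).symm, (congrArg x3 h6).symm⟩
  have hn : ∀ x, norm (t x) = norm x := by
    intro x
    have h6 := h ⟨1, 0, 0, x, 0, 0⟩
    rw [ht] at h6
    simp only [cub, h0.1, h0.2, mul_zero, bil_zero_left, Oct.norm_zero, one_mul] at h6
    linear_combination -h6
  have hb : ∀ x y, bil (t x) (t y) = bil x y := fun x y => by
    rw [bil, bil, ← map_add, hn, hn, hn]
  have hb1 : ∀ x y : Oct a b c, bil (x * y) 1 = bil x (star y) := fun x y => by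
    rw [bil_mul_left', one_mul]
  have htri : ∀ x y z, bil (t x * t' y * t'' z) 1 = bil (x * y * z) 1 := by
    intro x y z
    have h6 := h ⟨0, 0, 0, x, y, z⟩
    rw [ht] at h6
    simp only [cub] at h6
    linear_combination h6
  have hs : ∀ z, star (t'' z) = t (star z) := by
    intro z
    apply eq_of_bil
    intro w
    obtain ⟨x, rfl⟩ := t.surjective w
    have h6 := htri x 1 z
    rw [et', mul_one, mul_one, hb1, hb1] at h6
    rw [bil_comm, h6, bil_comm _ (t x), hb]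
  have ht' : ∀ y, t' y = t y := by
    intro y
    apply eq_of_bil
    intro w
    obtain ⟨z, rfl⟩ := t.surjective w
    have h6 := htri 1 y (star z)
    rw [et, one_mul, one_mul, hb1, hb1, hs, star_star] at h6
    rw [h6, hb]
  have hst : ∀ x, t (star x) = star (t x) := by
    intro x
    rw [star_eq, star_eq, map_sub, map_smul, et]
    congr 2
    rw [← et, hb, et]
  have ht'' : ∀ z, t'' z = t z := by
    intro z
    rw [← star_star (t'' z), hs, hst, star_star]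
  refine ⟨t, fun x y => ?_, fun x => ?_⟩
  · apply eq_of_bil
    intro w
    obtain ⟨z, rfl⟩ := t.surjective w
    have h6 := htri x y (star z)
    rw [ht', ht'', hb1, hb1, ← hst, star_star] at h6
    rw [h6, hb]
  · rw [ht]
    simp only [omapA, ht', ht'']

end fix

section five

variable {k K : Type} [Field k] [Field K] [Algebra k K] {σ : K ≃ₐ[k] K} {a b c : kˣ}
  [NeZero (2 : k)] [NeZero (2 : K)]

omit [NeZero (2 : k)] in
theorem aut_real {g : Fin 3 → kˣ} {φ : AlbL K a b c ≃ₗ[K] AlbL K a b c} (hφ : φ ∈ GE σ a b c g)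
    {t : OctL K a b c ≃ₗ[K] OctL K a b c} (ht : ∀ x y, t (x * y) = t x * t y)
    (hφt : ∀ x, φ x = omapA t x) (x : OctL K a b c) : t (omap σ x) = omap σ (t x) := by
  apply eq_of_bil
  intro w
  obtain ⟨y, rfl⟩ := t.surjective w
  have h := hφ.2 ⟨0, 0, 0, y, 0, 0⟩ ⟨0, 0, 0, x, 0, 0⟩
  rw [hφt, hφt] at h
  simp only [E6.herm, tf, omapA, wt, amap, map_zero, mul_zero, smul_zero, bil_zero_left,
    add_zero, zero_add, bil_smul_left] at h
  have h0 : ((upG K g 1 : Kˣ) : K) * (upG K g 2 : Kˣ) ≠ 0 :=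
    mul_ne_zero (Units.ne_zero _) (Units.ne_zero _)
  have h1 := mul_left_cancel₀ h0 h
  rw [hom_bil ht, bil_comm, ← h1, bil_comm]

/-- (St5) -/
theorem hit_five (hfix : ∀ t : K, σ t = t → ∃ s : k, algebraMap k K s = t)
    (hdiv : Division (up K a) (up K b) (up K c)) {g : Fin 3 → kˣ}
    {N : Subgroup (AlbL K a b c ≃ₗ[K] AlbL K a b c)}
    (hN : ∀ φ ∈ GE σ a b c g, ∀ n ∈ N, φ * n * φ⁻¹ ∈ N)
    {φ : AlbL K a b c ≃ₗ[K] AlbL K a b c} (hφN : φ ∈ N) (hφ : φ ∈ GE σ a b c g) (hφ1 : φ ≠ 1)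
    (h1 : φ e1 = e1) (h2 : φ e2 = e2) (h3 : φ e3 = e3)
    (h4 : φ ⟨0, 0, 0, 1, 0, 0⟩ = ⟨0, 0, 0, 1, 0, 0⟩)
    (h5 : φ ⟨0, 0, 0, 0, 1, 0⟩ = ⟨0, 0, 0, 0, 1, 0⟩) : Hit σ g N := by
  obtain ⟨t, ht, hφt⟩ := exists_aut hφ.1 h1 h2 h3 h4 h5
  refine hit_of_aut hfix hdiv hN hφN ht (aut_real hφ ht hφt) hφt ?_
  by_contra h
  push Not at h
  apply hφ1
  apply LinearEquiv.ext
  intro x
  rw [hφt]
  simp only [omapA, h]
  rfl

end five

end Vale.Agent.P011.E6
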