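import Vale.Agent.P011.E6.Defs
import Vale.Agent.P011.D4.Oct
import Vale.Agent.P011.D4.Maps

/-!
Identities for the cubic norm of the hermitian matrices of degree three over octonions.
-/

open NumberField Topology

namespace Vale.Agent.P011.E6

open Vale.Agent.P011.MPQ Vale.Agent.P011.D4 Vale.Agent.P011.D4.Oct

namespace Alb

variable {F : Type} [Field F] {a b c : Fˣ}

theorem tri1 (x y z : Oct a b c) : bil (star (y * z)) x = bil (x * y * z) 1 := by
  rw [bil_mul_left' (x * y) z, one_mul, bil_mul_left' x y, ← star_mul, bil_comm]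

theorem tri2 (x y z : Oct a b c) : bil (star (z * x)) y = bil (x * y * z) 1 := by
  rw [bil_mul_left' (x * y) z, one_mul, bil_mul_left x y, ← star_mul, bil_comm]

theorem tri3 (x y z : Oct a b c) : bil (star (x * y)) z = bil (x * y * z) 1 := by
  rw [bil_mul_left' (x * y) z, one_mul, bil_star_left]

theorem tri1' (x y z : Oct a b c) : bil x (star (y * z)) = bil (x * y * z) 1 := by
  rw [bil_comm, tri1]

theorem tri2' (x y z : Oct a b c) : bil y (star (z * x)) = bil (x * y * z) 1 := by
  rw [bil_comm, tri2]

theorem tri3' (x y z : Oct a b c) : bil z (star (x * y)) = bil (x * y * z) 1 := by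
  rw [bil_comm, tri3]

/-! The trace form. -/

theorem tf_comm (x y : Alb a b c) : tf x y = tf y x := by
  rw [tf, tf, bil_comm x.x1, bil_comm x.x2, bil_comm x.x3]
  ring

theorem tf_add_left (x y z : Alb a b c) : tf (x + y) z = tf x z + tf y z := by
  simp only [tf, d1_add, d2_add, d3_add, x1_add, x2_add, x3_add, bil_add_left]
  ring

theorem tf_add_right (x y z : Alb a b c) : tf x (y + z) = tf x y + tf x z := by
  rw [tf_comm, tf_add_left, tf_comm y, tf_comm z]

theorem tf_smul_left (t : F) (x y : Alb a b c) : tf (t • x) y = t * tf x y := by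
  simp only [tf, d1_smul, d2_smul, d3_smul, x1_smul, x2_smul, x3_smul, bil_smul_left]
  ring

theorem tf_smul_right (t : F) (x y : Alb a b c) : tf x (t • y) = t * tf x y := by
  rw [tf_comm, tf_smul_left, tf_comm y]

theorem tf_neg_left (x y : Alb a b c) : tf (-x) y = -tf x y := by
  simp only [tf, d1_neg, d2_neg, d3_neg, x1_neg, x2_neg, x3_neg, bil_neg_left]
  ring

theorem tf_neg_right (x y : Alb a b c) : tf x (-y) = -tf x y := by
  rw [tf_comm, tf_neg_left, tf_comm y]

theorem tf_sub_left (x y z : Alb a b c) : tf (x - y) z = tf x z - tf y z := by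
  rw [sub_eq_add_neg, tf_add_left, tf_neg_left, sub_eq_add_neg]

theorem tf_sub_right (x y z : Alb a b c) : tf x (y - z) = tf x y - tf x z := by
  rw [tf_comm, tf_sub_left, tf_comm y, tf_comm z]

@[simp] theorem tf_zero_left (y : Alb a b c) : tf 0 y = 0 := by
  simp [tf]

@[simp] theorem tf_zero_right (y : Alb a b c) : tf y 0 = 0 := by
  simp [tf]

/-! The cross product. -/

theorem cross_comm (x y : Alb a b c) : cross x y = cross y x := by
  ext1
  · simp only [cross, bil_comm x.x1]
    ring
  · simp only [cross, bil_comm x.x2]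
    ring
  · simp only [cross, bil_comm x.x3]
    ring
  · simp only [cross, add_comm]
  · simp only [cross, add_comm]
  · simp only [cross, add_comm]

theorem adj_add (x y : Alb a b c) : adj (x + y) = adj x + cross x y + adj y := by
  ext1
  · simp only [adj, cross, d1_add, d2_add, d3_add, x1_add, norm_add]
    ring
  · simp only [adj, cross, d1_add, d2_add, d3_add, x2_add, norm_add]
    ring
  · simp only [adj, cross, d1_add, d2_add, d3_add, x3_add, norm_add]
    ring
  · simp only [adj, cross, d1_add, x1_add, x2_add, x3_add, mul_add, add_mul, star_add, add_smul,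
      smul_add]
    abel
  · simp only [adj, cross, d2_add, x1_add, x2_add, x3_add, mul_add, add_mul, star_add, add_smul,
      smul_add]
    abel
  · simp only [adj, cross, d3_add, x1_add, x2_add, x3_add, mul_add, add_mul, star_add, add_smul,
      smul_add]
    abel

theorem adj_smul (t : F) (x : Alb a b c) : adj (t • x) = t ^ 2 • adj x := by
  ext1
  · simp only [adj, d1_smul, d2_smul, d3_smul, x1_smul, Oct.norm_smul]
    ring
  · simp only [adj, d1_smul, d2_smul, d3_smul, x2_smul, Oct.norm_smul]
    ring
  · simp only [adj, d1_smul, d2_smul, d3_smul, x3_smul, Oct.norm_smul]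
    ring
  · simp only [adj, d1_smul, x1_smul, x2_smul, x3_smul, mul_smul_oct, smul_mul_oct, star_smul_oct]
    module
  · simp only [adj, d2_smul, x1_smul, x2_smul, x3_smul, mul_smul_oct, smul_mul_oct, star_smul_oct]
    module
  · simp only [adj, d3_smul, x1_smul, x2_smul, x3_smul, mul_smul_oct, smul_mul_oct, star_smul_oct]
    module

@[simp] theorem adj_zero : adj (0 : Alb a b c) = 0 := by
  have := adj_smul (0 : F) (0 : Alb a b c)
  rwa [zero_smul, zero_pow two_ne_zero, zero_smul] at this

@[simp] theorem adj_neg (x : Alb a b c) : adj (-x) = adj x := by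
  have := adj_smul (-1 : F) x
  rwa [neg_one_smul, neg_one_sq, one_smul] at this

theorem cross_self (x : Alb a b c) : cross x x = (2 : F) • adj x := by
  have h := adj_add x x
  rw [← two_smul F x, adj_smul] at h
  have h1 : cross x x = ((2 : F) ^ 2) • adj x - adj x - adj x := by
    rw [h]
    abel
  rw [h1]
  module

theorem cross_add_left (x y z : Alb a b c) : cross (x + y) z = cross x z + cross y z := by
  ext1
  · simp only [cross, d1_add, d2_add, d3_add, x1_add, bil_add_left]
    ring
  · simp only [cross, d1_add, d2_add, d3_add, x2_add, bil_add_left]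
    ring
  · simp only [cross, d1_add, d2_add, d3_add, x3_add, bil_add_left]
    ring
  · simp only [cross, d1_add, x1_add, x2_add, x3_add, mul_add, add_mul, star_add, add_smul,
      smul_add]
    abel
  · simp only [cross, d2_add, x1_add, x2_add, x3_add, mul_add, add_mul, star_add, add_smul,
      smul_add]
    abel
  · simp only [cross, d3_add, x1_add, x2_add, x3_add, mul_add, add_mul, star_add, add_smul,
      smul_add]
    abel

theorem cross_add_right (x y z : Alb a b c) : cross x (y + z) = cross x y + cross x z := by
  rw [cross_comm, cross_add_left, cross_comm y, cross_comm z]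

theorem cross_smul_left (t : F) (x z : Alb a b c) : cross (t • x) z = t • cross x z := by
  ext1
  · simp only [cross, d1_smul, d2_smul, d3_smul, x1_smul, bil_smul_left]
    ring
  · simp only [cross, d1_smul, d2_smul, d3_smul, x2_smul, bil_smul_left]
    ring
  · simp only [cross, d1_smul, d2_smul, d3_smul, x3_smul, bil_smul_left]
    ring
  · simp only [cross, d1_smul, x1_smul, x2_smul, x3_smul, mul_smul_oct, smul_mul_oct,
      star_smul_oct, star_add]
    module
  · simp only [cross, d2_smul, x1_smul, x2_smul, x3_smul, mul_smul_oct, smul_mul_oct,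
      star_smul_oct, star_add]
    module
  · simp only [cross, d3_smul, x1_smul, x2_smul, x3_smul, mul_smul_oct, smul_mul_oct,
      star_smul_oct, star_add]
    module

theorem cross_smul_right (t : F) (x z : Alb a b c) : cross x (t • z) = t • cross x z := by
  rw [cross_comm, cross_smul_left, cross_comm z]

theorem cross_neg_left (x z : Alb a b c) : cross (-x) z = -cross x z := by
  have := cross_smul_left (-1 : F) x z
  rwa [neg_one_smul, neg_one_smul] at this

theorem cross_neg_right (x z : Alb a b c) : cross x (-z) = -cross x z := by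
  rw [cross_comm, cross_neg_left, cross_comm z]

theorem cross_sub_left (x y z : Alb a b c) : cross (x - y) z = cross x z - cross y z := by
  rw [sub_eq_add_neg, cross_add_left, cross_neg_left, sub_eq_add_neg]

theorem cross_sub_right (x y z : Alb a b c) : cross x (y - z) = cross x y - cross x z := by
  rw [cross_comm, cross_sub_left, cross_comm y, cross_comm z]

@[simp] theorem cross_zero_left (z : Alb a b c) : cross 0 z = 0 := by
  have := cross_smul_left (0 : F) 0 z
  rwa [zero_smul, zero_smul] at this

@[simp] theorem cross_zero_right (z : Alb a b c) : cross z 0 = 0 := by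
  rw [cross_comm, cross_zero_left]

/-- The trilinear form is symmetric. -/
theorem tf_cross (x y z : Alb a b c) : tf (cross x y) z = tf x (cross y z) := by
  simp only [tf, cross, star_add, bil_sub_left, bil_sub_right, bil_add_left, bil_add_right,
    bil_smul_left, bil_smul_right]
  rw [tri1, tri1, tri2, tri2, tri3, tri3, tri1', tri1', tri2', tri2', tri3', tri3']
  ring

theorem tf_cross_comm (x y z : Alb a b c) : tf (cross x y) z = tf (cross x z) y := by
  rw [cross_comm, tf_cross, tf_comm]

/-! The cubic norm. -/

theorem cub_smul (t : F) (x : Alb a b c) : cub (t • x) = t ^ 3 * cub x := by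
  simp only [cub, d1_smul, d2_smul, d3_smul, x1_smul, x2_smul, x3_smul, Oct.norm_smul, smul_mul_oct,
    mul_smul_oct, bil_smul_left]
  ring

@[simp] theorem cub_zero : cub (0 : Alb a b c) = 0 := by
  have := cub_smul (0 : F) (0 : Alb a b c)
  rwa [zero_smul, zero_pow three_ne_zero, zero_mul] at this

@[simp] theorem cub_neg (x : Alb a b c) : cub (-x) = -cub x := by
  have := cub_smul (-1 : F) x
  rw [neg_one_smul] at this
  rw [this]
  ring

theorem cub_add (x y : Alb a b c) :
    cub (x + y) = cub x + tf (adj x) y + tf x (adj y) + cub y := by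
  simp only [cub, tf, adj, d1_add, d2_add, d3_add, x1_add, x2_add, x3_add, norm_add,
    bil_sub_left, bil_sub_right, bil_smul_left, bil_smul_right, add_mul, mul_add, bil_add_left]
  rw [tri1, tri2, tri3, tri1', tri2', tri3']
  ring

theorem tf_adj_self (x : Alb a b c) : tf (adj x) x = 3 * cub x := by
  simp only [cub, tf, adj, bil_sub_left, bil_smul_left, bil_self]
  rw [tri1, tri2, tri3]
  ring

section nondeg

variable [NeZero (2 : F)]

omit [NeZero (2 : F)] in
theorem adj_adj_d (x : Alb a b c) : (adj (adj x)).d1 = cub x * x.d1 ∧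
    (adj (adj x)).d2 = cub x * x.d2 ∧ (adj (adj x)).d3 = cub x * x.d3 := by
  refine ⟨?_, ?_, ?_⟩
  · simp only [adj, norm_sub, Oct.norm_star, Oct.norm_mul, Oct.norm_smul, bil_smul_right]
    rw [tri1, cub]
    ring
  · simp only [adj, norm_sub, Oct.norm_star, Oct.norm_mul, Oct.norm_smul, bil_smul_right]
    rw [tri2, cub]
    ring
  · simp only [adj, norm_sub, Oct.norm_star, Oct.norm_mul, Oct.norm_smul, bil_smul_right]
    rw [tri3, cub]
    ring

/-- One off-diagonal entry of the double adjoint. -/
theorem adj_adj_aux (r s t : F) (x y z : Oct a b c) :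
    star ((star (z * x) - s • y) * (star (x * y) - t • z)) -
      (s * t - norm x) • (star (y * z) - r • x) =
    (r * s * t - r * norm x - s * norm y - t * norm z + bil (x * y * z) 1) • x := by
  rw [star_mul, star_sub, star_sub, star_star, star_star, star_smul_oct, star_smul_oct]
  have h1 : (x * y - t • star z) * (z * x - s • star y) =
      (x * y) * (z * x) - s • ((x * y) * star y) - t • (star z * (z * x)) +
        (s * t) • (star z * star y) := by
    rw [mul_sub, sub_mul, sub_mul, mul_smul_oct, smul_mul_oct, mul_smul_oct, smul_mul_oct]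
    module
  rw [h1, mul_mul_star, star_mul_mul, moufang, flex, mul_mul_eq, ← star_mul, tri1']
  module

/-- The adjoint identity. -/
theorem adj_adj (x : Alb a b c) : adj (adj x) = cub x • x := by
  obtain ⟨h1, h2, h3⟩ := adj_adj_d x
  ext1
  · exact h1
  · exact h2
  · exact h3
  · exact adj_adj_aux x.d1 x.d2 x.d3 x.x1 x.x2 x.x3
  · refine (adj_adj_aux x.d2 x.d3 x.d1 x.x2 x.x3 x.x1).trans ?_
    rw [← tri3, tri1, x2_smul, cub]
    congr 1
    ring
  · refine (adj_adj_aux x.d3 x.d1 x.d2 x.x3 x.x1 x.x2).trans ?_
    rw [← tri2, tri1, x3_smul, cub]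
    congr 1
    ring

/-- The cubic norm of the adjoint. -/
theorem cub_adj (x : Alb a b c) : cub (adj x) = cub x ^ 2 := by
  have h1 : (cub (adj x) - cub x ^ 2) • adj x = 0 := by
    rw [sub_smul, ← adj_adj (adj x), adj_adj x, adj_smul, sub_self]
  rcases smul_eq_zero.1 h1 with h | h
  · exact sub_eq_zero.1 h
  · have h2 := adj_adj x
    rw [h, adj_zero] at h2
    rcases smul_eq_zero.1 h2.symm with h3 | h3
    · rw [h, h3, cub_zero]
      ring
    · rw [h, h3, cub_zero]
      ring

/-- A polarisation of the adjoint identity. -/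
theorem adj_cross (x y : Alb a b c) :
    adj (cross x y) + cross (adj x) (adj y) = tf (adj x) y • y + tf x (adj y) • x := by
  have key : ∀ t : F, t • (cross (adj x) (cross x y) - (cub x • y + tf (adj x) y • x)) +
      t ^ 2 • (adj (cross x y) + cross (adj x) (adj y) -
        (tf (adj x) y • y + tf x (adj y) • x)) +
      t ^ 3 • (cross (cross x y) (adj y) - (cub y • x + tf x (adj y) • y)) = 0 := by
    intro t
    have h := adj_adj (x + t • y)
    rw [adj_add, adj_smul, cross_smul_right, cub_add, adj_smul, cub_smul, tf_smul_right,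
      tf_smul_right, adj_add, adj_add, adj_smul, adj_smul, cross_smul_right, cross_smul_right,
      cross_add_left, cross_smul_left, adj_adj, adj_adj] at h
    rw [← sub_eq_zero] at h
    rw [← h]
    module
  have h1 := key 1
  have h2 := key (-1)
  have h3 : (2 : F) • (adj (cross x y) + cross (adj x) (adj y) -
        (tf (adj x) y • y + tf x (adj y) • x)) = 0 := by
    rw [← add_zero (0 : Alb a b c)]
    nth_rewrite 1 [← h1]
    rw [← h2]
    module
  rcases smul_eq_zero.1 h3 with h4 | h4
  · exact absurd h4 (NeZero.ne _)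
  · exact sub_eq_zero.1 h4

/-- A polarisation of the adjoint identity. -/
theorem cross_adj_cross [NeZero (3 : F)] (x y : Alb a b c) :
    cross (adj x) (cross x y) = cub x • y + tf (adj x) y • x := by
  have key : ∀ t : F, t • (cross (adj x) (cross x y) - (cub x • y + tf (adj x) y • x)) +
      t ^ 2 • (adj (cross x y) + cross (adj x) (adj y) -
        (tf (adj x) y • y + tf x (adj y) • x)) +
      t ^ 3 • (cross (cross x y) (adj y) - (cub y • x + tf x (adj y) • y)) = 0 := by
    intro t
    have h := adj_adj (x + t • y)
    rw [adj_add, adj_smul, cross_smul_right, cub_add, adj_smul, cub_smul, tf_smul_right,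
      tf_smul_right, adj_add, adj_add, adj_smul, adj_smul, cross_smul_right, cross_smul_right,
      cross_add_left, cross_smul_left, adj_adj, adj_adj] at h
    rw [← sub_eq_zero] at h
    rw [← h]
    module
  have h1 := key 1
  have h2 := key 2
  rw [adj_cross, sub_self, smul_zero, add_zero] at h1 h2
  have h3 : (6 : F) • (cross (adj x) (cross x y) - (cub x • y + tf (adj x) y • x)) = 0 := by
    have h4 : (8 : F) • (0 : Alb a b c) - 0 = 0 := by rw [smul_zero, sub_zero]
    rw [← h4]
    nth_rewrite 1 [← h1]
    rw [← h2]
    module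
  have h6 : (6 : F) ≠ 0 := by
    have : (6 : F) = 2 * 3 := by norm_num
    rw [this]
    exact mul_ne_zero (NeZero.ne _) (NeZero.ne _)
  rcases smul_eq_zero.1 h3 with h4 | h4
  · exact absurd h4 h6
  · exact sub_eq_zero.1 h4

/-- The trace form is nondegenerate. -/
theorem eq_zero_of_tf {x : Alb a b c} (h : ∀ y, tf x y = 0) : x = 0 := by
  ext1
  · simpa [tf] using h ⟨1, 0, 0, 0, 0, 0⟩
  · simpa [tf] using h ⟨0, 1, 0, 0, 0, 0⟩
  · simpa [tf] using h ⟨0, 0, 1, 0, 0, 0⟩
  · exact eq_zero_of_bil fun z => by simpa [tf] using h ⟨0, 0, 0, z, 0, 0⟩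
  · exact eq_zero_of_bil fun z => by simpa [tf] using h ⟨0, 0, 0, 0, z, 0⟩
  · exact eq_zero_of_bil fun z => by simpa [tf] using h ⟨0, 0, 0, 0, 0, z⟩

theorem eq_of_tf {x y : Alb a b c} (h : ∀ z, tf x z = tf y z) : x = y :=
  sub_eq_zero.1 (eq_zero_of_tf fun z => by rw [tf_sub_left, h, sub_self])

end nondeg

end Alb

end Vale.Agent.P011.E6
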