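import Vale.Agent.P011.E6.Ids
import Vale.Agent.P011.E6.Cay

/-!
The cubic norm structure attached to the weights, change of coefficients, and the behaviour of the
adjoint under the elements of the group.
-/

open NumberField Topology

namespace Vale.Agent.P011.E6

open Vale.Agent.P011.MPQ Vale.Agent.P011.D4 Vale.Agent.P011.D4.Oct

namespace Alb

section wt

variable {F : Type} [Field F] {a b c : Fˣ} (g : Fin 3 → Fˣ)

/-- The product of the weights. -/
def gam (g : Fin 3 → Fˣ) : F := (g 0 : F) * g 1 * g 2

theorem gam_ne : gam g ≠ 0 :=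
  mul_ne_zero (mul_ne_zero (g 0).ne_zero (g 1).ne_zero) (g 2).ne_zero

theorem gam_inv : gam g⁻¹ = (gam g)⁻¹ := by
  simp only [gam, Pi.inv_apply, Units.val_inv_eq_inv_val, mul_inv]

theorem wt_add (x y : Alb a b c) : wt g (x + y) = wt g x + wt g y := by
  ext1
  · simp only [wt, d1_add, mul_add]
  · simp only [wt, d2_add, mul_add]
  · simp only [wt, d3_add, mul_add]
  · simp only [wt, x1_add, smul_add]
  · simp only [wt, x2_add, smul_add]
  · simp only [wt, x3_add, smul_add]

theorem wt_smul (t : F) (x : Alb a b c) : wt g (t • x) = t • wt g x := by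
  ext1
  · simp only [wt, d1_smul]
    ring
  · simp only [wt, d2_smul]
    ring
  · simp only [wt, d3_smul]
    ring
  · simp only [wt, x1_smul, smul_smul]
    congr 1
    ring
  · simp only [wt, x2_smul, smul_smul]
    congr 1
    ring
  · simp only [wt, x3_smul, smul_smul]
    congr 1
    ring

@[simp] theorem wt_zero : wt g (0 : Alb a b c) = 0 := by
  have := wt_smul g (0 : F) (0 : Alb a b c)
  rwa [zero_smul, zero_smul] at this

theorem wt_neg (x : Alb a b c) : wt g (-x) = -wt g x := by
  have := wt_smul g (-1 : F) x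
  rwa [neg_one_smul, neg_one_smul] at this

theorem wt_sub (x y : Alb a b c) : wt g (x - y) = wt g x - wt g y := by
  rw [sub_eq_add_neg, wt_add, wt_neg, sub_eq_add_neg]

theorem wt_inv_wt (x : Alb a b c) : wt g⁻¹ (wt g x) = x := by
  have h0 := (g 0).ne_zero
  have h1 := (g 1).ne_zero
  have h2 := (g 2).ne_zero
  ext1
  · simp only [wt, Pi.inv_apply, Units.val_inv_eq_inv_val]
    field_simp
  · simp only [wt, Pi.inv_apply, Units.val_inv_eq_inv_val]
    field_simp
  · simp only [wt, Pi.inv_apply, Units.val_inv_eq_inv_val]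
    field_simp
  · simp only [wt, Pi.inv_apply, Units.val_inv_eq_inv_val, smul_smul]
    conv_rhs => rw [← one_smul F x.x1]
    congr 1
    field_simp
  · simp only [wt, Pi.inv_apply, Units.val_inv_eq_inv_val, smul_smul]
    conv_rhs => rw [← one_smul F x.x2]
    congr 1
    field_simp
  · simp only [wt, Pi.inv_apply, Units.val_inv_eq_inv_val, smul_smul]
    conv_rhs => rw [← one_smul F x.x3]
    congr 1
    field_simp

theorem wt_wt_inv (x : Alb a b c) : wt g (wt g⁻¹ x) = x := by
  have := wt_inv_wt g⁻¹ x
  rwa [inv_inv] at this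

theorem wt_injective : Function.Injective (wt g : Alb a b c → Alb a b c) :=
  Function.LeftInverse.injective (wt_inv_wt g)

/-- The diagonal operator, as a linear equivalence. -/
def wtE : Alb a b c ≃ₗ[F] Alb a b c where
  toFun := wt g
  invFun := wt g⁻¹
  left_inv := wt_inv_wt g
  right_inv := wt_wt_inv g
  map_add' := wt_add g
  map_smul' := wt_smul g

@[simp] theorem wtE_apply (x : Alb a b c) : wtE g x = wt g x := rfl

theorem tf_wt (x y : Alb a b c) : tf (wt g x) y = tf x (wt g y) := by
  simp only [tf, wt, bil_smul_left, bil_smul_right]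
  ring

theorem cub_wt (x : Alb a b c) : cub (wt g x) = gam g ^ 2 * cub x := by
  simp only [cub, wt, gam, Oct.norm_smul, mul_smul_oct, smul_mul_oct, bil_smul_left]
  ring

theorem adj_wt (x : Alb a b c) : adj (wt g x) = gam g ^ 2 • wt g⁻¹ (adj x) := by
  have h0 := (g 0).ne_zero
  have h1 := (g 1).ne_zero
  have h2 := (g 2).ne_zero
  ext1
  · simp only [adj, wt, gam, d1_smul, Oct.norm_smul, Pi.inv_apply, Units.val_inv_eq_inv_val]
    field_simp
  · simp only [adj, wt, gam, d2_smul, Oct.norm_smul, Pi.inv_apply, Units.val_inv_eq_inv_val]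
    field_simp
  · simp only [adj, wt, gam, d3_smul, Oct.norm_smul, Pi.inv_apply, Units.val_inv_eq_inv_val]
    field_simp
  · simp only [adj, wt, gam, x1_smul, Pi.inv_apply, Units.val_inv_eq_inv_val, mul_smul_oct,
      smul_mul_oct, star_smul_oct, smul_smul, smul_sub]
    congr 1
    · congr 1
      field_simp
    · congr 1
      field_simp
  · simp only [adj, wt, gam, x2_smul, Pi.inv_apply, Units.val_inv_eq_inv_val, mul_smul_oct,
      smul_mul_oct, star_smul_oct, smul_smul, smul_sub]
    congr 1
    · congr 1
      field_simp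
    · congr 1
      field_simp
  · simp only [adj, wt, gam, x3_smul, Pi.inv_apply, Units.val_inv_eq_inv_val, mul_smul_oct,
      smul_mul_oct, star_smul_oct, smul_smul, smul_sub]
    congr 1
    · congr 1
      field_simp
    · congr 1
      field_simp

/-! The cubic norm structure attached to the weights. -/

/-- The trace. -/
def tG (x : Alb a b c) : F := (g 0 : F) * x.d1 + g 1 * x.d2 + g 2 * x.d3

/-- The cubic norm, normalised. -/
def NG (x : Alb a b c) : F := gam g * cub x

/-- The adjoint, normalised. -/
def shG (x : Alb a b c) : Alb a b c := gam g • wt g⁻¹ (adj x)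

@[simp] theorem d1_one : (one a b c g).d1 = (g 0 : F)⁻¹ := Units.val_inv_eq_inv_val _
@[simp] theorem d2_one : (one a b c g).d2 = (g 1 : F)⁻¹ := Units.val_inv_eq_inv_val _
@[simp] theorem d3_one : (one a b c g).d3 = (g 2 : F)⁻¹ := Units.val_inv_eq_inv_val _
@[simp] theorem x1_one : (one a b c g).x1 = 0 := rfl
@[simp] theorem x2_one : (one a b c g).x2 = 0 := rfl
@[simp] theorem x3_one : (one a b c g).x3 = 0 := rfl

theorem adj_one : adj (one a b c g) = (gam g)⁻¹ • wt g (one a b c g) := by
  have h0 := (g 0).ne_zero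
  have h1 := (g 1).ne_zero
  have h2 := (g 2).ne_zero
  ext1
  · simp only [adj, wt, gam, d1_smul, d1_one, d2_one, d3_one, x1_one, Oct.norm_zero]
    field_simp
    ring
  · simp only [adj, wt, gam, d2_smul, d1_one, d2_one, d3_one, x2_one, Oct.norm_zero]
    field_simp
    ring
  · simp only [adj, wt, gam, d3_smul, d1_one, d2_one, d3_one, x3_one, Oct.norm_zero]
    field_simp
    ring
  · simp [adj, wt]
  · simp [adj, wt]
  · simp [adj, wt]

theorem cub_one : cub (one a b c g) = (gam g)⁻¹ := by
  have h0 := (g 0).ne_zero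
  have h1 := (g 1).ne_zero
  have h2 := (g 2).ne_zero
  simp only [cub, gam, d1_one, d2_one, d3_one, x1_one, x2_one, x3_one, Oct.norm_zero, mul_zero,
    bil_zero_left]
  field_simp
  ring

theorem tf_wt_one (x : Alb a b c) : tf (wt g (one a b c g)) x = tG g x := by
  have h0 := (g 0).ne_zero
  have h1 := (g 1).ne_zero
  have h2 := (g 2).ne_zero
  simp only [tf, wt, tG, d1_one, d2_one, d3_one, x1_one, x2_one, x3_one, smul_zero, bil_zero_left,
    add_zero]
  field_simp

theorem NG_one : NG g (one a b c g) = 1 := by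
  rw [NG, cub_one, mul_inv_cancel₀ (gam_ne g)]

theorem tG_one : tG g (one a b c g) = 3 := by
  have h0 := (g 0).ne_zero
  have h1 := (g 1).ne_zero
  have h2 := (g 2).ne_zero
  simp only [tG, d1_one, d2_one, d3_one]
  field_simp
  norm_num

theorem tG_add (x y : Alb a b c) : tG g (x + y) = tG g x + tG g y := by
  simp only [tG, d1_add, d2_add, d3_add]
  ring

theorem tG_smul (t : F) (x : Alb a b c) : tG g (t • x) = t * tG g x := by
  simp only [tG, d1_smul, d2_smul, d3_smul]
  ring

theorem NG_smul (t : F) (x : Alb a b c) : NG g (t • x) = t ^ 3 * NG g x := by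
  rw [NG, NG, cub_smul]
  ring

theorem shG_smul (t : F) (x : Alb a b c) : shG g (t • x) = t ^ 2 • shG g x := by
  rw [shG, shG, adj_smul, wt_smul, smul_comm]

theorem cross_one (x : Alb a b c) :
    gam g • wt g⁻¹ (cross (one a b c g) x) = tG g x • one a b c g - x := by
  have h0 := (g 0).ne_zero
  have h1 := (g 1).ne_zero
  have h2 := (g 2).ne_zero
  ext1
  · simp only [cross, wt, gam, tG, d1_smul, d1_sub, d1_one, d2_one, d3_one, x1_one,
      bil_zero_left, Pi.inv_apply, Units.val_inv_eq_inv_val]
    field_simp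
    ring
  · simp only [cross, wt, gam, tG, d2_smul, d2_sub, d1_one, d2_one, d3_one, x2_one,
      bil_zero_left, Pi.inv_apply, Units.val_inv_eq_inv_val]
    field_simp
    ring
  · simp only [cross, wt, gam, tG, d3_smul, d3_sub, d1_one, d2_one, d3_one, x3_one,
      bil_zero_left, Pi.inv_apply, Units.val_inv_eq_inv_val]
    field_simp
    ring
  · simp only [cross, wt, gam, tG, x1_smul, x1_sub, d1_one, d2_one, d3_one, x1_one, x2_one,
      x3_one, zero_mul, mul_zero, add_zero, star_zero, smul_zero, zero_sub, smul_neg, smul_smul,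
      Pi.inv_apply, Units.val_inv_eq_inv_val]
    congr 1
    conv_rhs => rw [← one_smul F x.x1]
    congr 1
    field_simp
  · simp only [cross, wt, gam, tG, x2_smul, x2_sub, d1_one, d2_one, d3_one, x1_one, x2_one,
      x3_one, zero_mul, mul_zero, add_zero, star_zero, smul_zero, zero_sub, smul_neg, smul_smul,
      Pi.inv_apply, Units.val_inv_eq_inv_val]
    congr 1
    conv_rhs => rw [← one_smul F x.x2]
    congr 1
    field_simp
  · simp only [cross, wt, gam, tG, x3_smul, x3_sub, d1_one, d2_one, d3_one, x1_one, x2_one,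
      x3_one, zero_mul, mul_zero, add_zero, star_zero, smul_zero, zero_sub, smul_neg, smul_smul,
      Pi.inv_apply, Units.val_inv_eq_inv_val]
    congr 1
    conv_rhs => rw [← one_smul F x.x3]
    congr 1
    field_simp

theorem shG_one : shG g (one a b c g) = one a b c g := by
  rw [shG, adj_one, wt_smul, wt_inv_wt, smul_smul, mul_inv_cancel₀ (gam_ne g), one_smul]

theorem shG_one_add (x : Alb a b c) :
    shG g (one a b c g + x) = one a b c g + (tG g x • one a b c g - x) + shG g x := by
  rw [shG, adj_add, wt_add, wt_add, smul_add, smul_add, cross_one]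
  congr 2
  exact shG_one g

theorem NG_one_add (x : Alb a b c) :
    NG g (one a b c g + x) = 1 + tG g x + tG g (shG g x) + NG g x := by
  rw [NG, cub_add, mul_add, mul_add, mul_add]
  congr 1
  congr 1
  · congr 1
    · exact NG_one g
    · rw [adj_one, tf_smul_left, tf_wt_one, ← mul_assoc, mul_inv_cancel₀ (gam_ne g), one_mul]
  · rw [← tf_wt_one, shG, tf_smul_right, tf_wt, wt_wt_inv]

theorem tf_wt_shG (x y : Alb a b c) : tf (wt g (shG g x)) y = gam g * tf (adj x) y := by
  rw [shG, wt_smul, wt_wt_inv, tf_smul_left]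

section nondeg

variable [NeZero (2 : F)]

theorem shG_shG (x : Alb a b c) : shG g (shG g x) = NG g x • x := by
  have h := gam_ne g
  rw [shG, shG, adj_smul, adj_wt, inv_inv, gam_inv, adj_adj, wt_smul, wt_smul, wt_inv_wt,
    smul_smul, smul_smul, smul_smul, NG]
  congr 1
  field_simp

theorem NG_shG (x : Alb a b c) : NG g (shG g x) = NG g x ^ 2 := by
  have h := gam_ne g
  rw [NG, shG, cub_smul, cub_wt, gam_inv, cub_adj, NG]
  field_simp

end nondeg

end wt

section coef

variable {k K : Type} [Field k] [Field K] [Algebra k K] (σ : K ≃ₐ[k] K) {a b c : kˣ}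

theorem norm_om (x : OctL K a b c) : norm (omap σ x) = σ (norm x) := by
  simp [Oct.norm, omap, nrd_qmap]

theorem bil_om (x y : OctL K a b c) : bil (omap σ x) (omap σ y) = σ (bil x y) := by
  rw [bil, bil, ← omap_add, norm_om, norm_om, norm_om, map_sub, map_sub]

theorem bil_up (x y : Oct a b c) : bil (oup K x) (oup K y) = algebraMap k K (bil x y) := by
  rw [bil, bil, ← oup_add, norm_oup, norm_oup, norm_oup, map_sub, map_sub]

theorem amap_add (x y : AlbL K a b c) : amap σ (x + y) = amap σ x + amap σ y := by
  ext1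
  · exact map_add σ _ _
  · exact map_add σ _ _
  · exact map_add σ _ _
  · exact omap_add σ _ _
  · exact omap_add σ _ _
  · exact omap_add σ _ _

theorem amap_smul (t : K) (x : AlbL K a b c) : amap σ (t • x) = σ t • amap σ x := by
  ext1
  · exact map_mul σ _ _
  · exact map_mul σ _ _
  · exact map_mul σ _ _
  · exact omap_smul σ _ _
  · exact omap_smul σ _ _
  · exact omap_smul σ _ _

@[simp] theorem amap_zero : amap σ (0 : AlbL K a b c) = 0 := by
  have := amap_smul σ (0 : K) (0 : AlbL K a b c)
  rwa [zero_smul, map_zero, zero_smul] at this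

theorem amap_neg (x : AlbL K a b c) : amap σ (-x) = -amap σ x := by
  have := amap_smul σ (-1 : K) x
  rwa [neg_one_smul, map_neg, map_one, neg_one_smul] at this

theorem amap_sub (x y : AlbL K a b c) : amap σ (x - y) = amap σ x - amap σ y := by
  rw [sub_eq_add_neg, amap_add, amap_neg, sub_eq_add_neg]

theorem qmap_qmap (hσ : ∀ t, σ (σ t) = t) (x : Qt (up K a) (up K b)) :
    qmap σ (qmap σ x) = x := by
  apply QuaternionAlgebra.ext
  · exact hσ _
  · exact hσ _
  · exact hσ _
  · exact hσ _

theorem omap_omap (hσ : ∀ t, σ (σ t) = t) (x : OctL K a b c) : omap σ (omap σ x) = x := by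
  ext1
  · exact qmap_qmap σ hσ _
  · exact qmap_qmap σ hσ _

theorem amap_amap (hσ : ∀ t, σ (σ t) = t) (x : AlbL K a b c) : amap σ (amap σ x) = x := by
  ext1
  · exact hσ _
  · exact hσ _
  · exact hσ _
  · exact omap_omap σ hσ _
  · exact omap_omap σ hσ _
  · exact omap_omap σ hσ _

theorem amap_injective : Function.Injective (amap σ : AlbL K a b c → AlbL K a b c) := by
  have hq : ∀ {a b : kˣ} {x y : Qt (up K a) (up K b)}, qmap σ x = qmap σ y → x = y := by
    intro a b x y h
    apply QuaternionAlgebra.ext
    · exact σ.injective (congrArg QuaternionAlgebra.re h)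
    · exact σ.injective (congrArg QuaternionAlgebra.imI h)
    · exact σ.injective (congrArg QuaternionAlgebra.imJ h)
    · exact σ.injective (congrArg QuaternionAlgebra.imK h)
  have ho : ∀ {x y : OctL K a b c}, omap σ x = omap σ y → x = y := by
    intro x y h
    ext1
    · exact hq (congrArg Oct.fst h)
    · exact hq (congrArg Oct.snd h)
  intro x y h
  ext1
  · exact σ.injective (congrArg Alb.d1 h)
  · exact σ.injective (congrArg Alb.d2 h)
  · exact σ.injective (congrArg Alb.d3 h)
  · exact ho (congrArg Alb.x1 h)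
  · exact ho (congrArg Alb.x2 h)
  · exact ho (congrArg Alb.x3 h)

theorem cub_amap (x : AlbL K a b c) : cub (amap σ x) = σ (cub x) := by
  have h1 : (1 : OctL K a b c) = omap σ 1 := (omap_one σ).symm
  simp only [cub, amap]
  rw [h1, ← omap_mul, ← omap_mul, bil_om, norm_om, norm_om, norm_om]
  simp only [map_add, map_sub, map_mul, omap_one]

theorem adj_amap (x : AlbL K a b c) : adj (amap σ x) = amap σ (adj x) := by
  ext1
  · simp only [adj, amap, norm_om, map_sub, map_mul]
  · simp only [adj, amap, norm_om, map_sub, map_mul]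
  · simp only [adj, amap, norm_om, map_sub, map_mul]
  · simp only [adj, amap, omap_sub, omap_smul, omap_star, omap_mul]
  · simp only [adj, amap, omap_sub, omap_smul, omap_star, omap_mul]
  · simp only [adj, amap, omap_sub, omap_smul, omap_star, omap_mul]

theorem tf_amap (x y : AlbL K a b c) : tf (amap σ x) (amap σ y) = σ (tf x y) := by
  simp only [tf, amap, bil_om, map_add, map_mul]

theorem cross_amap (x y : AlbL K a b c) :
    cross (amap σ x) (amap σ y) = amap σ (cross x y) := by
  ext1
  · simp only [cross, amap, bil_om, map_add, map_sub, map_mul]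
  · simp only [cross, amap, bil_om, map_add, map_sub, map_mul]
  · simp only [cross, amap, bil_om, map_add, map_sub, map_mul]
  · simp only [cross, amap, omap_add, omap_sub, omap_smul, omap_star, omap_mul]
  · simp only [cross, amap, omap_add, omap_sub, omap_smul, omap_star, omap_mul]
  · simp only [cross, amap, omap_add, omap_sub, omap_smul, omap_star, omap_mul]

theorem sigma_up (t : kˣ) : σ (up K t : K) = (up K t : K) := σ.commutes _

theorem wt_amap (g : Fin 3 → kˣ) (x : AlbL K a b c) :
    wt (upG K g) (amap σ x) = amap σ (wt (upG K g) x) := by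
  ext1
  · simp only [wt, amap, upG, map_mul, map_pow, sigma_up]
  · simp only [wt, amap, upG, map_mul, map_pow, sigma_up]
  · simp only [wt, amap, upG, map_mul, map_pow, sigma_up]
  · simp only [wt, amap, upG, omap_smul, map_mul, sigma_up]
  · simp only [wt, amap, upG, omap_smul, map_mul, sigma_up]
  · simp only [wt, amap, upG, omap_smul, map_mul, sigma_up]

theorem upG_inv (g : Fin 3 → kˣ) : (upG K g)⁻¹ = upG K g⁻¹ := by
  funext i
  exact (map_inv (Units.map (algebraMap k K : k →* K)) (g i)).symm

theorem wt_inv_amap (g : Fin 3 → kˣ) (x : AlbL K a b c) :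
    wt (upG K g)⁻¹ (amap σ x) = amap σ (wt (upG K g)⁻¹ x) := by
  rw [upG_inv, wt_amap]

theorem sigma_gam (g : Fin 3 → kˣ) : σ (gam (upG K g)) = gam (upG K g) := by
  simp only [gam, upG, map_mul, sigma_up]

theorem one_amap (g : Fin 3 → kˣ) :
    amap σ (one (up K a) (up K b) (up K c) (upG K g)) = one _ _ _ (upG K g) := by
  ext1
  · simp only [amap, d1_one, map_inv₀, upG, sigma_up]
  · simp only [amap, d2_one, map_inv₀, upG, sigma_up]
  · simp only [amap, d3_one, map_inv₀, upG, sigma_up]
  · simp only [amap, x1_one, omap_zero]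
  · simp only [amap, x2_one, omap_zero]
  · simp only [amap, x3_one, omap_zero]

theorem shG_amap (g : Fin 3 → kˣ) (x : AlbL K a b c) :
    shG (upG K g) (amap σ x) = amap σ (shG (upG K g) x) := by
  rw [shG, shG, adj_amap, wt_inv_amap, amap_smul, sigma_gam]

theorem NG_amap (g : Fin 3 → kˣ) (x : AlbL K a b c) :
    NG (upG K g) (amap σ x) = σ (NG (upG K g) x) := by
  rw [NG, NG, cub_amap, map_mul, sigma_gam]

theorem tG_amap (g : Fin 3 → kˣ) (x : AlbL K a b c) :
    tG (upG K g) (amap σ x) = σ (tG (upG K g) x) := by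
  simp only [tG, amap, upG, map_add, map_mul, sigma_up]

/-- The cubic norm structure of the weights is an instance of the data of the Cayley
transform. -/
theorem cayData [NeZero (2 : K)] (g : Fin 3 → kˣ) :
    CayData K (AlbL K a b c) σ (NG (upG K g)) (shG (upG K g)) (tG (upG K g))
      (one _ _ _ (upG K g)) (amap σ) where
  sh_add := shG_one_add _
  N_add := NG_one_add _
  sh_sh := shG_shG _
  N_sh := NG_shG _
  sh_smul := shG_smul _
  N_smul := NG_smul _
  t_smul := tG_smul _
  t_e := tG_one _
  bar_add := amap_add σ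
  bar_smul := amap_smul σ
  bar_e := one_amap σ g
  sh_bar := shG_amap σ g
  N_bar := NG_amap σ g

end coef

end Alb

end Vale.Agent.P011.E6
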