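import Vale.Agent.P011.E6.HitF
import Vale.Agent.P011.E6.FixB
import Vale.Agent.P011.E6.Cen

/-!
The centre of the special unitary group of degree three over a quaternion algebra.
-/

open Matrix

namespace Vale.Agent.P011.E6

open Vale.Agent.P011.MPQ Vale.Agent.P011.D4 Vale.Agent.P011.D4.Oct

namespace NonCen

section refl

variable {F : Type} [Field F]

/-- A reflection. -/
def rfM (g0 g1 g2 t s : F) : Matrix (Fin 3) (Fin 3) F :=
  !![1 - s * g0, -(s * g1), -(s * (t * g2));
     -(s * g0), 1 - s * g1, -(s * (t * g2));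
     -(s * (t * g0)), -(s * (t * g1)), 1 - s * (t * (t * g2))]

theorem rfM_mul {g0 g1 g2 t s : F} (e : s * (g0 + g1 + t ^ 2 * g2) = 2) :
    rfM g0 g1 g2 t s * rfM g0 g1 g2 t s = 1 := by
  apply Matrix.ext
  intro i j
  fin_cases i <;> fin_cases j <;>
    simp only [rfM, Matrix.mul_apply, Fin.sum_univ_three, Matrix.of_apply, Matrix.cons_val',
      Matrix.cons_val_zero, Matrix.cons_val_one, Matrix.cons_val] <;>
    simp
  · linear_combination (s * g0) * e
  · linear_combination (s * g1) * e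
  · linear_combination (s * t * g2) * e
  · linear_combination (s * g0) * e
  · linear_combination (s * g1) * e
  · linear_combination (s * t * g2) * e
  · linear_combination (s * t * g0) * e
  · linear_combination (s * t * g1) * e
  · linear_combination (s * t * t * g2) * e

theorem rfM_symm (g0 g1 g2 t s : F) :
    (rfM g0 g1 g2 t s)ᵀ * diagonal ![g0, g1, g2] = diagonal ![g0, g1, g2] * rfM g0 g1 g2 t s := by
  apply Matrix.ext
  intro i j
  rw [mul_diagonal, diagonal_mul, transpose_apply]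
  fin_cases i <;> fin_cases j <;>
    simp only [rfM, Matrix.of_apply, Matrix.cons_val',
      Matrix.cons_val_zero, Matrix.cons_val_one, Matrix.cons_val] <;>
    simp <;> ring

theorem exists_rfM [NeZero (2 : F)] (h3 : (3 : F) ≠ 0) (g : Fin 3 → Fˣ) :
    ∃ M : Matrix (Fin 3) (Fin 3) F, M * M = 1 ∧
      Mᵀ * diagonal (fun i => (g i : F)) * M = diagonal (fun i => (g i : F)) ∧
      M 0 1 ≠ 0 ∧ M 0 2 ≠ 0 := by
  have h2 : (2 : F) ≠ 0 := NeZero.ne 2
  obtain ⟨t, ht0, ht⟩ : ∃ t : F, t ≠ 0 ∧ (g 0 : F) + g 1 + t ^ 2 * g 2 ≠ 0 := by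
    by_cases h : (g 0 : F) + g 1 + 1 ^ 2 * g 2 = 0
    · refine ⟨2, h2, fun h' => ?_⟩
      have h4 : (3 : F) * g 2 = 0 := by linear_combination h' - h
      exact mul_ne_zero h3 (g 2).ne_zero h4
    · exact ⟨1, one_ne_zero, h⟩
  set c := (g 0 : F) + g 1 + t ^ 2 * g 2 with hc
  have e : 2 / c * ((g 0 : F) + g 1 + t ^ 2 * g 2) = 2 := by
    rw [← hc]
    field_simp
  have hg : (fun i => (g i : F)) = ![(g 0 : F), g 1, g 2] := by
    funext i
    fin_cases i <;> rfl
  have hs : 2 / c ≠ 0 := div_ne_zero h2 ht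
  refine ⟨rfM (g 0) (g 1) (g 2) t (2 / c), rfM_mul e, ?_, ?_, ?_⟩
  · rw [hg, rfM_symm, Matrix.mul_assoc, rfM_mul e, Matrix.mul_one]
  · change -(2 / c * (g 1 : F)) ≠ 0
    exact neg_ne_zero.2 (mul_ne_zero hs (g 1).ne_zero)
  · change -(2 / c * (t * (g 2 : F))) ≠ 0
    exact neg_ne_zero.2 (mul_ne_zero hs (mul_ne_zero ht0 (g 2).ne_zero))

variable {a b : Fˣ}

theorem map_conjTranspose (M : Matrix (Fin 3) (Fin 3) F) :
    (M.map (algebraMap F (Qt a b)))ᴴ = Mᵀ.map (algebraMap F (Qt a b)) := by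
  apply Matrix.ext
  intro i j
  rw [conjTranspose_apply, Matrix.map_apply, Matrix.map_apply, transpose_apply]
  exact QuaternionAlgebra.star_coe _

theorem map_dg (g : Fin 3 → Fˣ) :
    (diagonal (fun i => (g i : F))).map (algebraMap F (Qt a b)) = dg a b g := by
  rw [diagonal_map (map_zero _)]
  rfl

theorem exists_rfU [NeZero (2 : F)] (h3 : (3 : F) ≠ 0) (g : Fin 3 → Fˣ) :
    ∃ m : (Matrix (Fin 3) (Fin 3) (Qt a b))ˣ,
      (m : Matrix (Fin 3) (Fin 3) (Qt a b))ᴴ * dg a b g * (m : Matrix (Fin 3) (Fin 3) (Qt a b)) =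
        dg a b g ∧ ∃ M : Matrix (Fin 3) (Fin 3) F, M 0 1 ≠ 0 ∧ M 0 2 ≠ 0 ∧
      (m : Matrix (Fin 3) (Fin 3) (Qt a b)) = M.map (algebraMap F (Qt a b)) := by
  obtain ⟨M, h1, h2, h4, h5⟩ := exists_rfM h3 g
  have h6 : M.map (algebraMap F (Qt a b)) * M.map (algebraMap F (Qt a b)) = 1 := by
    rw [← Matrix.map_mul, h1, Matrix.map_one _ (map_zero _) (map_one _)]
  refine ⟨⟨M.map (algebraMap F (Qt a b)), M.map (algebraMap F (Qt a b)), h6, h6⟩, ?_, M, h4, h5,
    rfl⟩
  change (M.map (algebraMap F (Qt a b)))ᴴ * dg a b g * M.map (algebraMap F (Qt a b)) = _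
  rw [map_conjTranspose, ← map_dg, ← Matrix.map_mul, ← Matrix.map_mul, h2]

/-- An element of the quaternion algebra that commutes with the norm one elements of a smaller
field is a scalar. -/
theorem eq_smul_one (h2 : (2 : F) ≠ 0) {x : Qt a b} (h : x * Cen.gI a b = Cen.gI a b * x)
    (h' : x * Cen.gJ a b = Cen.gJ a b * x) : x = x.re • 1 := by
  have e1 := congrArg QuaternionAlgebra.imJ h
  have e2 := congrArg QuaternionAlgebra.imK h
  have e3 := congrArg QuaternionAlgebra.imK h'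
  have ha := a.ne_zero
  rw [QuaternionAlgebra.imJ_mul, QuaternionAlgebra.imJ_mul] at e1
  rw [QuaternionAlgebra.imK_mul, QuaternionAlgebra.imK_mul] at e2 e3
  simp only [Cen.gI, Cen.gJ, mul_zero, zero_mul, mul_one, one_mul, add_zero, zero_add, sub_zero,
    zero_sub] at e1 e2 e3
  have f1 : x.imK = 0 := by
    apply mul_left_cancel₀ (mul_ne_zero h2 ha)
    linear_combination -e1
  have f2 : x.imJ = 0 := by
    apply mul_left_cancel₀ h2
    linear_combination -e2
  have f3 : x.imI = 0 := by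
    apply mul_left_cancel₀ h2
    linear_combination e3
  ext
  · simp
  · simp [f3]
  · simp [f2]
  · simp [f1]

end refl

section ext

variable {k K : Type} [Field k] [Field K] [NeZero (2 : K)] [Algebra k K] {σ : K ≃ₐ[k] K}
  {a b : kˣ} {g : Fin 3 → kˣ}

omit [NeZero (2 : K)] in
/-- A matrix that commutes with a diagonal matrix. -/
theorem apply_eq_of_comm {m : Matrix (Fin 3) (Fin 3) (Qt (up K a) (up K b))}
    {d : Fin 3 → Qt (up K a) (up K b)} (h : m * diagonal d = diagonal d * m) (i j : Fin 3) :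
    m i j * d j = d i * m i j := by
  have h1 := congrFun (congrFun h i) j
  rwa [mul_diagonal, diagonal_mul] at h1

theorem eq_zero_of_neg {x : Qt (up K a) (up K b)} (h : x * 1 = -1 * x) : x = 0 := by
  have h1 : (2 : K) • x = 0 := by
    rw [two_smul]
    nth_rw 1 [← mul_one x]
    rw [h, neg_one_mul, neg_add_cancel]
  exact (smul_eq_zero.mp h1).resolve_left (NeZero.ne 2)

theorem eq_zero_of_neg' {x : Qt (up K a) (up K b)} (h : x * -1 = 1 * x) : x = 0 := by
  have h1 : (2 : K) • x = 0 := by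
    rw [two_smul]
    nth_rw 1 [← one_mul x]
    rw [← h, mul_neg, mul_one, neg_add_cancel]
  exact (smul_eq_zero.mp h1).resolve_left (NeZero.ne 2)

/-- Only the scalars are central in the special unitary group of degree three. -/
theorem exists_noncomm [NeZero (2 : k)] (h3 : (3 : k) ≠ 0) (hQ : Aniso (up K a) (up K b))
    {m₀ : (Matrix (Fin 3) (Fin 3) (Qt (up K a) (up K b)))ˣ}
    (h : ∀ t : K, (m₀ : Matrix (Fin 3) (Fin 3) (Qt (up K a) (up K b))) ≠ t • 1) :
    ∃ m₁ : (Matrix (Fin 3) (Fin 3) (Qt (up K a) (up K b)))ˣ,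
      IsU σ g g (m₁ : Matrix (Fin 3) (Fin 3) (Qt (up K a) (up K b))) ∧
      nu (m₁ : Matrix (Fin 3) (Fin 3) (Qt (up K a) (up K b))) = 1 ∧ m₀ * m₁ ≠ m₁ * m₀ := by
  by_contra hcon
  push Not at hcon
  have h2 : (2 : K) ≠ 0 := NeZero.ne 2
  obtain ⟨ha, hb⟩ := Cen.one_sub_ne hQ
  have ha' : (1 - a : k) ≠ 0 := fun h0 => ha (by
    have := congrArg (algebraMap k K) h0
    rwa [map_sub, map_one, map_zero] at this)
  have hb' : (1 - b : k) ≠ 0 := fun h0 => hb (by
    have := congrArg (algebraMap k K) h0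
    rwa [map_sub, map_one, map_zero] at this)
  set m := (m₀ : Matrix (Fin 3) (Fin 3) (Qt (up K a) (up K b))) with hm
  have hdd : ∀ p q : Qt a b, nrd p = 1 → nrd q = 1 → ∀ i j : Fin 3,
      m i j * ![qup K p, qup K q, 1] j = ![qup K p, qup K q, 1] i * m i j := by
    intro p q hp hq
    have hp' : nrd (qup K p) = 1 := by rw [nrd_qup, hp, map_one]
    have hq' : nrd (qup K q) = 1 := by rw [nrd_qup, hq, map_one]
    have h1 := hcon (dd (qup K p) (qup K q) hp' hq')
      (isU_dd hp' hq' (qmap_qup σ p) (qmap_qup σ q)) (nu_dd hp' hq')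
    exact apply_eq_of_comm (congrArg (fun u : (Matrix (Fin 3) (Fin 3)
      (Qt (up K a) (up K b)))ˣ => (u : Matrix (Fin 3) (Fin 3) (Qt (up K a) (up K b)))) h1)
  have hn1 : nrd (-1 : Qt a b) = 1 := by simp [nrd]
  have hq1 : nrd (1 : Qt a b) = 1 := by simp [nrd]
  have d0 := hdd (-1) 1 hn1 hq1
  have d1 := hdd 1 (-1) hq1 hn1
  rw [qup_neg, qup_one] at d0 d1
  have z01 : m 0 1 = 0 := eq_zero_of_neg (d0 0 1)
  have z02 : m 0 2 = 0 := eq_zero_of_neg (d0 0 2)
  have z10 : m 1 0 = 0 := eq_zero_of_neg' (d0 1 0)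
  have z20 : m 2 0 = 0 := eq_zero_of_neg' (d0 2 0)
  have z12 : m 1 2 = 0 := eq_zero_of_neg (d1 1 2)
  have z21 : m 2 1 = 0 := eq_zero_of_neg' (d1 2 1)
  -- the first entry is a scalar
  have hx : m 0 0 = (m 0 0).re • 1 := by
    apply eq_smul_one h2
    · have h1 : m 0 0 * qup K _ = qup K _ * m 0 0 := hdd _ 1 (Cen.nrd_I ha') hq1 0 0
      rw [Cen.qup_I, mul_add, add_mul, QuaternionAlgebra.coe_mul_eq_smul,
        QuaternionAlgebra.mul_coe_eq_smul, add_right_inj, mul_smul_comm, smul_mul_assoc] at h1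
      exact smul_right_injective _ (div_ne_zero h2 ha) h1
    · have h1 : m 0 0 * qup K _ = qup K _ * m 0 0 := hdd _ 1 (Cen.nrd_J hb') hq1 0 0
      rw [Cen.qup_J, mul_add, add_mul, QuaternionAlgebra.coe_mul_eq_smul,
        QuaternionAlgebra.mul_coe_eq_smul, add_right_inj, mul_smul_comm, smul_mul_assoc] at h1
      exact smul_right_injective _ (div_ne_zero h2 hb) h1
  -- the reflection
  obtain ⟨r, hr, M, hM1, hM2, hrM⟩ := exists_rfU (a := a) (b := b) h3 g
  have h4 := hcon (upU K r) (isU_upU σ hr) (nu_upU hQ 1 hr)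
  have h5 : m * (r : Matrix (Fin 3) (Fin 3) (Qt a b)).map (qup K) =
      (r : Matrix (Fin 3) (Fin 3) (Qt a b)).map (qup K) * m := by
    have h6 := congrArg (fun u : (Matrix (Fin 3) (Fin 3)
      (Qt (up K a) (up K b)))ˣ => (u : Matrix (Fin 3) (Fin 3) (Qt (up K a) (up K b)))) h4
    simpa only [Units.val_mul, upU_val] using h6
  rw [hrM] at h5
  have key : ∀ j, j ≠ 0 → M 0 j ≠ 0 → m 0 0 = m j j := by
    intro j hj hMj
    have h6 := congrFun (congrFun h5 0) j
    rw [Matrix.mul_apply, Matrix.mul_apply, Fin.sum_univ_three, Fin.sum_univ_three] at h6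
    have hc : ∀ (t : k) (x : Qt (up K a) (up K b)), x * qup K (algebraMap k (Qt a b) t) =
        algebraMap k K t • x ∧ qup K (algebraMap k (Qt a b) t) * x = algebraMap k K t • x := by
      intro t x
      have e : qup K (algebraMap k (Qt a b) t) =
          ((algebraMap k K t : K) : Qt (up K a) (up K b)) := Cen.qup_coe t
      rw [e, QuaternionAlgebra.coe_mul_eq_smul, QuaternionAlgebra.mul_coe_eq_smul]
      exact ⟨rfl, rfl⟩
    simp only [Matrix.map_apply, (hc _ _).1, (hc _ _).2, z01, z02, smul_zero, add_zero] at h6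
    have hMj' : algebraMap k K (M 0 j) ≠ 0 := by
      rw [map_ne_zero]
      exact hMj
    apply smul_right_injective _ hMj'
    change algebraMap k K (M 0 j) • m 0 0 = algebraMap k K (M 0 j) • m j j
    rw [h6]
    fin_cases j
    · exact absurd rfl hj
    · simp [z01, z21]
    · simp [z02, z12]
  have k1 := key 1 (by decide) hM1
  have k2 := key 2 (by decide) hM2
  apply h (m 0 0).re
  apply Matrix.ext
  intro i j
  rw [Matrix.smul_apply, Matrix.one_apply]
  fin_cases i <;> fin_cases j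
  · simpa using hx
  · simpa using z01
  · simpa using z02
  · simpa using z10
  · simpa [← k1] using hx
  · simpa using z12
  · simpa using z20
  · simpa using z21
  · simpa [← k2] using hx

end ext

end NonCen

end Vale.Agent.P011.E6
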