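import Vale.Agent.P011.D4.NTS
import Mathlib.RingTheory.Artinian.Module

/-!
The norm theorem for quaternion algebras over products of number fields.
-/

open NumberField

namespace Vale.Agent.P011.E6

open Vale.Agent.P011.MPQ Vale.Agent.P011.D4

/-- The norm theorem for quaternion algebras over a reduced finite-dimensional algebra. -/
theorem exists_nrd_alg {k : Type} [Field k] [NumberField k] {A : Type} [CommRing A] [Algebra k A]
    [FiniteDimensional k A] [IsReduced A] (a b : kˣ) (ν : A) (hν : IsUnit ν)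
    (h : ∀ τ : A →+* ℝ, τ (algebraMap k A a) < 0 → τ (algebraMap k A b) < 0 → 0 < τ ν) :
    ∃ x y z w : A, x ^ 2 - algebraMap k A a * y ^ 2 - algebraMap k A b * z ^ 2 +
      algebraMap k A a * algebraMap k A b * w ^ 2 = ν := by
  have hA : IsArtinianRing A := IsArtinianRing.of_finite k A
  have key : ∀ I : MaximalSpectrum A, ∃ q : Fin 4 → A ⧸ I.asIdeal,
      q 0 ^ 2 - Ideal.Quotient.mk I.asIdeal (algebraMap k A a) * q 1 ^ 2 -
        Ideal.Quotient.mk I.asIdeal (algebraMap k A b) * q 2 ^ 2 +
        Ideal.Quotient.mk I.asIdeal (algebraMap k A a) *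
          Ideal.Quotient.mk I.asIdeal (algebraMap k A b) * q 3 ^ 2 =
        Ideal.Quotient.mk I.asIdeal ν := by
    intro I
    have hI : I.asIdeal.IsMaximal := I.isMaximal
    let _ : Field (A ⧸ I.asIdeal) := Ideal.Quotient.field I.asIdeal
    have hN : NumberField (A ⧸ I.asIdeal) := NumberField.of_module_finite k (A ⧸ I.asIdeal)
    have hν' : Ideal.Quotient.mk I.asIdeal ν ≠ 0 := (hν.map (Ideal.Quotient.mk I.asIdeal)).ne_zero
    obtain ⟨q, hq⟩ := exists_nrd (k := A ⧸ I.asIdeal) (a := up (A ⧸ I.asIdeal) a)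
      (b := up (A ⧸ I.asIdeal) b) (Units.mk0 _ hν') (fun φ ha hb => by
        exact h (φ.comp (Ideal.Quotient.mk I.asIdeal)) ha hb)
    refine ⟨![q.re, q.imI, q.imJ, q.imK], ?_⟩
    exact hq
  choose q hq using key
  let e := IsArtinianRing.equivPi A
  have hv : ∀ i : Fin 4, ∃ x : A, ∀ I : MaximalSpectrum A, Ideal.Quotient.mk I.asIdeal x = q I i := by
    intro i
    refine ⟨e.symm (fun I => q I i), fun I => ?_⟩
    have := IsArtinianRing.equivPi_apply A (e.symm (fun I => q I i)) I
    rw [show IsArtinianRing.equivPi A (e.symm fun I => q I i) = fun I => q I i from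
      e.apply_symm_apply _] at this
    exact this.symm
  choose x hx using hv
  refine ⟨x 0, x 1, x 2, x 3, ?_⟩
  apply e.injective
  funext I
  have e1 : ∀ y : A, e y I = Ideal.Quotient.mk I.asIdeal y := fun y =>
    IsArtinianRing.equivPi_apply A y I
  rw [e1, e1]
  simp only [map_add, map_sub, map_mul, map_pow, hx]
  exact hq I

end Vale.Agent.P011.E6
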