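import Vale.Agent.P011.E6.NrdAlg

/-!
The norm theorem for polynomials in a selfadjoint matrix.
-/

open NumberField Polynomial

namespace Vale.Agent.P011.E6

open Vale.Agent.P011.MPQ Vale.Agent.P011.D4

variable {k : Type} [Field k]

/-- Polynomials in a selfadjoint matrix are selfadjoint. -/
theorem aeval_selfadj {R D : Matrix (Fin 3) (Fin 3) k} (hR : R.transpose * D = D * R) (p : k[X]) :
    (aeval R p).transpose * D = D * aeval R p := by
  induction p using Polynomial.induction_on' with
  | add p q hp hq => rw [map_add, Matrix.transpose_add, add_mul, mul_add, hp, hq]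
  | monomial n t =>
    rw [aeval_monomial, Matrix.transpose_mul, Matrix.transpose_pow]
    have h1 : ∀ n : ℕ, R.transpose ^ n * D = D * R ^ n := by
      intro n
      induction n with
      | zero => rw [pow_zero, pow_zero, one_mul, mul_one]
      | succ n ih => rw [pow_succ, pow_succ, mul_assoc, hR, ← mul_assoc, ih, mul_assoc]
    rw [Algebra.algebraMap_eq_smul_one, Matrix.transpose_smul, Matrix.transpose_one,
      mul_smul_comm, mul_one, smul_mul_assoc, h1, smul_mul_assoc, one_mul, mul_smul_comm]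

/-- The diagonal form is anisotropic. -/
def AnisG (g : Fin 3 → kˣ) : Prop :=
  ∀ s : Fin 3 → k, (g 0 : k) * s 0 ^ 2 + g 1 * s 1 ^ 2 + g 2 * s 2 ^ 2 = 0 → s = 0

theorem AnisG.of_real {g : Fin 3 → kˣ} {τ₀ : k →+* ℝ} (hg : ∀ i, 0 < τ₀ (g i)) : AnisG g := by
  intro s hs
  have h := congrArg τ₀ hs
  simp only [map_add, map_mul, map_pow, map_zero] at h
  have h0 := hg 0
  have h1 := hg 1
  have h2 := hg 2
  have w : ∀ {u : k}, u ≠ 0 → τ₀ u ≠ 0 := fun h => (map_ne_zero τ₀).2 h
  by_contra hne
  have : s 0 ≠ 0 ∨ s 1 ≠ 0 ∨ s 2 ≠ 0 := by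
    by_contra hn
    push Not at hn
    apply hne
    funext i
    fin_cases i
    · exact hn.1
    · exact hn.2.1
    · exact hn.2.2
  refine ne_of_gt ?_ h
  rcases this with h3 | h3 | h3
  · have := w h3
    positivity
  · have := w h3
    positivity
  · have := w h3
    positivity

/-- A selfadjoint matrix of square zero is zero. -/
theorem eq_zero_of_sq {g : Fin 3 → kˣ} (hg : AnisG g)
    {T : Matrix (Fin 3) (Fin 3) k}
    (hT : T.transpose * Matrix.diagonal (fun i => (g i : k)) =
      Matrix.diagonal (fun i => (g i : k)) * T) (h2 : T * T = 0) : T = 0 := by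
  ext i j
  have h : (T.transpose * Matrix.diagonal (fun i => (g i : k)) * T) j j = 0 := by
    rw [hT, mul_assoc, h2, mul_zero, Matrix.zero_apply]
  rw [Matrix.mul_apply, Fin.sum_univ_three] at h
  simp only [Matrix.mul_diagonal, Matrix.transpose_apply] at h
  have h3 := hg (fun i => T i j) (by linear_combination h)
  exact congrFun h3 i

/-- The norm theorem for polynomials in a selfadjoint matrix. -/
theorem exists_nrd_poly [NumberField k] {a b : kˣ} {R : Matrix (Fin 3) (Fin 3) k} {g : Fin 3 → kˣ}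
    (hR : R.transpose * Matrix.diagonal (fun i => (g i : k)) =
      Matrix.diagonal (fun i => (g i : k)) * R)
    (hg : AnisG g) {p : k[X]} (hp : IsUnit (aeval R p))
    (hs : ∀ (τ : k →+* ℝ) (ρ : ℝ) (u : Fin 3 → ℝ), τ a < 0 → τ b < 0 → u ≠ 0 →
      (R.map τ).mulVec u = ρ • u → 0 < p.eval₂ τ ρ) :
    ∃ x y z w q : k[X], aeval R (x ^ 2 - C (a : k) * y ^ 2 - C (b : k) * z ^ 2 +
      C (a : k) * C (b : k) * w ^ 2) = aeval R p ∧ aeval R (p * q) = 1 := by
  let f : k[X] →ₐ[k] Matrix (Fin 3) (Fin 3) k := aeval R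
  let A : Type := k[X] ⧸ RingHom.ker f
  let F : A →ₐ[k] Matrix (Fin 3) (Fin 3) k := Ideal.kerLiftAlg f
  have hF : Function.Injective F := Ideal.kerLiftAlg_injective f
  have hFm : ∀ q : k[X], F (Ideal.Quotient.mk _ q) = aeval R q := fun q => rfl
  have hfin : FiniteDimensional k A :=
    FiniteDimensional.of_injective F.toLinearMap hF
  have hart : IsArtinianRing A := IsArtinianRing.of_finite k A
  have hred : IsReduced A := by
    rw [isReduced_iff_pow_one_lt 2 one_lt_two]
    intro x hx
    obtain ⟨q, rfl⟩ := Ideal.Quotient.mk_surjective x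
    apply hF
    rw [map_zero, hFm]
    apply eq_zero_of_sq hg (aeval_selfadj hR q)
    rw [← hFm, ← map_mul, ← sq, hx, map_zero]
  have hu : IsUnit (Ideal.Quotient.mk (RingHom.ker f) p : A) := by
    apply IsArtinianRing.isUnit_of_mem_nonZeroDivisors
    rw [mem_nonZeroDivisors_iff_right]
    intro x hx
    apply hF
    have h1 := congrArg F hx
    rw [map_mul, hFm, map_zero] at h1
    rw [map_zero]
    exact (hp.mul_left_eq_zero).1 h1
  have hpos : ∀ τ : A →+* ℝ, τ (algebraMap k A a) < 0 → τ (algebraMap k A b) < 0 →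
      0 < τ (Ideal.Quotient.mk (RingHom.ker f) p) := by
    intro τ ha hb
    set τk : k →+* ℝ := τ.comp (algebraMap k A) with hτk
    set ρ : ℝ := τ (Ideal.Quotient.mk (RingHom.ker f) X) with hρ
    have key : ∀ q : k[X], τ (Ideal.Quotient.mk (RingHom.ker f) q) = q.eval₂ τk ρ := by
      intro q
      have : τ.comp (Ideal.Quotient.mk (RingHom.ker f)) = eval₂RingHom τk ρ := by
        apply Polynomial.ringHom_ext
        · intro t
          simp [hτk]
          rfl
        · simp [hρ]
      exact RingHom.congr_fun this q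
    have h0 : (R.map τk).charpoly.eval ρ = 0 := by
      have h1 : R.charpoly.eval₂ τk ρ = 0 := by
        rw [← key]
        have : (Ideal.Quotient.mk (RingHom.ker f) R.charpoly : A) = 0 := by
          apply hF
          rw [hFm, Matrix.aeval_self_charpoly, map_zero]
        rw [this, map_zero]
      rw [Matrix.charpoly_map, eval_map, h1]
    rw [Matrix.eval_charpoly] at h0
    obtain ⟨u, hu0, hu1⟩ := Matrix.exists_mulVec_eq_zero_iff.2 h0
    rw [key]
    apply hs τk ρ u ha hb hu0
    rw [Matrix.sub_mulVec, sub_eq_zero] at hu1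
    rw [← hu1]
    simp
  obtain ⟨x, y, z, w, h⟩ := exists_nrd_alg a b (Ideal.Quotient.mk (RingHom.ker f) p : A) hu hpos
  obtain ⟨x, rfl⟩ := Ideal.Quotient.mk_surjective x
  obtain ⟨y, rfl⟩ := Ideal.Quotient.mk_surjective y
  obtain ⟨z, rfl⟩ := Ideal.Quotient.mk_surjective z
  obtain ⟨w, rfl⟩ := Ideal.Quotient.mk_surjective w
  obtain ⟨q, hq⟩ := hu.exists_right_inv
  obtain ⟨q, rfl⟩ := Ideal.Quotient.mk_surjective q
  refine ⟨x, y, z, w, q, ?_, ?_⟩
  · have hFa : ∀ t : k, F (algebraMap k (k[X] ⧸ RingHom.ker f) t) = t • 1 := fun t => by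
      rw [← Algebra.algebraMap_eq_smul_one]
      exact F.commutes t
    have h1 := congrArg F h
    simp only [map_add, map_sub, map_mul, map_pow, hFm, hFa, smul_mul_assoc, one_mul,
      smul_smul] at h1
    simp only [map_add, map_sub, map_mul, map_pow, aeval_C, Algebra.algebraMap_eq_smul_one,
      smul_mul_assoc, one_mul, smul_smul]
    exact h1
  · have h1 := congrArg F hq
    rw [← map_mul, hFm, map_one] at h1
    exact h1

end Vale.Agent.P011.E6
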