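import Vale.Agent.P011.E6.NrdPoly
import Vale.Agent.P011.E6.Defs

/-!
Polynomials in a selfadjoint matrix, with quaternionic coefficients.
-/

open Polynomial Matrix

namespace Vale.Agent.P011.E6

open Vale.Agent.P011.MPQ Vale.Agent.P011.D4

section phi

variable {K : Type} [Field K] {a b : Kˣ}

/-- The matrix over the quaternions with given components. -/
def toM (a b : Kˣ) (P₀ P₁ P₂ P₃ : Matrix (Fin 3) (Fin 3) K) : Matrix (Fin 3) (Fin 3) (Qt a b) :=
  Matrix.of fun i j => ⟨P₀ i j, P₁ i j, P₂ i j, P₃ i j⟩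

theorem toM_ext {P₀ P₁ P₂ P₃ Q₀ Q₁ Q₂ Q₃ : Matrix (Fin 3) (Fin 3) K} (h₀ : P₀ = Q₀) (h₁ : P₁ = Q₁)
    (h₂ : P₂ = Q₂) (h₃ : P₃ = Q₃) : toM a b P₀ P₁ P₂ P₃ = toM a b Q₀ Q₁ Q₂ Q₃ := by
  rw [h₀, h₁, h₂, h₃]

theorem toM_mul (P₀ P₁ P₂ P₃ Q₀ Q₁ Q₂ Q₃ : Matrix (Fin 3) (Fin 3) K) :
    toM a b P₀ P₁ P₂ P₃ * toM a b Q₀ Q₁ Q₂ Q₃ =
      toM a b (P₀ * Q₀ + (a : K) • (P₁ * Q₁) + (b : K) • (P₂ * Q₂) - ((a : K) * b) • (P₃ * Q₃))
        (P₀ * Q₁ + P₁ * Q₀ - (b : K) • (P₂ * Q₃) + (b : K) • (P₃ * Q₂))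
        (P₀ * Q₂ + (a : K) • (P₁ * Q₃) + P₂ * Q₀ - (a : K) • (P₃ * Q₁))
        (P₀ * Q₃ + P₁ * Q₂ - P₂ * Q₁ + P₃ * Q₀) := by
  ext i j
  · simp only [toM, Matrix.mul_apply, Matrix.of_apply, Fin.sum_univ_three,
      QuaternionAlgebra.re_add, QuaternionAlgebra.re_mul, Matrix.add_apply, Matrix.sub_apply,
      Matrix.smul_apply, smul_eq_mul]
    ring
  · simp only [toM, Matrix.mul_apply, Matrix.of_apply, Fin.sum_univ_three,
      QuaternionAlgebra.imI_add, QuaternionAlgebra.imI_mul, Matrix.add_apply, Matrix.sub_apply,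
      Matrix.smul_apply, smul_eq_mul]
    ring
  · simp only [toM, Matrix.mul_apply, Matrix.of_apply, Fin.sum_univ_three,
      QuaternionAlgebra.imJ_add, QuaternionAlgebra.imJ_mul, Matrix.add_apply, Matrix.sub_apply,
      Matrix.smul_apply, smul_eq_mul]
    ring
  · simp only [toM, Matrix.mul_apply, Matrix.of_apply, Fin.sum_univ_three,
      QuaternionAlgebra.imK_add, QuaternionAlgebra.imK_mul, Matrix.add_apply, Matrix.sub_apply,
      Matrix.smul_apply, smul_eq_mul]
    ring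

/-- Polynomials in `T` with quaternionic coefficients. -/
noncomputable def Phi (a b : Kˣ) (T : Matrix (Fin 3) (Fin 3) K) :
    QuaternionAlgebra K[X] (C (a : K)) 0 (C (b : K)) →+* Matrix (Fin 3) (Fin 3) (Qt a b) where
  toFun p := toM a b (aeval T p.re) (aeval T p.imI) (aeval T p.imJ) (aeval T p.imK)
  map_one' := by
    ext i j
    · by_cases h : i = j
      · subst h; simp [toM]
      · simp [toM, h]
    · by_cases h : i = j
      · subst h; simp [toM]
      · simp [toM, h]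
    · by_cases h : i = j
      · subst h; simp [toM]
      · simp [toM, h]
    · by_cases h : i = j
      · subst h; simp [toM]
      · simp [toM, h]
  map_zero' := by
    ext i j <;> simp [toM]
  map_add' p q := by
    ext i j <;> simp [toM]
  map_mul' p q := by
    rw [toM_mul]
    apply toM_ext
    · simp only [QuaternionAlgebra.re_mul, map_add, map_sub, map_mul, aeval_C,
        Algebra.algebraMap_eq_smul_one, smul_mul_assoc, one_mul, zero_mul, map_zero, smul_smul]
      abel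
    · simp only [QuaternionAlgebra.imI_mul, map_add, map_sub, map_mul, aeval_C,
        Algebra.algebraMap_eq_smul_one, smul_mul_assoc, one_mul, zero_mul, map_zero, smul_smul]
      abel
    · simp only [QuaternionAlgebra.imJ_mul, map_add, map_sub, map_mul, aeval_C,
        Algebra.algebraMap_eq_smul_one, smul_mul_assoc, one_mul, zero_mul, map_zero, smul_smul]
      abel
    · simp only [QuaternionAlgebra.imK_mul, map_add, map_sub, map_mul, aeval_C,
        Algebra.algebraMap_eq_smul_one, smul_mul_assoc, one_mul, zero_mul, map_zero, smul_smul]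
      abel

theorem Phi_apply (T : Matrix (Fin 3) (Fin 3) K)
    (p : QuaternionAlgebra K[X] (C (a : K)) 0 (C (b : K))) :
    Phi a b T p = toM a b (aeval T p.re) (aeval T p.imI) (aeval T p.imJ) (aeval T p.imK) := rfl

/-- Central polynomials. -/
theorem Phi_coe (T : Matrix (Fin 3) (Fin 3) K) (p : K[X]) :
    Phi a b T (p : QuaternionAlgebra K[X] (C (a : K)) 0 (C (b : K))) = toM a b (aeval T p) 0 0 0 := by
  rw [Phi_apply]
  simp

theorem Phi_coe_congr {T : Matrix (Fin 3) (Fin 3) K} {p q : K[X]} (h : aeval T p = aeval T q) :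
    Phi a b T (p : QuaternionAlgebra K[X] (C (a : K)) 0 (C (b : K))) =
      Phi a b T (q : QuaternionAlgebra K[X] (C (a : K)) 0 (C (b : K))) := by
  rw [Phi_coe, Phi_coe, h]

theorem toM_coe (T : Matrix (Fin 3) (Fin 3) K) (i j : Fin 3) :
    toM a b T 0 0 0 i j = algebraMap K (Qt a b) (T i j) := by
  ext <;> simp [toM]

theorem dg_toM (g : Fin 3 → Kˣ) :
    dg a b g = toM a b (Matrix.diagonal fun i => (g i : K)) 0 0 0 := by
  ext i j
  all_goals
    by_cases h : i = j
    · subst h; simp [toM, dg]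
    · simp [toM, dg, h]

theorem conjTranspose_toM (P₀ P₁ P₂ P₃ : Matrix (Fin 3) (Fin 3) K) :
    (toM a b P₀ P₁ P₂ P₃).conjTranspose =
      toM a b P₀.transpose (-P₁.transpose) (-P₂.transpose) (-P₃.transpose) := by
  ext i j <;> simp [toM]

/-- Selfadjointness. -/
theorem Phi_conj {T : Matrix (Fin 3) (Fin 3) K} {g : Fin 3 → Kˣ}
    (hT : T.transpose * Matrix.diagonal (fun i => (g i : K)) =
      Matrix.diagonal (fun i => (g i : K)) * T)
    (p : QuaternionAlgebra K[X] (C (a : K)) 0 (C (b : K))) :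
    (Phi a b T p).conjTranspose * dg a b g = dg a b g * Phi a b T (star p) := by
  rw [Phi_apply, Phi_apply, conjTranspose_toM, dg_toM, toM_mul, toM_mul]
  apply toM_ext
  · simp [aeval_selfadj hT]
  · simp [aeval_selfadj hT]
  · simp [aeval_selfadj hT]
  · simp [aeval_selfadj hT]

end phi

end Vale.Agent.P011.E6
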