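import Vale.Agent.P011.E6.Defs

/-!
(E7) Positivity of the orbit of the base point at the real places over which the octonion algebra
is definite.
-/

namespace Vale.Agent.P011.E6

open Vale.Agent.P011.MPQ Vale.Agent.P011.D4 Vale.Agent.P011.D4.Oct

variable {F : Type} [Field F] {a b c : Fˣ}

/-- The octonion algebra is definite at the real place. -/
def DefAt (τ : F →+* ℝ) (a b c : Fˣ) : Prop := ∀ x : Oct a b c, x ≠ 0 → 0 < τ (norm x)

theorem DefAt.of_neg {τ : F →+* ℝ} (ha : τ a < 0) (hb : τ b < 0) (hc : τ c < 0) :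
    DefAt τ a b c := by
  intro x hx
  have e : τ (norm x) = (τ x.fst.re ^ 2 + (-τ a) * τ x.fst.imI ^ 2 + (-τ b) * τ x.fst.imJ ^ 2
      + (τ a * τ b) * τ x.fst.imK ^ 2) + (-τ c) * (τ x.snd.re ^ 2 + (-τ a) * τ x.snd.imI ^ 2
      + (-τ b) * τ x.snd.imJ ^ 2 + (τ a * τ b) * τ x.snd.imK ^ 2) := by
    simp only [Oct.norm, nrd, map_sub, map_add, map_mul, map_pow]
    ring
  have hab : 0 < τ a * τ b := mul_pos_of_neg_of_neg ha hb
  have ha' : 0 < -τ a := neg_pos.2 ha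
  have hb' : 0 < -τ b := neg_pos.2 hb
  have hc' : 0 < -τ c := neg_pos.2 hc
  rw [e]
  have w : ∀ {u : F}, u ≠ 0 → τ u ≠ 0 := fun h => (map_ne_zero τ).2 h
  by_cases h1 : x.fst.re = 0
  · by_cases h2 : x.fst.imI = 0
    · by_cases h3 : x.fst.imJ = 0
      · by_cases h4 : x.fst.imK = 0
        · by_cases h5 : x.snd.re = 0
          · by_cases h6 : x.snd.imI = 0
            · by_cases h7 : x.snd.imJ = 0
              · by_cases h8 : x.snd.imK = 0
                · exact absurd (ext8 h1 h2 h3 h4 h5 h6 h7 h8) hx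
                · have := w h8
                  positivity
              · have := w h7
                positivity
            · have := w h6
              positivity
          · have := w h5
            positivity
        · have := w h4
          positivity
      · have := w h3
        positivity
    · have := w h2
      positivity
  · have := w h1
    positivity

theorem DefAt.norm_nonneg {τ : F →+* ℝ} (h : DefAt τ a b c) (x : Oct a b c) : 0 ≤ τ (norm x) := by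
  by_cases hx : x = 0
  · rw [hx, Oct.norm_zero, map_zero]
  · exact (h x hx).le

theorem DefAt.neg {τ : F →+* ℝ} (h : DefAt τ a b c) : τ a < 0 ∧ τ b < 0 ∧ τ c < 0 := by
  have hi : (gi : Oct a b c) ≠ 0 := by
    intro h; have := congrArg (fun z : Oct a b c => z.fst.imI) h; simp [gi] at this
  have hj : (gj : Oct a b c) ≠ 0 := by
    intro h; have := congrArg (fun z : Oct a b c => z.fst.imJ) h; simp [gj] at this
  have hl : (gl : Oct a b c) ≠ 0 := by
    intro h; have := congrArg (fun z : Oct a b c => z.snd.re) h; simp [gl] at this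
  have e1 := h _ hi
  have e2 := h _ hj
  have e3 := h _ hl
  simp [Oct.norm, nrd, gi, gj, gl] at e1 e2 e3
  exact ⟨e1, e2, e3⟩

/-- The values of the quadratic form of a symmetric matrix. -/
def Alb.val (x : Alb a b c) (w1 w2 w3 : F) : F :=
  x.d1 * w1 ^ 2 + x.d2 * w2 ^ 2 + x.d3 * w3 ^ 2 + w2 * w3 * bil x.x1 1 + w3 * w1 * bil x.x2 1 +
    w1 * w2 * bil x.x3 1

theorem t3_xii (x i : Oct a b c) (hi : bil i 1 = 0) : bil (x * i * i) 1 = -norm i * bil x 1 := by
  rw [mul_self_mul, mul_self_of_pure hi, mul_smul_oct, mul_one, bil_smul_left]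

theorem t3_iix (x i : Oct a b c) (hi : bil i 1 = 0) : bil (i * i * x) 1 = -norm i * bil x 1 := by
  rw [mul_self_of_pure hi, smul_mul_oct, one_mul, bil_smul_left]

theorem t3_ixi (x i : Oct a b c) (hi : bil i 1 = 0) : bil (i * x * i) 1 = -norm i * bil x 1 := by
  rw [flex, bil_mul_left, mul_one, star_neg_of_pure hi, bil_neg_right]
  have := bil_mul_mul_right i x 1
  rw [one_mul] at this
  rw [this]
  ring

/-- The quadratic form attached to `x`, on the vectors `(0; w i)`. -/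
theorem cub_add_add_cub_sub (x : Alb a b c) (w1 w2 w3 : F) (i : Oct a b c) (hi : bil i 1 = 0) :
    Alb.cub (x + ⟨0, 0, 0, w1 • i, w2 • i, w3 • i⟩) +
      Alb.cub (x - ⟨0, 0, 0, w1 • i, w2 • i, w3 • i⟩) =
      2 * Alb.cub x - 2 * norm i * Alb.val x w1 w2 w3 := by
  have e1 : ∀ (y : Oct a b c) (w : F), norm (y + w • i) + norm (y - w • i) =
      2 * norm y + 2 * w ^ 2 * norm i := by
    intro y w
    rw [Oct.norm_add, Oct.norm_sub, Oct.norm_smul]
    ring
  have e2 : bil ((x.x1 + w1 • i) * (x.x2 + w2 • i) * (x.x3 + w3 • i)) 1 +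
      bil ((x.x1 - w1 • i) * (x.x2 - w2 • i) * (x.x3 - w3 • i)) 1 =
      2 * bil (x.x1 * x.x2 * x.x3) 1 - 2 * norm i * (w2 * w3 * bil x.x1 1 +
        w3 * w1 * bil x.x2 1 + w1 * w2 * bil x.x3 1) := by
    simp only [add_mul, mul_add, sub_mul, mul_sub, smul_mul_oct, mul_smul_oct, bil_add_left,
      bil_sub_left, bil_smul_left, t3_xii _ _ hi, t3_iix _ _ hi, t3_ixi _ _ hi]
    ring
  simp only [Alb.cub, Alb.val, Alb.d1_add, Alb.d2_add, Alb.d3_add, Alb.x1_add, Alb.x2_add,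
    Alb.x3_add, Alb.d1_sub, Alb.d2_sub, Alb.d3_sub, Alb.x1_sub, Alb.x2_sub, Alb.x3_sub, add_zero,
    sub_zero]
  linear_combination e2 - x.d1 * e1 x.x1 w1 - x.d2 * e1 x.x2 w2 - x.d3 * e1 x.x3 w3

/-- The quadratic form attached to the base point. -/
theorem cub_one_add (g : Fin 3 → Fˣ) (z : Alb a b c) :
    Alb.cub (Alb.one a b c g + z) + Alb.cub (Alb.one a b c g - z) =
      2 * Alb.cub (Alb.one a b c g) + 2 * ((g 0 : F)⁻¹ * (z.d2 * z.d3 - norm z.x1) +
        (g 1 : F)⁻¹ * (z.d3 * z.d1 - norm z.x2) + (g 2 : F)⁻¹ * (z.d1 * z.d2 - norm z.x3)) := by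
  have e : bil (z.x1 * z.x2 * z.x3) 1 + bil (-z.x1 * -z.x2 * -z.x3) 1 = 0 := by
    rw [neg_mul_neg, mul_neg, bil_neg_left, add_neg_cancel]
  simp only [Alb.cub, Alb.one, Alb.d1_add, Alb.d2_add, Alb.d3_add, Alb.x1_add, Alb.x2_add,
    Alb.x3_add, Alb.d1_sub, Alb.d2_sub, Alb.d3_sub, Alb.x1_sub, Alb.x2_sub, Alb.x3_sub, zero_add,
    zero_sub, Oct.norm_neg, Oct.norm_zero, mul_zero, bil_zero_left, sub_zero,
    Units.val_inv_eq_inv_val]
  linear_combination e

/-- The quadratic form attached to the base point is negative semidefinite on a hyperplane. -/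
theorem cub_one_nonpos {τ : F →+* ℝ} (hC : DefAt τ a b c) (g : Fin 3 → Fˣ)
    (hg : ∀ i, 0 < τ (g i)) (z : Alb a b c)
    (hz : (g 0 : F) * z.d1 + g 1 * z.d2 + g 2 * z.d3 = 0) :
    τ (Alb.cub (Alb.one a b c g + z) + Alb.cub (Alb.one a b c g - z)) ≤
      τ (2 * Alb.cub (Alb.one a b c g)) := by
  rw [cub_one_add, map_add]
  have h0 := hg 0
  have h1 := hg 1
  have h2 := hg 2
  have n1 := hC.norm_nonneg z.x1
  have n2 := hC.norm_nonneg z.x2
  have n3 := hC.norm_nonneg z.x3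
  have hz' := congrArg τ hz
  simp only [map_add, map_mul, map_zero] at hz'
  have key : τ (2 * ((g 0 : F)⁻¹ * (z.d2 * z.d3 - norm z.x1) +
        (g 1 : F)⁻¹ * (z.d3 * z.d1 - norm z.x2) + (g 2 : F)⁻¹ * (z.d1 * z.d2 - norm z.x3))) =
      -((τ (g 0))⁻¹ * (τ (g 1))⁻¹ * (τ (g 2))⁻¹ * ((τ (g 0) * τ z.d1) ^ 2 +
        (τ (g 1) * τ z.d2) ^ 2 + (τ (g 2) * τ z.d3) ^ 2) +
        2 * ((τ (g 0))⁻¹ * τ (norm z.x1) + (τ (g 1))⁻¹ * τ (norm z.x2) +
          (τ (g 2))⁻¹ * τ (norm z.x3))) := by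
    simp only [map_mul, map_add, map_sub, map_inv₀, map_ofNat]
    have e : (τ (g 0) * τ z.d1) ^ 2 + (τ (g 1) * τ z.d2) ^ 2 + (τ (g 2) * τ z.d3) ^ 2 =
        -2 * (τ (g 0) * τ z.d1 * (τ (g 1) * τ z.d2) + τ (g 1) * τ z.d2 * (τ (g 2) * τ z.d3) +
          τ (g 2) * τ z.d3 * (τ (g 0) * τ z.d1)) := by
      linear_combination (τ (g 0) * τ z.d1 + τ (g 1) * τ z.d2 + τ (g 2) * τ z.d3) * hz'
    rw [e]
    have h0' := h0.ne'
    have h1' := h1.ne'
    have h2' := h2.ne'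
    field_simp
    ring
  rw [key]
  have : 0 ≤ (τ (g 0))⁻¹ * (τ (g 1))⁻¹ * (τ (g 2))⁻¹ * ((τ (g 0) * τ z.d1) ^ 2 +
        (τ (g 1) * τ z.d2) ^ 2 + (τ (g 2) * τ z.d3) ^ 2) +
        2 * ((τ (g 0))⁻¹ * τ (norm z.x1) + (τ (g 1))⁻¹ * τ (norm z.x2) +
          (τ (g 2))⁻¹ * τ (norm z.x3)) := by positivity
  linarith

/-- (E7) The orbit of the base point is positive at the real places over which the octonion
algebra is definite. -/
theorem pos_of_orbit {τ : F →+* ℝ} (hC : DefAt τ a b c) (g : Fin 3 → Fˣ)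
    (hg : ∀ i, 0 < τ (g i)) (φ : Alb a b c ≃ₗ[F] Alb a b c)
    (hφ : ∀ x, Alb.cub (φ x) = Alb.cub x) (w1 w2 w3 : F) :
    0 ≤ τ (Alb.val (φ (Alb.one a b c g)) w1 w2 w3) := by
  by_contra hneg
  rw [not_le] at hneg
  obtain ⟨ha, hb, _⟩ := hC.neg
  let Y : Oct a b c → Alb a b c := fun i => ⟨0, 0, 0, w1 • i, w2 • i, w3 • i⟩
  have hY : ∀ (s t : F) (i j : Oct a b c), Y (s • i + t • j) = s • Y i + t • Y j := by
    intro s t i j
    ext1
    · simp [Y]
    · simp [Y]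
    · simp [Y]
    · simp only [Y, Alb.x1_add, Alb.x1_smul]; module
    · simp only [Y, Alb.x2_add, Alb.x2_smul]; module
    · simp only [Y, Alb.x3_add, Alb.x3_smul]; module
  let ℓ : Alb a b c → F := fun z => (g 0 : F) * z.d1 + g 1 * z.d2 + g 2 * z.d3
  have hℓ : ∀ (s t : F) (z z' : Alb a b c), ℓ (s • z + t • z') = s * ℓ z + t * ℓ z' := by
    intro s t z z'
    simp only [ℓ, Alb.d1_add, Alb.d2_add, Alb.d3_add, Alb.d1_smul, Alb.d2_smul, Alb.d3_smul]
    ring
  -- a pure element in the kernel of the linear form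
  obtain ⟨s, t, hst, h0⟩ : ∃ s t : F, (s ≠ 0 ∨ t ≠ 0) ∧
      s * ℓ (φ.symm (Y gi)) + t * ℓ (φ.symm (Y gj)) = 0 := by
    by_cases h : ℓ (φ.symm (Y gi)) = 0
    · exact ⟨1, 0, Or.inl one_ne_zero, by rw [h]; ring⟩
    · exact ⟨ℓ (φ.symm (Y gj)), -ℓ (φ.symm (Y gi)), Or.inr (neg_ne_zero.2 h), by ring⟩
  let i : Oct a b c := s • gi + t • gj
  have hi : bil i 1 = 0 := by
    simp [i, bil_eq, gi, gj]
  have hni : 0 < τ (norm i) := by
    have e : τ (norm i) = (-τ a) * τ s ^ 2 + (-τ b) * τ t ^ 2 := by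
      simp [i, Oct.norm, nrd, gi, gj]
      ring
    have ha' : 0 < -τ a := neg_pos.2 ha
    have hb' : 0 < -τ b := neg_pos.2 hb
    rw [e]
    rcases hst with h | h
    · have : τ s ≠ 0 := (map_ne_zero τ).2 h
      positivity
    · have : τ t ≠ 0 := (map_ne_zero τ).2 h
      positivity
  have hk : ℓ (φ.symm (Y i)) = 0 := by
    have e1 : φ.symm (Y i) = s • φ.symm (Y gi) + t • φ.symm (Y gj) := by
      rw [hY, map_add, map_smul, map_smul]
    rw [e1, hℓ, h0]
  have h1 := cub_one_nonpos hC g hg (φ.symm (Y i)) hk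
  have h2 : Alb.cub (Alb.one a b c g + φ.symm (Y i)) = Alb.cub (φ (Alb.one a b c g) + Y i) := by
    rw [← hφ, map_add, φ.apply_symm_apply]
  have h3 : Alb.cub (Alb.one a b c g - φ.symm (Y i)) = Alb.cub (φ (Alb.one a b c g) - Y i) := by
    rw [← hφ, map_sub, φ.apply_symm_apply]
  rw [h2, h3, cub_add_add_cub_sub _ _ _ _ i hi, hφ, map_sub] at h1
  have h4 : τ (2 * norm i * Alb.val (φ (Alb.one a b c g)) w1 w2 w3) < 0 := by
    rw [map_mul, map_mul, map_ofNat]
    exact mul_neg_of_pos_of_neg (by positivity) hneg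
  linarith

end Vale.Agent.P011.E6
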