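import Vale.Agent.P011.E6.Pos

/-!
(E7) Positivity: general form, elements of rank one, eigenvalues of symmetric matrices.
-/

namespace Vale.Agent.P011.E6

open Vale.Agent.P011.MPQ Vale.Agent.P011.D4 Vale.Agent.P011.D4.Oct

variable {F : Type} [Field F] {a b c a' b' c' : Fˣ}

/-- If the quadratic form attached to `x` is nonpositive on a hyperplane, the images of `x` under
similitudes of the cubic norm with positive multiplier are positive on the real vectors. -/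
theorem val_nonneg {τ : F →+* ℝ} (hC : DefAt τ a b c) (x : Alb a' b' c')
    (ℓ : Alb a' b' c' →ₗ[F] F)
    (hx : ∀ z, ℓ z = 0 → τ (Alb.cub (x + z) + Alb.cub (x - z)) ≤ τ (2 * Alb.cub x))
    (φ : Alb a' b' c' ≃ₗ[F] Alb a b c) {μ : F} (hμ : 0 < τ μ)
    (hφ : ∀ z, Alb.cub (φ z) = μ * Alb.cub z) (w1 w2 w3 : F) :
    0 ≤ τ (Alb.val (φ x) w1 w2 w3) := by
  by_contra hneg
  rw [not_le] at hneg
  obtain ⟨ha, hb, _⟩ := hC.neg
  let Y : Oct a b c → Alb a b c := fun i => ⟨0, 0, 0, w1 • i, w2 • i, w3 • i⟩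
  have hY : ∀ (s t : F) (i j : Oct a b c), Y (s • i + t • j) = s • Y i + t • Y j := by
    intro s t i j
    ext1
    · simp [Y]
    · simp [Y]
    · simp [Y]
    · simp only [Y, Alb.x1_add, Alb.x1_smul]; module
    · simp only [Y, Alb.x2_add, Alb.x2_smul]; module
    · simp only [Y, Alb.x3_add, Alb.x3_smul]; module
  obtain ⟨s, t, hst, h0⟩ : ∃ s t : F, (s ≠ 0 ∨ t ≠ 0) ∧
      s * ℓ (φ.symm (Y gi)) + t * ℓ (φ.symm (Y gj)) = 0 := by
    by_cases h : ℓ (φ.symm (Y gi)) = 0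
    · exact ⟨1, 0, Or.inl one_ne_zero, by rw [h]; ring⟩
    · exact ⟨ℓ (φ.symm (Y gj)), -ℓ (φ.symm (Y gi)), Or.inr (neg_ne_zero.2 h), by ring⟩
  let i : Oct a b c := s • gi + t • gj
  have hi : bil i 1 = 0 := by
    simp [i, bil_eq, gi, gj]
  have hni : 0 < τ (norm i) := by
    have e : τ (norm i) = (-τ a) * τ s ^ 2 + (-τ b) * τ t ^ 2 := by
      simp [i, Oct.norm, nrd, gi, gj]
      ring
    have ha' : 0 < -τ a := neg_pos.2 ha
    have hb' : 0 < -τ b := neg_pos.2 hb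
    rw [e]
    rcases hst with h | h
    · have : τ s ≠ 0 := (map_ne_zero τ).2 h
      positivity
    · have : τ t ≠ 0 := (map_ne_zero τ).2 h
      positivity
  have hk : ℓ (φ.symm (Y i)) = 0 := by
    have e1 : φ.symm (Y i) = s • φ.symm (Y gi) + t • φ.symm (Y gj) := by
      rw [hY, map_add, map_smul, map_smul]
    rw [e1, map_add, map_smul, map_smul, smul_eq_mul, smul_eq_mul, h0]
  have h1 := hx _ hk
  have h2 : μ * Alb.cub (x + φ.symm (Y i)) = Alb.cub (φ x + Y i) := by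
    rw [← hφ, map_add, φ.apply_symm_apply]
  have h3 : μ * Alb.cub (x - φ.symm (Y i)) = Alb.cub (φ x - Y i) := by
    rw [← hφ, map_sub, φ.apply_symm_apply]
  have h5 : τ (Alb.cub (φ x + Y i) + Alb.cub (φ x - Y i)) ≤ τ (2 * Alb.cub (φ x)) := by
    rw [← h2, ← h3, ← mul_add, map_mul, hφ x, ← mul_assoc, mul_comm (2 : F) μ, mul_assoc, map_mul]
    exact mul_le_mul_of_nonneg_left h1 hμ.le
  rw [cub_add_add_cub_sub _ _ _ _ i hi, map_sub] at h5
  have h4 : τ (2 * norm i * Alb.val (φ x) w1 w2 w3) < 0 := by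
    rw [map_mul, map_mul, map_ofNat]
    exact mul_neg_of_pos_of_neg (by positivity) hneg
  linarith

/-- The trace form with the base point, as a linear form. -/
def trG (g : Fin 3 → Fˣ) : Alb a b c →ₗ[F] F where
  toFun z := (g 0 : F) * z.d1 + g 1 * z.d2 + g 2 * z.d3
  map_add' x y := by
    simp only [Alb.d1_add, Alb.d2_add, Alb.d3_add]
    ring
  map_smul' t x := by
    simp only [Alb.d1_smul, Alb.d2_smul, Alb.d3_smul, smul_eq_mul, RingHom.id_apply]
    ring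

/-- (E7), general form: the base point of any coordinates is sent to a positive element. -/
theorem pos_of_orbit' {τ : F →+* ℝ} (hC : DefAt τ a b c) (hC' : DefAt τ a' b' c')
    (g : Fin 3 → Fˣ) (hg : ∀ i, 0 < τ (g i)) (φ : Alb a' b' c' ≃ₗ[F] Alb a b c) {μ : F}
    (hμ : 0 < τ μ) (hφ : ∀ z, Alb.cub (φ z) = μ * Alb.cub z) (w1 w2 w3 : F) :
    0 ≤ τ (Alb.val (φ (Alb.one a' b' c' g)) w1 w2 w3) :=
  val_nonneg hC _ (trG g) (fun z hz => cub_one_nonpos hC' g hg z hz) φ hμ hφ w1 w2 w3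

/-! Elements of rank one. -/

/-- The rank one matrix `w wᵗ`. -/
def rk (a b c : Fˣ) (w1 w2 w3 : F) : Alb a b c :=
  ⟨w1 ^ 2, w2 ^ 2, w3 ^ 2, (w2 * w3) • 1, (w3 * w1) • 1, (w1 * w2) • 1⟩

theorem bil_one_one : bil (1 : Oct a b c) 1 = 2 := by
  rw [bil_self, Oct.norm_one, mul_one]

theorem val_rk (t w1 w2 w3 u1 u2 u3 : F) : Alb.val (t • rk a b c w1 w2 w3) u1 u2 u3 =
    t * (w1 * u1 + w2 * u2 + w3 * u3) ^ 2 := by
  simp only [Alb.val, rk, Alb.d1_smul, Alb.d2_smul, Alb.d3_smul, Alb.x1_smul, Alb.x2_smul,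
    Alb.x3_smul, bil_smul_left, bil_one_one]
  ring

/-- The quadratic form attached to the first idempotent. -/
theorem cub_e1_add (t : F) (z : Alb a b c) :
    Alb.cub (t • Alb.e1 + z) + Alb.cub (t • Alb.e1 - z) =
      2 * Alb.cub (t • (Alb.e1 : Alb a b c)) + 2 * t * (z.d2 * z.d3 - norm z.x1) := by
  have e : bil (z.x1 * z.x2 * z.x3) 1 + bil (-z.x1 * -z.x2 * -z.x3) 1 = 0 := by
    rw [neg_mul_neg, mul_neg, bil_neg_left, add_neg_cancel]
  simp only [Alb.cub, Alb.e1, Alb.d1_add, Alb.d2_add, Alb.d3_add, Alb.x1_add, Alb.x2_add,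
    Alb.x3_add, Alb.d1_sub, Alb.d2_sub, Alb.d3_sub, Alb.x1_sub, Alb.x2_sub, Alb.x3_sub,
    Alb.d1_smul, Alb.d2_smul, Alb.d3_smul, Alb.x1_smul, Alb.x2_smul, Alb.x3_smul, smul_zero,
    zero_add, zero_sub, Oct.norm_neg, Oct.norm_zero, mul_zero, bil_zero_left, sub_zero, mul_one]
  linear_combination e

/-- (E7) The sign of an element of rank one in the orbit of a multiple of `e1`. -/
theorem sign_of_e1 {τ : F →+* ℝ} (hC : DefAt τ a b c) (hC' : DefAt τ a' b' c')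
    (φ : Alb a' b' c' ≃ₗ[F] Alb a b c) {μ : F} (hμ : 0 < τ μ)
    (hφ : ∀ z, Alb.cub (φ z) = μ * Alb.cub z) {s t : F} (hs : 0 < τ s) {w1 w2 w3 : F}
    (h : φ (s • Alb.e1) = t • rk a b c w1 w2 w3) : 0 < τ t := by
  have h1 : ∀ z : Alb a' b' c', (z.d2 + z.d3 = 0) →
      τ (Alb.cub (s • Alb.e1 + z) + Alb.cub (s • Alb.e1 - z)) ≤
        τ (2 * Alb.cub (s • (Alb.e1 : Alb a' b' c'))) := by
    intro z hz
    rw [cub_e1_add, map_add]
    have e : z.d3 = -z.d2 := by linear_combination hz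
    have h2 : τ (2 * s * (z.d2 * z.d3 - norm z.x1)) = -(2 * τ s * (τ z.d2 ^ 2 + τ (norm z.x1))) := by
      rw [e]
      simp only [map_mul, map_sub, map_neg, map_ofNat]
      ring
    rw [h2]
    have := hC'.norm_nonneg z.x1
    have : 0 ≤ 2 * τ s * (τ z.d2 ^ 2 + τ (norm z.x1)) := by positivity
    linarith
  let ℓ : Alb a' b' c' →ₗ[F] F :=
    { toFun := fun z => z.d2 + z.d3
      map_add' := fun x y => by simp only [Alb.d2_add, Alb.d3_add]; ring
      map_smul' := fun t x => by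
        simp only [Alb.d2_smul, Alb.d3_smul, smul_eq_mul, RingHom.id_apply]; ring }
  have h2 := val_nonneg hC _ ℓ (fun z hz => h1 z hz) φ hμ hφ w1 w2 w3
  rw [h, val_rk, map_mul] at h2
  have hs0 : s ≠ 0 := by
    rintro rfl
    simp at hs
  have h3 : t • rk a b c w1 w2 w3 ≠ 0 := by
    rw [← h]
    intro h4
    have h5 : s • (Alb.e1 : Alb a' b' c') = 0 := by
      rw [← φ.symm_apply_apply (s • Alb.e1), h4, map_zero]
    have h6 := congrArg Alb.d1 h5
    simp only [Alb.d1_smul, Alb.e1, mul_one, Alb.d1_zero] at h6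
    exact hs0 h6
  have ht : t ≠ 0 := by
    rintro rfl
    exact h3 (zero_smul _ _)
  have hw : w1 ≠ 0 ∨ w2 ≠ 0 ∨ w3 ≠ 0 := by
    by_contra hw
    push Not at hw
    obtain ⟨rfl, rfl, rfl⟩ := hw
    apply h3
    ext1 <;> simp [rk]
  have h4 : 0 < τ ((w1 * w1 + w2 * w2 + w3 * w3) ^ 2) := by
    have e : τ ((w1 * w1 + w2 * w2 + w3 * w3) ^ 2) = (τ w1 ^ 2 + τ w2 ^ 2 + τ w3 ^ 2) ^ 2 := by
      simp only [map_pow, map_add, map_mul]
      ring
    rw [e]
    rcases hw with h | h | h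
    · have : τ w1 ≠ 0 := (map_ne_zero τ).2 h
      positivity
    · have : τ w2 ≠ 0 := (map_ne_zero τ).2 h
      positivity
    · have : τ w3 ≠ 0 := (map_ne_zero τ).2 h
      positivity
  have h5 : 0 ≤ τ t := nonneg_of_mul_nonneg_left h2 h4
  exact lt_of_le_of_ne h5 (fun h => ht ((map_eq_zero τ).1 h.symm))

/-- (E7) The signs agree. -/
theorem sign_of_e1' {τ : F →+* ℝ} (hC : DefAt τ a b c) (hC' : DefAt τ a' b' c')
    (φ : Alb a' b' c' ≃ₗ[F] Alb a b c) {μ : F} (hμ : 0 < τ μ)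
    (hφ : ∀ z, Alb.cub (φ z) = μ * Alb.cub z) {s t : F} (hs : s ≠ 0) {w1 w2 w3 : F}
    (h : φ (s • Alb.e1) = t • rk a b c w1 w2 w3) : 0 < τ (s * t) := by
  rcases lt_or_gt_of_ne ((map_ne_zero τ).2 hs) with h1 | h1
  · have h2 : 0 < τ (-t) := by
      refine sign_of_e1 hC hC' φ hμ hφ (s := -s) (by rw [map_neg]; linarith) (w1 := w1) (w2 := w2)
        (w3 := w3) ?_
      rw [neg_smul, map_neg, h, neg_smul]
    rw [map_neg] at h2
    rw [map_mul]
    exact mul_pos_of_neg_of_neg h1 (by linarith)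
  · have h2 := sign_of_e1 hC hC' φ hμ hφ h1 h
    rw [map_mul]
    exact mul_pos h1 h2

/-! Real vectors and eigenvalues. -/

theorem val_real {τ : F →+* ℝ} {x : Alb a b c} (h : ∀ w1 w2 w3 : F, 0 ≤ τ (Alb.val x w1 w2 w3))
    (w1 w2 w3 : ℝ) : 0 ≤ τ x.d1 * w1 ^ 2 + τ x.d2 * w2 ^ 2 + τ x.d3 * w3 ^ 2 +
      w2 * w3 * τ (bil x.x1 1) + w3 * w1 * τ (bil x.x2 1) + w1 * w2 * τ (bil x.x3 1) := by
  have hd : DenseRange (fun q : ℚ => (q : ℝ)) := Rat.denseRange_cast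
  refine hd.induction_on₃ (p := fun w1 w2 w3 : ℝ => 0 ≤ τ x.d1 * w1 ^ 2 + τ x.d2 * w2 ^ 2 +
      τ x.d3 * w3 ^ 2 + w2 * w3 * τ (bil x.x1 1) + w3 * w1 * τ (bil x.x2 1) +
      w1 * w2 * τ (bil x.x3 1)) ?_ ?_ w1 w2 w3
  · exact isClosed_le continuous_const (by fun_prop)
  · intro q1 q2 q3
    have : CharZero F := τ.charZero
    have h1 := h q1 q2 q3
    simpa [Alb.val, map_ratCast] using h1

theorem val_ofF {S : Matrix (Fin 3) (Fin 3) F} (hS : S.IsSymm) (w1 w2 w3 : F) :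
    Alb.val (Alb.ofF S : Alb a b c) w1 w2 w3 =
      dotProduct ![w1, w2, w3] (S.mulVec ![w1, w2, w3]) := by
  have h10 : S 1 0 = S 0 1 := hS.apply 0 1
  have h21 : S 2 1 = S 1 2 := hS.apply 1 2
  have h02 : S 0 2 = S 2 0 := hS.apply 2 0
  simp only [Alb.val, Alb.ofF, bil_smul_left, bil_one_one, dotProduct, Matrix.mulVec,
    Fin.sum_univ_three, Matrix.cons_val_zero, Matrix.cons_val_one, Matrix.cons_val, h10, h21, h02]
  ring

theorem val_ofF_real {τ : F →+* ℝ} {S : Matrix (Fin 3) (Fin 3) F} (hS : S.IsSymm)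
    (h : ∀ w1 w2 w3 : F, 0 ≤ τ (Alb.val (Alb.ofF S : Alb a b c) w1 w2 w3)) (w : Fin 3 → ℝ) :
    0 ≤ dotProduct w ((S.map τ).mulVec w) := by
  have h10 : S 1 0 = S 0 1 := hS.apply 0 1
  have h21 : S 2 1 = S 1 2 := hS.apply 1 2
  have h02 : S 0 2 = S 2 0 := hS.apply 2 0
  have h1 := val_real h (w 0) (w 1) (w 2)
  refine h1.trans (le_of_eq ?_)
  simp only [Alb.ofF, bil_smul_left, bil_one_one, dotProduct, Matrix.mulVec,
    Fin.sum_univ_three, Matrix.map_apply, h10, h21, h02, map_mul, map_ofNat]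
  ring

/-- (E7) The real eigenvalues of `S Γ` are positive if `x = S` is in the orbit of the base
point. -/
theorem eig_pos {τ : F →+* ℝ} {S : Matrix (Fin 3) (Fin 3) F} (hS : S.IsSymm) (hdet : S.det ≠ 0)
    (h : ∀ w1 w2 w3 : F, 0 ≤ τ (Alb.val (Alb.ofF S : Alb a b c) w1 w2 w3)) (g : Fin 3 → Fˣ)
    (hg : ∀ i, 0 < τ (g i)) {ξ : ℝ} {u : Fin 3 → ℝ} (hu : u ≠ 0)
    (he : (S.map τ * Matrix.diagonal fun i => τ (g i)).mulVec u = ξ • u) : 0 < ξ := by
  set w : Fin 3 → ℝ := (Matrix.diagonal fun i => τ (g i)).mulVec u with hw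
  have hSw : (S.map τ).mulVec w = ξ • u := by
    rw [hw, Matrix.mulVec_mulVec, he]
  have h1 := val_ofF_real hS h w
  rw [hSw, dotProduct_smul, smul_eq_mul] at h1
  have h2 : dotProduct w u = τ (g 0) * u 0 ^ 2 + τ (g 1) * u 1 ^ 2 + τ (g 2) * u 2 ^ 2 := by
    rw [hw, dotProduct, Fin.sum_univ_three]
    simp only [Matrix.mulVec_diagonal]
    ring
  have h3 : 0 < dotProduct w u := by
    rw [h2]
    have g0 := hg 0
    have g1 := hg 1
    have g2 := hg 2
    by_cases e0 : u 0 = 0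
    · by_cases e1 : u 1 = 0
      · by_cases e2 : u 2 = 0
        · exfalso
          apply hu
          funext i
          fin_cases i
          · exact e0
          · exact e1
          · exact e2
        · positivity
      · positivity
    · positivity
  have h4 : 0 ≤ ξ := nonneg_of_mul_nonneg_left h1 h3
  refine lt_of_le_of_ne h4 ?_
  rintro rfl
  rw [zero_smul] at hSw
  have hw0 : w = 0 := by
    apply Matrix.eq_zero_of_mulVec_eq_zero _ hSw
    rw [← RingHom.mapMatrix_apply, ← RingHom.map_det]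
    exact (map_ne_zero τ).2 hdet
  rw [hw0, zero_dotProduct] at h3
  exact lt_irrefl _ h3

end Vale.Agent.P011.E6
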