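import Vale.Agent.P011.E6.Defs
import Vale.Agent.P011.E6.H64.Her

/-!
Quasi-reflections of diagonal hermitian forms of degree three: a vector of the same length as a
basis vector is the image of the basis vector under a unitary matrix of reduced norm one.
-/

open Matrix

namespace Vale.Agent.P011.E6

open Vale.Agent.P011.MPQ Vale.Agent.P011.D4 Vale.Agent.P011.D4.Oct

section ring

variable {R : Type} [Ring R] [StarRing R] {n p : Type} [Fintype n] [DecidableEq n]
  [Fintype p] [DecidableEq p]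

/-- The quasi-reflection, in abstract form: it is unitary. -/
theorem refl_unitary (G : Matrix n n R) (hG : Gᴴ = G) (V : Matrix n p R) (r q : Matrix p p R)
    (h2 : q * r = 1) (hV : Vᴴ * G * V = q + qᴴ) :
    (1 - V * r * Vᴴ * G)ᴴ * G * (1 - V * r * Vᴴ * G) = G := by
  have h3 : rᴴ * qᴴ = 1 := by rw [← conjTranspose_mul, h2, conjTranspose_one]
  have e1 : (1 - V * r * Vᴴ * G)ᴴ = 1 - G * V * rᴴ * Vᴴ := by
    simp only [conjTranspose_sub, conjTranspose_one, conjTranspose_mul, hG,
      conjTranspose_conjTranspose, Matrix.mul_assoc]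
  rw [e1]
  have e2 : G * V * rᴴ * Vᴴ * G * (V * r * Vᴴ * G) =
      G * V * r * Vᴴ * G + G * V * rᴴ * Vᴴ * G := by
    calc G * V * rᴴ * Vᴴ * G * (V * r * Vᴴ * G) = G * V * (rᴴ * (Vᴴ * G * V) * r) * (Vᴴ * G) := by
          simp only [Matrix.mul_assoc]
      _ = G * V * (r + rᴴ) * (Vᴴ * G) := by
          rw [hV]
          congr 2
          rw [Matrix.mul_add, Matrix.add_mul, h3, Matrix.one_mul, Matrix.mul_assoc, h2,
            Matrix.mul_one, add_comm]
      _ = G * V * r * Vᴴ * G + G * V * rᴴ * Vᴴ * G := by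
          simp only [Matrix.mul_assoc, Matrix.mul_add, Matrix.add_mul]
  calc (1 - G * V * rᴴ * Vᴴ) * G * (1 - V * r * Vᴴ * G) =
      G - G * V * r * Vᴴ * G - G * V * rᴴ * Vᴴ * G + G * V * rᴴ * Vᴴ * G * (V * r * Vᴴ * G) := by
        simp only [Matrix.mul_assoc, Matrix.mul_sub, Matrix.sub_mul, Matrix.one_mul,
          Matrix.mul_one]
        abel
    _ = G := by
        rw [e2]
        abel

/-- The quasi-reflection, in abstract form: the other side. -/
theorem refl_unitary' (G G' : Matrix n n R) (hG : Gᴴ = G) (hGG : G * G' = 1) (hGG' : G' * G = 1)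
    (V : Matrix n p R) (r q : Matrix p p R) (h1 : r * q = 1) (hV : Vᴴ * G * V = q + qᴴ) :
    (1 - V * r * Vᴴ * G) * G' * (1 - V * r * Vᴴ * G)ᴴ = G' := by
  have h3 : qᴴ * rᴴ = 1 := by rw [← conjTranspose_mul, h1, conjTranspose_one]
  have e1 : (1 - V * r * Vᴴ * G)ᴴ = 1 - G * V * rᴴ * Vᴴ := by
    simp only [conjTranspose_sub, conjTranspose_one, conjTranspose_mul, hG,
      conjTranspose_conjTranspose, Matrix.mul_assoc]
  rw [e1]
  have e2 : V * r * Vᴴ * (G * G') * (G * V * rᴴ * Vᴴ) =
      V * r * Vᴴ + V * rᴴ * Vᴴ := by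
    calc V * r * Vᴴ * (G * G') * (G * V * rᴴ * Vᴴ) = V * (r * (Vᴴ * G * V) * rᴴ) * Vᴴ := by
          rw [hGG]
          simp only [Matrix.mul_assoc, Matrix.one_mul]
      _ = V * (rᴴ + r) * Vᴴ := by
          rw [hV]
          congr 2
          rw [Matrix.mul_add, Matrix.add_mul, h1, Matrix.one_mul, Matrix.mul_assoc, h3,
            Matrix.mul_one]
      _ = V * r * Vᴴ + V * rᴴ * Vᴴ := by
          simp only [Matrix.mul_add, Matrix.add_mul]
          abel
  calc (1 - V * r * Vᴴ * G) * G' * (1 - G * V * rᴴ * Vᴴ) =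
      G' - V * r * Vᴴ * (G * G') - (G' * G) * V * rᴴ * Vᴴ +
        V * r * Vᴴ * (G * G') * (G * V * rᴴ * Vᴴ) := by
        simp only [Matrix.mul_assoc, Matrix.mul_sub, Matrix.sub_mul, Matrix.one_mul,
          Matrix.mul_one]
        abel
    _ = G' := by
        rw [e2, hGG, hGG', Matrix.mul_one, Matrix.one_mul]
        abel

end ring

section quat

variable {F : Type} [Field F] {a b : Fˣ}

theorem star_aM (t : F) : star (algebraMap F (Qt a b) t) = algebraMap F (Qt a b) t :=
  H64.star_coe' t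

theorem star_mul_aM (t : F) (x : Qt a b) :
    star x * algebraMap F (Qt a b) t * x = algebraMap F (Qt a b) (t * nrd x) := by
  rw [← Algebra.commutes, mul_assoc, H64.star_mul_qt, map_mul]
  rfl

theorem dg_conjTranspose (g : Fin 3 → Fˣ) : (dg a b g)ᴴ = dg a b g := by
  rw [dg, diagonal_conjTranspose]
  congr 1
  funext i
  exact star_aM _

/-- The inverse of the diagonal matrix. -/
def dgi (a b : Fˣ) (g : Fin 3 → Fˣ) : Matrix (Fin 3) (Fin 3) (Qt a b) :=
  Matrix.diagonal fun i => algebraMap F (Qt a b) ((g i)⁻¹ : Fˣ)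

theorem dg_mul_dgi (g : Fin 3 → Fˣ) : dg a b g * dgi a b g = 1 := by
  rw [dg, dgi, diagonal_mul_diagonal, ← diagonal_one]
  congr 1
  funext i
  rw [← map_mul, Units.mul_inv, map_one]

theorem dgi_mul_dg (g : Fin 3 → Fˣ) : dgi a b g * dg a b g = 1 := by
  rw [dg, dgi, diagonal_mul_diagonal, ← diagonal_one]
  congr 1
  funext i
  rw [← map_mul, Units.inv_mul, map_one]

/-- A vector with the same length as a basis vector is the image of the basis vector under a
unitary matrix of reduced norm one that fixes all the basis vectors orthogonal to the vector. -/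
theorem exists_refl (g : Fin 3 → Fˣ) (u : Fin 3 → Qt a b) (i0 : Fin 3)
    (hu : ∑ j, (g j : F) * nrd (u j) = g i0)
    (h0 : nrd (1 - u i0) ≠ 0 ∨ u = Pi.single i0 1) :
    ∃ m : (Matrix (Fin 3) (Fin 3) (Qt a b))ˣ,
      (m : Matrix (Fin 3) (Fin 3) (Qt a b))ᴴ * dg a b g * (m : Matrix (Fin 3) (Fin 3) (Qt a b)) =
        dg a b g ∧
      (∀ i, (m : Matrix (Fin 3) (Fin 3) (Qt a b)) i i0 = u i) ∧
      (∀ j, j ≠ i0 → u j = 0 → ∀ i, (m : Matrix (Fin 3) (Fin 3) (Qt a b)) i j =
        (1 : Matrix (Fin 3) (Fin 3) (Qt a b)) i j) ∧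
      ∀ {F' : Type} [Field F'] [Algebra F F'] (f : Qt a b →ₐ[F] Matrix (Fin 2) (Fin 2) F'),
        (∀ x, (f x).det = algebraMap F F' (nrd x)) →
          H64.rN f (m : Matrix (Fin 3) (Fin 3) (Qt a b)) = 1 := by
  rcases h0 with h0 | h0
  · obtain ⟨v, hv⟩ : ∃ v : Fin 3 → Qt a b, v = fun i => (1 : Matrix (Fin 3) (Fin 3) (Qt a b)) i i0
      - u i := ⟨_, rfl⟩
    obtain ⟨q, hq⟩ : ∃ q : Qt a b, q = star (v i0) * algebraMap F (Qt a b) (g i0) := ⟨_, rfl⟩
    have hvi : v i0 = 1 - u i0 := by rw [hv]; simp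
    have hq0 : nrd q ≠ 0 := by
      rw [hq, nrd_mul, hvi]
      refine mul_ne_zero ?_ ?_
      · have e : nrd (star (1 - u i0)) = nrd (1 - u i0) := by
          simp only [nrd, QuaternionAlgebra.re_star, QuaternionAlgebra.imI_star,
            QuaternionAlgebra.imJ_star, QuaternionAlgebra.imK_star]
          ring
        rw [e]
        exact h0
      · have e : nrd (algebraMap F (Qt a b) (g i0)) = (g i0 : F) ^ 2 := by
          change nrd (((g i0 : F)) : Qt a b) = _
          simp [nrd]
        rw [e]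
        exact pow_ne_zero 2 (g i0).ne_zero
    obtain ⟨qu, hqu⟩ := H64.isUnit_of_nrd hq0
    obtain ⟨r, hr⟩ : ∃ r : Qt a b, r = ((qu⁻¹ : (Qt a b)ˣ) : Qt a b) := ⟨_, rfl⟩
    have hrq : r * q = 1 := by rw [hr, ← hqu]; exact qu.inv_mul
    have hqr : q * r = 1 := by rw [hr, ← hqu]; exact qu.mul_inv
    obtain ⟨V, hV⟩ : ∃ V : Matrix (Fin 3) (Fin 1) (Qt a b), V = Matrix.of fun i _ => v i :=
      ⟨_, rfl⟩
    obtain ⟨R, hR⟩ : ∃ R : Matrix (Fin 1) (Fin 1) (Qt a b), R = Matrix.of fun _ _ => r :=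
      ⟨_, rfl⟩
    obtain ⟨P, hP⟩ : ∃ P : Matrix (Fin 1) (Fin 1) (Qt a b), P = Matrix.of fun _ _ => q :=
      ⟨_, rfl⟩
    have h11 : ∀ {x y : Matrix (Fin 1) (Fin 1) (Qt a b)}, x 0 0 = y 0 0 → x = y := by
      intro x y h
      ext i j : 1
      rw [Subsingleton.elim i 0, Subsingleton.elim j 0, h]
    have hRP : R * P = 1 := h11 (by rw [hR, hP, Matrix.mul_apply]; simpa using hrq)
    have hPR : P * R = 1 := h11 (by rw [hR, hP, Matrix.mul_apply]; simpa using hqr)
    have hVV : Vᴴ * dg a b g * V = P + Pᴴ := by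
      apply h11
      have e1 : (Vᴴ * dg a b g * V) 0 0 =
          algebraMap F (Qt a b) (∑ j, (g j : F) * nrd (v j)) := by
        rw [Matrix.mul_apply, map_sum]
        refine Finset.sum_congr rfl fun j _ => ?_
        rw [dg, Matrix.mul_diagonal, conjTranspose_apply, hV, Matrix.of_apply, star_mul_aM]
      have e2 : ∑ j, (g j : F) * nrd (v j) = (g i0 : F) * (2 - 2 * (u i0).re) := by
        have e3 : ∀ j, (g j : F) * nrd (v j) = (g j : F) * nrd (u j) +
            if j = i0 then (g i0 : F) * (1 - 2 * (u i0).re) else 0 := by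
          intro j
          by_cases hj : j = i0
          · subst hj
            rw [if_pos rfl, hvi]
            simp only [nrd, QuaternionAlgebra.re_sub, QuaternionAlgebra.re_one,
              QuaternionAlgebra.imI_sub, QuaternionAlgebra.imI_one, QuaternionAlgebra.imJ_sub,
              QuaternionAlgebra.imJ_one, QuaternionAlgebra.imK_sub, QuaternionAlgebra.imK_one]
            ring
          · rw [if_neg hj, add_zero, hv]
            simp only [Matrix.one_apply_ne hj, zero_sub]
            congr 1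
            simp only [nrd, QuaternionAlgebra.re_neg, QuaternionAlgebra.imI_neg,
              QuaternionAlgebra.imJ_neg, QuaternionAlgebra.imK_neg]
            ring
        rw [Finset.sum_congr rfl fun j _ => e3 j, Finset.sum_add_distrib, hu,
          Finset.sum_ite_eq' Finset.univ i0, if_pos (Finset.mem_univ _)]
        ring
      obtain ⟨s, hs⟩ : ∃ s : F, s = (g i0 : F) * (2 - 2 * (u i0).re) := ⟨_, rfl⟩
      rw [e1, e2, hP, hq, hvi, ← hs]
      change ((s : F) : Qt a b) =
        star (1 - u i0) * ((g i0 : F) : Qt a b) + star (star (1 - u i0) * ((g i0 : F) : Qt a b))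
      ext
      · simp
        rw [hs]
        ring
      · simp [mul_comm]
      · simp [mul_comm]
      · simp [mul_comm]
    refine ⟨⟨1 - V * R * Vᴴ * dg a b g, dgi a b g * (1 - V * R * Vᴴ * dg a b g)ᴴ * dg a b g,
      ?_, ?_⟩, ?_, ?_, ?_, ?_⟩
    · rw [← Matrix.mul_assoc, ← Matrix.mul_assoc, refl_unitary' (dg a b g) (dgi a b g)
        (dg_conjTranspose g) (dg_mul_dgi g) (dgi_mul_dg g) V R P hRP hVV, dgi_mul_dg]
    · rw [Matrix.mul_assoc, Matrix.mul_assoc, ← Matrix.mul_assoc _ (dg a b g),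
        refl_unitary (dg a b g) (dg_conjTranspose g) V R P hPR hVV, dgi_mul_dg]
    · exact refl_unitary (dg a b g) (dg_conjTranspose g) V R P hPR hVV
    · intro i
      change (1 - V * R * Vᴴ * dg a b g : Matrix (Fin 3) (Fin 3) (Qt a b)) i i0 = u i
      rw [Matrix.sub_apply, dg, Matrix.mul_diagonal, Matrix.mul_apply, Fin.sum_univ_one,
        Matrix.mul_apply, Fin.sum_univ_one, conjTranspose_apply, hV, Matrix.of_apply,
        Matrix.of_apply, hR, Matrix.of_apply, mul_assoc, mul_assoc, ← hq, hrq, mul_one, hv]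
      exact sub_sub_cancel _ _
    · intro j hj huj i
      change (1 - V * R * Vᴴ * dg a b g : Matrix (Fin 3) (Fin 3) (Qt a b)) i j = _
      rw [Matrix.sub_apply, dg, Matrix.mul_diagonal, Matrix.mul_apply, Fin.sum_univ_one,
        conjTranspose_apply, hV, Matrix.of_apply, hv]
      simp only [Matrix.one_apply_ne hj, huj, sub_zero, star_zero, mul_zero, zero_mul]
    · intro F' _ _ f hf
      change H64.rN f (1 - V * R * Vᴴ * dg a b g) = 1
      have e1 : 1 - V * R * Vᴴ * dg a b g = 1 + V * (-(R * Vᴴ * dg a b g)) := by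
        simp only [Matrix.mul_assoc, Matrix.mul_neg, sub_eq_add_neg]
      have e2 : 1 + -(R * Vᴴ * dg a b g) * V = -(R * Pᴴ) := by
        have e3 : R * Vᴴ * dg a b g * V = 1 + R * Pᴴ := by
          rw [Matrix.mul_assoc, Matrix.mul_assoc, ← Matrix.mul_assoc Vᴴ, hVV, Matrix.mul_add, hRP]
        rw [Matrix.neg_mul, e3]
        abel
      rw [e1, H64.rN_one_add_mul_comm, e2, H64.rN_fin_one, hf]
      have e4 : (-(R * Pᴴ)) 0 0 = -(r * star q) := by
        rw [Matrix.neg_apply, Matrix.mul_apply, Fin.sum_univ_one, conjTranspose_apply, hR, hP,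
          Matrix.of_apply, Matrix.of_apply]
      have e5 : nrd (-(r * star q)) = nrd (r * q) := by
        have e6 : nrd (star q) = nrd q := by
          simp only [nrd, QuaternionAlgebra.re_star, QuaternionAlgebra.imI_star,
            QuaternionAlgebra.imJ_star, QuaternionAlgebra.imK_star]
          ring
        have e7 : ∀ x : Qt a b, nrd (-x) = nrd x := by
          intro x
          simp only [nrd, QuaternionAlgebra.re_neg, QuaternionAlgebra.imI_neg,
            QuaternionAlgebra.imJ_neg, QuaternionAlgebra.imK_neg]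
          ring
        rw [e7, nrd_mul, nrd_mul, e6]
      rw [e4, e5, hrq, nrd_one, map_one]
  · refine ⟨1, ?_, ?_, ?_, ?_⟩
    · rw [Units.val_one, conjTranspose_one, Matrix.one_mul, Matrix.mul_one]
    · intro i
      rw [Units.val_one, h0]
      by_cases hi : i = i0
      · rw [hi, Matrix.one_apply_eq, Pi.single_eq_same]
      · rw [Matrix.one_apply_ne hi, Pi.single_eq_of_ne hi]
    · intro j hj huj i
      rw [Units.val_one]
    · intro F' _ _ f hf
      rw [Units.val_one, H64.rN_one]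

end quat

end Vale.Agent.P011.E6
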