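import Vale.Agent.P011.D4.B3
import Vale.Agent.P011.D4.H369.Two
import Vale.Agent.P011.D4.LongMem

/-!
The group of related triples of an octonion algebra, and its root subgroups.
-/

namespace Vale.Agent.P011.E6.Rl

open Vale.Agent.P011.MPQ Vale.Agent.P011.D4 Vale.Agent.P011.D4.Oct

variable {F : Type} [Field F] {a b c a' b' c' a'' b'' c'' : Fˣ}

/-- The linear automorphisms of the octonion algebra. -/
abbrev OE (a b c : Fˣ) : Type := Oct a b c ≃ₗ[F] Oct a b c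

/-- The group of related triples of similitudes. -/
def Rel (a b c : Fˣ) : Subgroup (OE a b c × OE a b c × OE a b c) where
  carrier := {t | (∀ x, norm (t.1 x) = norm x) ∧ (∀ x, norm (t.2.1 x) = norm x) ∧
    (∀ x, norm (t.2.2 x) = norm x) ∧
    ∀ x y z, bil (t.1 x * t.2.1 y * t.2.2 z) 1 = bil (x * y * z) 1}
  mul_mem' := by
    rintro s t ⟨h1, h2, h3, h4⟩ ⟨k1, k2, k3, k4⟩
    refine ⟨fun x => ?_, fun x => ?_, fun x => ?_, fun x y z => ?_⟩
    · exact (h1 _).trans (k1 _)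
    · exact (h2 _).trans (k2 _)
    · exact (h3 _).trans (k3 _)
    · exact (h4 _ _ _).trans (k4 _ _ _)
  one_mem' := ⟨fun _ => rfl, fun _ => rfl, fun _ => rfl, fun _ _ _ => rfl⟩
  inv_mem' := by
    rintro t ⟨h1, h2, h3, h4⟩
    have e : ∀ (f : OE a b c) (z : Oct a b c), f (f⁻¹ z) = z := fun f z => by
      rw [← LinearEquiv.mul_apply, mul_inv_cancel]; rfl
    refine ⟨fun x => ?_, fun x => ?_, fun x => ?_, fun x y z => ?_⟩
    · rw [← h1, Prod.fst_inv, e]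
    · rw [← h2, Prod.snd_inv, Prod.fst_inv, e]
    · rw [← h3, Prod.snd_inv, Prod.snd_inv, e]
    · rw [← h4, Prod.fst_inv, Prod.snd_inv, Prod.fst_inv, Prod.snd_inv, e, e, e]

theorem Rel.ext {r s : Rel a b c} (h1 : ∀ x, r.1.1 x = s.1.1 x) (h2 : ∀ x, r.1.2.1 x = s.1.2.1 x)
    (h3 : ∀ x, r.1.2.2 x = s.1.2.2 x) : r = s :=
  Subtype.ext (Prod.ext (LinearEquiv.ext h1) (Prod.ext (LinearEquiv.ext h2) (LinearEquiv.ext h3)))

theorem bil_of_norm {Φ : Oct a b c ≃ₗ[F] Oct a' b' c'} (h : ∀ x, norm (Φ x) = norm x)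
    (x y : Oct a b c) : bil (Φ x) (Φ y) = bil x y := by
  rw [bil, bil, ← map_add, h, h, h]

theorem tri_bil (x y z : Oct a b c) : bil (x * y * z) 1 = bil (x * y) (star z) := by
  rw [bil_mul_left', one_mul]

/-- Transport of related triples along an isomorphism of octonion algebras. -/
def conjR (Φ : Oct a' b' c' ≃ₗ[F] Oct a b c) (hΦ : ∀ x y, Φ (x * y) = Φ x * Φ y) :
    Rel a' b' c' →* Rel a b c where
  toFun r := ⟨((Φ.symm.trans r.1.1).trans Φ, (Φ.symm.trans r.1.2.1).trans Φ,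
    (Φ.symm.trans r.1.2.2).trans Φ), by
    have hn : ∀ x, norm (Φ.symm x) = norm x := fun x => by
      rw [← hom_norm hΦ, Φ.apply_symm_apply]
    have hm : ∀ x y, Φ.symm (x * y) = Φ.symm x * Φ.symm y := by
      intro x y
      apply Φ.injective
      rw [hΦ, Φ.apply_symm_apply, Φ.apply_symm_apply, Φ.apply_symm_apply]
    obtain ⟨h1, h2, h3, h4⟩ := r.2
    refine ⟨fun x => ?_, fun x => ?_, fun x => ?_, fun x y z => ?_⟩
    · change norm (Φ (r.1.1 (Φ.symm x))) = norm x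
      rw [hom_norm hΦ, h1, hn]
    · change norm (Φ (r.1.2.1 (Φ.symm x))) = norm x
      rw [hom_norm hΦ, h2, hn]
    · change norm (Φ (r.1.2.2 (Φ.symm x))) = norm x
      rw [hom_norm hΦ, h3, hn]
    · change bil (Φ (r.1.1 (Φ.symm x)) * Φ (r.1.2.1 (Φ.symm y)) * Φ (r.1.2.2 (Φ.symm z))) 1 = _
      rw [← hΦ, ← hΦ, (hom_tr hΦ _).1, h4, ← hm, ← hm, ← (hom_tr hΦ _).1, Φ.apply_symm_apply]⟩
  map_one' := by
    apply Rel.ext
    all_goals
      intro x
      exact Φ.apply_symm_apply x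
  map_mul' r s := by
    apply Rel.ext
    · intro x
      change Φ (r.1.1 (s.1.1 (Φ.symm x))) = Φ (r.1.1 (Φ.symm (Φ (s.1.1 (Φ.symm x)))))
      rw [Φ.symm_apply_apply]
    · intro x
      change Φ (r.1.2.1 (s.1.2.1 (Φ.symm x))) = Φ (r.1.2.1 (Φ.symm (Φ (s.1.2.1 (Φ.symm x)))))
      rw [Φ.symm_apply_apply]
    · intro x
      change Φ (r.1.2.2 (s.1.2.2 (Φ.symm x))) = Φ (r.1.2.2 (Φ.symm (Φ (s.1.2.2 (Φ.symm x)))))
      rw [Φ.symm_apply_apply]

/-- The automorphisms of the octonion algebra, as related triples. -/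
def autR (a b c : Fˣ) : AutC a b c →* Rel a b c where
  toFun g := ⟨(g.1, g.1, g.1), by
    refine ⟨aut_norm g, aut_norm g, aut_norm g, fun x y z => ?_⟩
    change bil (g.1 x * g.1 y * g.1 z) 1 = _
    rw [← g.2, ← g.2, (hom_tr g.2 _).1]⟩
  map_one' := rfl
  map_mul' _ _ := rfl

/-- Multiplication of the components by units. -/
def mulE (c : Fˣ) (u v u' v' : (Qt a b)ˣ) : OE a b c where
  toFun x := ⟨u * x.fst * v, u' * x.snd * v'⟩
  invFun x := ⟨((u⁻¹ : (Qt a b)ˣ) : Qt a b) * x.fst * ((v⁻¹ : (Qt a b)ˣ) : Qt a b),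
    ((u'⁻¹ : (Qt a b)ˣ) : Qt a b) * x.snd * ((v'⁻¹ : (Qt a b)ˣ) : Qt a b)⟩
  left_inv x := by
    ext1
    · simp [mul_assoc]
    · simp [mul_assoc]
  right_inv x := by
    ext1
    · simp [mul_assoc]
    · simp [mul_assoc]
  map_add' x y := by
    ext1
    · simp [mul_add, add_mul]
    · simp [mul_add, add_mul]
  map_smul' t x := by
    ext1
    · simp
    · simp

@[simp] theorem fst_mulE (u v u' v' : (Qt a b)ˣ) (x : Oct a b c) :
    (mulE c u v u' v' x).fst = u * x.fst * v := rfl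

@[simp] theorem snd_mulE (u v u' v' : (Qt a b)ˣ) (x : Oct a b c) :
    (mulE c u v u' v' x).snd = u' * x.snd * v' := rfl

theorem nrd_mul' (x y : Qt a b) : nrd (x * y) = nrd x * nrd y := by
  simp only [nrd, QuaternionAlgebra.re_mul, QuaternionAlgebra.imI_mul,
    QuaternionAlgebra.imJ_mul, QuaternionAlgebra.imK_mul]
  ring

theorem norm_mulE {u v u' v' : (Qt a b)ˣ} (hu : nrd (u : Qt a b) = 1) (hv : nrd (v : Qt a b) = 1)
    (hu' : nrd (u' : Qt a b) = 1) (hv' : nrd (v' : Qt a b) = 1) (x : Oct a b c) :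
    norm (mulE c u v u' v' x) = norm x := by
  rw [Oct.norm, Oct.norm, fst_mulE, snd_mulE, nrd_mul', nrd_mul', nrd_mul', nrd_mul', hu, hv, hu', hv']
  ring

theorem SL1_inv (t : SL1 a b) : (((t : (Qt a b)ˣ)⁻¹ : (Qt a b)ˣ) : Qt a b) =
    star ((t : (Qt a b)ˣ) : Qt a b) := by
  have h1 : nrd ((t : (Qt a b)ˣ) : Qt a b) = 1 := t.2
  have h2 : star ((t : (Qt a b)ˣ) : Qt a b) * ((t : (Qt a b)ˣ) : Qt a b) = 1 := by
    simp only [nrd] at h1
    ext
    · simp
      linear_combination h1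
    · simp
      ring
    · simp
      ring
    · simp
      ring
  exact (eq_comm.1 (left_inv_eq_right_inv h2 (Units.mul_inv _))).symm ▸ rfl

theorem nrd_one' : nrd (1 : Qt a b) = 1 := by simp [nrd]

theorem nrd_star' (x : Qt a b) : nrd (star x) = nrd x := by simp [nrd]

theorem bil_one (x : Oct a b c) : bil x 1 = 2 * x.fst.re := by
  simp [bil_eq]

/-- The first root subgroup. -/
def A1 (c : Fˣ) (t : SL1 a b) : Rel a b c :=
  ⟨(mulE c 1 1 1 t, mulE c 1 t 1 1, mulE c t⁻¹ 1 1 1), by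
    have h1 : nrd ((t : (Qt a b)ˣ) : Qt a b) = 1 := t.2
    have h2 : nrd (((t : (Qt a b)ˣ)⁻¹ : (Qt a b)ˣ) : Qt a b) = 1 := by
      rw [SL1_inv, nrd_star', h1]
    have h0 : nrd (((1 : (Qt a b)ˣ)) : Qt a b) = 1 := nrd_one'
    refine ⟨norm_mulE h0 h0 h0 h1, norm_mulE h0 h1 h0 h0, norm_mulE h2 h0 h0 h0,
      fun x y z => ?_⟩
    change bil (mulE c 1 1 1 t x * mulE c 1 t 1 1 y * mulE c t⁻¹ 1 1 1 z) 1 = _
    rw [bil_one, bil_one]
    congr 2
    have e : ((t : (Qt a b)ˣ) : Qt a b) * star ((t : (Qt a b)ˣ) : Qt a b) = 1 := by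
      rw [← SL1_inv, Units.mul_inv]
    have e' : ∀ w, ((t : (Qt a b)ˣ) : Qt a b) * (star ((t : (Qt a b)ˣ) : Qt a b) * w) = w :=
      fun w => by rw [← mul_assoc, e, one_mul]
    simp only [fst_mul, snd_mul, fst_mulE, snd_mulE, Units.val_one, one_mul, mul_one, SL1_inv,
      add_mul, mul_add, mul_assoc, smul_mul_assoc, star_mul, e']⟩

end Vale.Agent.P011.E6.Rl
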