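import Vale.Agent.P011.E6.Rel

/-!
The root subgroups of the group of related triples are conjugate to the long subgroup.
-/

namespace Vale.Agent.P011.E6.Rl

open Vale.Agent.P011.MPQ Vale.Agent.P011.D4 Vale.Agent.P011.D4.Oct

variable {F : Type} [Field F] {a b c a' b' c' a'' b'' c'' : Fˣ}

/-- The second root subgroup. -/
def A2 (c : Fˣ) (t : SL1 a b) : Rel a b c :=
  ⟨(mulE c t⁻¹ 1 1 1, mulE c 1 1 1 t, mulE c 1 t 1 1), by
    have h1 : nrd ((t : (Qt a b)ˣ) : Qt a b) = 1 := t.2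
    have h2 : nrd (((t : (Qt a b)ˣ)⁻¹ : (Qt a b)ˣ) : Qt a b) = 1 := by
      rw [SL1_inv, nrd_star', h1]
    have h0 : nrd (((1 : (Qt a b)ˣ)) : Qt a b) = 1 := nrd_one'
    refine ⟨norm_mulE h2 h0 h0 h0, norm_mulE h0 h0 h0 h1, norm_mulE h0 h1 h0 h0,
      fun x y z => ?_⟩
    change bil (mulE c t⁻¹ 1 1 1 x * mulE c 1 1 1 t y * mulE c 1 t 1 1 z) 1 = _
    rw [bil_one, bil_one]
    congr 1
    have e : ((t : (Qt a b)ˣ) : Qt a b) * star ((t : (Qt a b)ˣ) : Qt a b) = 1 := by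
      rw [← SL1_inv, Units.mul_inv]
    have e' : ∀ w, ((t : (Qt a b)ˣ) : Qt a b) * (star ((t : (Qt a b)ˣ) : Qt a b) * w) = w :=
      fun w => by rw [← mul_assoc, e, one_mul]
    have h3 : ∀ w : Qt a b, (star ((t : (Qt a b)ˣ) : Qt a b) * w *
        ((t : (Qt a b)ˣ) : Qt a b)).re = w.re := by
      intro w
      simp only [nrd] at h1
      simp
      linear_combination w.re * h1
    have h4 : (mulE c t⁻¹ 1 1 1 x * mulE c 1 1 1 t y * mulE c 1 t 1 1 z).fst =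
        star ((t : (Qt a b)ˣ) : Qt a b) * ((x * y).fst * z.fst) * ((t : (Qt a b)ˣ) : Qt a b) +
          (c : F) • (star z.snd * (x * y).snd) := by
      simp only [fst_mul, snd_mul, fst_mulE, snd_mulE, Units.val_one, one_mul, mul_one, SL1_inv,
        add_mul, mul_add, mul_assoc, smul_mul_assoc, mul_smul_comm, star_mul, e']
    rw [h4, QuaternionAlgebra.re_add, h3, fst_mul (x * y), QuaternionAlgebra.re_add]⟩

/-- The first component of the triple `S`. -/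
def S1 (a b : Fˣ) : OE a b (-1) where
  toFun x := ⟨⟨x.fst.re, x.fst.imI, x.snd.imJ, x.snd.imK⟩,
    ⟨x.snd.re, x.snd.imI, -x.fst.imJ, -x.fst.imK⟩⟩
  invFun x := ⟨⟨x.fst.re, x.fst.imI, -x.snd.imJ, -x.snd.imK⟩,
    ⟨x.snd.re, x.snd.imI, x.fst.imJ, x.fst.imK⟩⟩
  left_inv x := by apply ext8 <;> simp
  right_inv x := by apply ext8 <;> simp
  map_add' x y := by apply ext8 <;> simp <;> ring
  map_smul' t x := by apply ext8 <;> simp

/-- The second component of the triple `S`. -/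
def S2 (a b : Fˣ) : OE a b (-1) where
  toFun x := ⟨⟨-x.snd.re, -x.snd.imI, x.fst.imJ, x.fst.imK⟩,
    ⟨x.fst.re, x.fst.imI, x.snd.imJ, x.snd.imK⟩⟩
  invFun x := ⟨⟨x.snd.re, x.snd.imI, x.fst.imJ, x.fst.imK⟩,
    ⟨-x.fst.re, -x.fst.imI, x.snd.imJ, x.snd.imK⟩⟩
  left_inv x := by apply ext8 <;> simp
  right_inv x := by apply ext8 <;> simp
  map_add' x y := by apply ext8 <;> simp <;> ring
  map_smul' t x := by apply ext8 <;> simp

/-- The third component of the triple `S`. -/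
def S3 (a b : Fˣ) : OE a b (-1) where
  toFun x := ⟨⟨x.snd.re, -x.snd.imI, x.fst.imJ, x.fst.imK⟩,
    ⟨-x.fst.re, x.fst.imI, x.snd.imJ, x.snd.imK⟩⟩
  invFun x := ⟨⟨-x.snd.re, x.snd.imI, x.fst.imJ, x.fst.imK⟩,
    ⟨x.fst.re, -x.fst.imI, x.snd.imJ, x.snd.imK⟩⟩
  left_inv x := by apply ext8 <;> simp
  right_inv x := by apply ext8 <;> simp
  map_add' x y := by apply ext8 <;> simp <;> ring
  map_smul' t x := by apply ext8 <;> simp

theorem S1_apply (x : Oct a b (-1)) : S1 a b x = ⟨⟨x.fst.re, x.fst.imI, x.snd.imJ, x.snd.imK⟩,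
    ⟨x.snd.re, x.snd.imI, -x.fst.imJ, -x.fst.imK⟩⟩ := rfl

theorem S2_apply (x : Oct a b (-1)) : S2 a b x = ⟨⟨-x.snd.re, -x.snd.imI, x.fst.imJ, x.fst.imK⟩,
    ⟨x.fst.re, x.fst.imI, x.snd.imJ, x.snd.imK⟩⟩ := rfl

theorem S3_apply (x : Oct a b (-1)) : S3 a b x = ⟨⟨x.snd.re, -x.snd.imI, x.fst.imJ, x.fst.imK⟩,
    ⟨-x.fst.re, x.fst.imI, x.snd.imJ, x.snd.imK⟩⟩ := rfl

/-- The triple `S`. -/
def SR (a b : Fˣ) : Rel a b (-1) :=
  ⟨(S1 a b, S2 a b, S3 a b), by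
    refine ⟨fun x => ?_, fun x => ?_, fun x => ?_, fun x y z => ?_⟩
    · rw [S1_apply]
      simp [Oct.norm, nrd]
      ring
    · rw [S2_apply]
      simp [Oct.norm, nrd]
      ring
    · rw [S3_apply]
      simp [Oct.norm, nrd]
      ring
    · change bil (S1 a b x * S2 a b y * S3 a b z) 1 = _
      rw [S1_apply, S2_apply, S3_apply, bil_one, bil_one]
      congr 1
      simp
      ring⟩

theorem trip_s (a b : Fˣ) : Trip a b (-1) (gi : Oct a b (-1)) (gj * gl) gl := by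
  constructor
  · apply ext8 <;> simp [gi]
  · apply ext8 <;> simp [gj, gl]
  · apply ext8 <;> simp [gl]
  · apply ext8 <;> simp [gi]
  · apply ext8 <;> simp [gj, gl]
  · apply ext8 <;> simp [gl]
  · simp [dot, gi, gj, gl]
  · simp [dot, gi, gl]
  · simp [dot, gj, gl]
  · simp [dot, gi, gj, gl]

/-- The quaternion attached to `t` in the root subgroup. -/
def hat (t : SL1 a b) : SL1 a b :=
  ⟨⟨⟨((t : (Qt a b)ˣ) : Qt a b).re, ((t : (Qt a b)ˣ) : Qt a b).imI,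
      -((t : (Qt a b)ˣ) : Qt a b).imJ, ((t : (Qt a b)ˣ) : Qt a b).imK⟩,
    ⟨((t : (Qt a b)ˣ) : Qt a b).re, -((t : (Qt a b)ˣ) : Qt a b).imI,
      ((t : (Qt a b)ˣ) : Qt a b).imJ, -((t : (Qt a b)ˣ) : Qt a b).imK⟩, by
      have h1 : nrd ((t : (Qt a b)ˣ) : Qt a b) = 1 := t.2
      simp only [nrd] at h1
      ext
      · simp
        linear_combination h1
      · simp
        ring
      · simp
        ring
      · simp
        ring, by
      have h1 : nrd ((t : (Qt a b)ˣ) : Qt a b) = 1 := t.2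
      simp only [nrd] at h1
      ext
      · simp
        linear_combination h1
      · simp
        ring
      · simp
        ring
      · simp
        ring⟩, by
    have h1 : nrd ((t : (Qt a b)ˣ) : Qt a b) = 1 := t.2
    change nrd (⟨((t : (Qt a b)ˣ) : Qt a b).re, ((t : (Qt a b)ˣ) : Qt a b).imI,
      -((t : (Qt a b)ˣ) : Qt a b).imJ, ((t : (Qt a b)ˣ) : Qt a b).imK⟩ : Qt a b) = 1
    simp only [nrd] at h1 ⊢
    linear_combination h1⟩

theorem val_hat (t : SL1 a b) : ((hat t : (Qt a b)ˣ) : Qt a b) =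
    ⟨((t : (Qt a b)ˣ) : Qt a b).re, ((t : (Qt a b)ˣ) : Qt a b).imI,
      -((t : (Qt a b)ˣ) : Qt a b).imJ, ((t : (Qt a b)ˣ) : Qt a b).imK⟩ := rfl

theorem S1_symm (x : Oct a b (-1)) : (S1 a b).symm x =
    ⟨⟨x.fst.re, x.fst.imI, -x.snd.imJ, -x.snd.imK⟩,
    ⟨x.snd.re, x.snd.imI, x.fst.imJ, x.fst.imK⟩⟩ := rfl

theorem S2_symm (x : Oct a b (-1)) : (S2 a b).symm x =
    ⟨⟨x.snd.re, x.snd.imI, x.fst.imJ, x.fst.imK⟩,
    ⟨-x.fst.re, -x.fst.imI, x.snd.imJ, x.snd.imK⟩⟩ := rfl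

theorem S3_symm (x : Oct a b (-1)) : (S3 a b).symm x =
    ⟨⟨-x.snd.re, x.snd.imI, x.fst.imJ, x.fst.imK⟩,
    ⟨x.fst.re, -x.fst.imI, x.snd.imJ, x.snd.imK⟩⟩ := rfl

theorem long_apply (t : SL1 a b) (x : Oct a b c) :
    (long a b c t).1 x = ⟨x.fst, ((t : (Qt a b)ˣ) : Qt a b) * x.snd⟩ := rfl

/-- The values of the embedding. -/
theorem emb_s (x : Oct a b (-1)) : emb (gi : Oct a b (-1)) (gj * gl) gl x =
    ⟨⟨x.fst.re, x.fst.imI, -x.snd.imJ, x.snd.imK⟩,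
      ⟨x.snd.re, x.snd.imI, x.fst.imJ, -x.fst.imK⟩⟩ := by
  apply ext8 <;> simp [emb, qemb, gi, gj, gl]

theorem S_long1 (t : SL1 a b) (y : Oct a b (-1)) :
    emb (gi : Oct a b (-1)) (gj * gl) gl (mulE (-1) 1 1 1 (hat t : (Qt a b)ˣ) y) =
      S1 a b ((long a b (-1) t).1 ((S1 a b).symm (emb gi (gj * gl) gl y))) := by
  rw [emb_s, emb_s, S1_symm, long_apply, S1_apply]
  apply ext8 <;> simp [val_hat] <;> ring

theorem S_long2 (t : SL1 a b) (y : Oct a b (-1)) :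
    emb (gi : Oct a b (-1)) (gj * gl) gl (mulE (-1) 1 (hat t : (Qt a b)ˣ) 1 1 y) =
      S2 a b ((long a b (-1) t).1 ((S2 a b).symm (emb gi (gj * gl) gl y))) := by
  rw [emb_s, emb_s, S2_symm, long_apply, S2_apply]
  apply ext8 <;> simp [val_hat] <;> ring

theorem S_long3 (t : SL1 a b) (y : Oct a b (-1)) :
    emb (gi : Oct a b (-1)) (gj * gl) gl (mulE (-1) (hat t : (Qt a b)ˣ)⁻¹ 1 1 1 y) =
      S3 a b ((long a b (-1) t).1 ((S3 a b).symm (emb gi (gj * gl) gl y))) := by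
  rw [emb_s, emb_s, S3_symm, long_apply, S3_apply]
  apply ext8 <;> simp [val_hat, SL1_inv] <;> ring

/-- The long subgroup is conjugate to the root subgroup. -/
theorem S_long {Φ : Oct a b (-1) ≃ₗ[F] Oct a b (-1)} (hΦ : ∀ x, Φ x = emb gi (gj * gl) gl x)
    (hm : ∀ x y, Φ (x * y) = Φ x * Φ y) (t : SL1 a b) :
    conjR Φ hm (A1 (-1) (hat t)) * SR a b = SR a b * autR a b (-1) (long a b (-1) t) := by
  have key : ∀ (f g : OE a b (-1)) (S : OE a b (-1)), (∀ y, Φ (f y) = S (g (S.symm (Φ y)))) →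
      ∀ x, Φ (f (Φ.symm (S x))) = S (g x) := by
    intro f g S h x
    rw [h, Φ.apply_symm_apply, S.symm_apply_apply]
  apply Rel.ext
  · exact key (mulE (-1) 1 1 1 (hat t)) (long a b (-1) t).1 (S1 a b) fun y => by
      rw [hΦ, hΦ, S_long1]
  · exact key (mulE (-1) 1 (hat t) 1 1) (long a b (-1) t).1 (S2 a b) fun y => by
      rw [hΦ, hΦ, S_long2]
  · exact key (mulE (-1) (hat t)⁻¹ 1 1 1) (long a b (-1) t).1 (S3 a b) fun y => by
      rw [hΦ, hΦ, S_long3]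

end Vale.Agent.P011.E6.Rl
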