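import Vale.Agent.P011.E6.Rel2
import Vale.Agent.P011.E6.GoodQ
import Vale.Agent.P011.E6.Pos

/-!
A normal subgroup of the group of related triples which contains all root subgroups is everything.
-/

open NumberField

namespace Vale.Agent.P011.E6.Rl

open Vale.Agent.P011.MPQ Vale.Agent.P011.D4 Vale.Agent.P011.D4.Oct

section kill

variable {F : Type} [Field F] {a b c a' b' c' a'' b'' c'' : Fˣ}

/-- The subgroup contains the root subgroups in all coordinates. -/
def HasR (N : Subgroup (Rel a b c)) : Prop :=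
  ∀ (a' b' c' : Fˣ) (Φ : Oct a' b' c' ≃ₗ[F] Oct a b c) (hΦ : ∀ x y, Φ (x * y) = Φ x * Φ y)
    (t : SL1 a' b'), conjR Φ hΦ (A1 c' t) ∈ N ∧ conjR Φ hΦ (A2 c' t) ∈ N

variable [NeZero (2 : F)]

/-- Related triples which fix the first and the second unit element. -/
theorem rel_aut (r : Rel a b c) (h1 : r.1.1 1 = 1) (h2 : r.1.2.1 1 = 1) :
    ∃ g : AutC a b c, autR a b c g = r := by
  obtain ⟨n1, n2, n3, H⟩ := r.2
  have H' : ∀ x y z, bil (r.1.1 x * r.1.2.1 y) (star (r.1.2.2 z)) = bil (x * y) (star z) := by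
    intro x y z
    rw [← tri_bil, H, tri_bil]
  have b1 := bil_of_norm n1
  have b2 := bil_of_norm n2
  have e2 : ∀ z, star (r.1.2.2 z) = r.1.2.1 (star z) := by
    intro z
    apply eq_of_bil
    intro w
    obtain ⟨y, rfl⟩ := r.1.2.1.surjective w
    have h := H' 1 y z
    rw [h1, one_mul, one_mul] at h
    rw [bil_comm, h, b2, bil_comm]
  have e1 : ∀ z, star (r.1.2.2 z) = r.1.1 (star z) := by
    intro z
    apply eq_of_bil
    intro w
    obtain ⟨y, rfl⟩ := r.1.1.surjective w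
    have h := H' y 1 z
    rw [h2, mul_one, mul_one] at h
    rw [bil_comm, h, b1, bil_comm]
  have e12 : ∀ z, r.1.1 z = r.1.2.1 z := by
    intro z
    rw [← star_star z, ← e1, ← e2]
  have es : ∀ z, r.1.1 (star z) = star (r.1.1 z) := by
    intro z
    rw [star_eq, star_eq, map_sub, map_smul, h1]
    congr 2
    rw [← h1, b1, h1]
  have e13 : ∀ z, r.1.1 z = r.1.2.2 z := by
    intro z
    apply star_injective
    rw [e1, es]
  have hm : ∀ x y, r.1.1 (x * y) = r.1.1 x * r.1.1 y := by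
    intro x y
    apply eq_of_bil
    intro w
    obtain ⟨z, rfl⟩ := r.1.1.surjective w
    have h := H' x y (star z)
    rw [e1, star_star, ← e12] at h
    rw [h, b1]
  exact ⟨⟨r.1.1, hm⟩, Rel.ext (fun _ => rfl) e12 e13⟩

omit [NeZero (2 : F)] in
theorem exists_SL1' {x : Qt a b} (hx : nrd x = 1) :
    ∃ t : SL1 a b, ((t : (Qt a b)ˣ) : Qt a b) = x := by
  have h1 : x * star x = 1 := by
    simp only [nrd] at hx
    ext
    · simp
      linear_combination hx
    · simp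
      ring
    · simp
      ring
    · simp
      ring
  have h2 : star x * x = 1 := by
    simp only [nrd] at hx
    ext
    · simp
      linear_combination hx
    · simp
      ring
    · simp
      ring
    · simp
      ring
  exact ⟨⟨⟨x, star x, h1, h2⟩, hx⟩, rfl⟩

/-- Coordinates adapted to an element of norm one. -/
theorem exists_coord (hdiv : Division a b c) {f : Oct a b c} (hf : norm f = 1) :
    ∃ (a' b' c' : Fˣ) (Φ : Oct a' b' c' ≃ₗ[F] Oct a b c) (_ : ∀ x y, Φ (x * y) = Φ x * Φ y)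
      (t : SL1 a' b'), Φ ⟨((t : (Qt a' b')ˣ) : Qt a' b'), 0⟩ = f := by
  obtain ⟨a', b', c', i, j, l, ht, ⟨x, hx⟩, _⟩ := H369.exists_trip_of_two hdiv f f
  obtain ⟨Φ, h1, h2, h3, h4⟩ := exists_emb ht
  have e : Φ ⟨x, 0⟩ = f := by
    rw [h1, emb, hx]
    simp [qemb]
  have hn : nrd x = 1 := by
    rw [← hf, ← e, h4]
    simp [Oct.norm, nrd]
  obtain ⟨t, ht⟩ := exists_SL1' hn
  exact ⟨a', b', c', Φ, h2, t, by rw [ht, e]⟩

/-- Modulo the root subgroups, every related triple is an automorphism. -/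
theorem exists_kill (hdiv : Division a b c) {N : Subgroup (Rel a b c)} (hR : HasR N)
    (r : Rel a b c) : ∃ g : AutC a b c, ∃ n ∈ N, n * r = autR a b c g := by
  obtain ⟨n1, n2, n3, H⟩ := r.2
  obtain ⟨a', b', c', Φ, hΦ, t, ht⟩ := exists_coord hdiv (f := r.1.1 1) (by rw [n1, Oct.norm_one])
  set m := conjR Φ hΦ (A2 c' t) with hm
  have hmN : m ∈ N := (hR a' b' c' Φ hΦ t).2
  have e1 : (m * r).1.1 1 = 1 := by
    change Φ (mulE c' (t : (Qt a' b')ˣ)⁻¹ 1 1 1 (Φ.symm (r.1.1 1))) = 1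
    rw [← ht, Φ.symm_apply_apply, ← hom_one hΦ]
    congr 1
    ext1
    · simp
    · simp
  obtain ⟨p1, p2, p3, H'⟩ := (m * r).2
  obtain ⟨a'', b'', c'', Ψ, hΨ, s, hs⟩ := exists_coord hdiv (f := (m * r).1.2.1 1)
    (by rw [p2, Oct.norm_one])
  set m' := conjR Ψ hΨ (A1 c'' s⁻¹) with hm'
  have hmN' : m' ∈ N := (hR a'' b'' c'' Ψ hΨ s⁻¹).1
  have e2 : (m' * (m * r)).1.1 1 = 1 := by
    change Ψ (mulE c'' 1 1 1 ((s⁻¹ : SL1 a'' b'') : (Qt a'' b'')ˣ) (Ψ.symm ((m * r).1.1 1))) = 1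
    rw [e1, ← hom_one hΨ, Ψ.symm_apply_apply]
    congr 1
    ext1
    · simp
    · simp
  have e3 : (m' * (m * r)).1.2.1 1 = 1 := by
    change Ψ (mulE c'' 1 ((s⁻¹ : SL1 a'' b'') : (Qt a'' b'')ˣ) 1 1
      (Ψ.symm ((m * r).1.2.1 1))) = 1
    rw [← hs, Ψ.symm_apply_apply, ← hom_one hΨ]
    congr 1
    ext1
    · simp
    · simp
  obtain ⟨g, hg⟩ := rel_aut _ e2 e3
  exact ⟨g, m' * m, mul_mem hmN' hmN, by rw [hg, mul_assoc]⟩

end kill

section good

variable {k : Type} [Field k] {a b c a' b' c' : kˣ}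

/-- A pure element whose norm is negative at all real places where the octonion algebra is
indefinite. -/
def Good (x : Oct a b c) : Prop :=
  star x = -x ∧ x ≠ 0 ∧ ∀ φ : k →+* ℝ, ¬ Dfn φ a b c → φ (norm x) < 0

variable [NumberField k]

/-- There are two orthogonal good elements. -/
theorem exists_good_pair (hdiv : Division a b c) :
    ∃ x y : Oct a b c, Good x ∧ Good y ∧ dot x y = 0 := by
  obtain ⟨a', b', c', i, j, l, ht, hg⟩ := exists_good hdiv
  obtain ⟨Φ, h1, h2, h3, h4⟩ := exists_emb ht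
  have ei : Φ gi = i := by
    rw [h1]
    simp [Oct.emb, qemb, gi]
  have ha : ∀ φ : k →+* ℝ, ¬ Dfn φ a b c → 0 < φ a' := hg
  have gI : Good i := by
    refine ⟨ht.si, fun h => ?_, fun φ hφ => ?_⟩
    · have := ht.ii
      rw [h, mul_zero] at this
      have h5 := smul_one_inj (s := 0) (t := (a' : k)) (a := a) (b := b) (c := c)
        (by rw [zero_smul, this])
      exact a'.ne_zero h5.symm
    · rw [ht.triple.norm_i, map_neg]
      exact neg_neg_of_pos (ha φ hφ)
  obtain ⟨x, y, z, hx0, hx⟩ : ∃ x y z : k, (x ≠ 0 ∨ y ≠ 0 ∨ z ≠ 0) ∧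
      ∀ φ : k →+* ℝ, ¬ Dfn φ a b c →
        0 < φ (b' * x ^ 2 + -(a' * b') * y ^ 2 + c' * z ^ 2) := by
    obtain ⟨x, y, z, h⟩ := exists_pos3 b' (-(a' * b')) c'
    have h' : ∀ φ : k →+* ℝ, ¬ Dfn φ a b c →
        0 < φ (b' * x ^ 2 + -(a' * b') * y ^ 2 + c' * z ^ 2) := by
      intro φ hφ
      have := h φ (by
        rintro ⟨e1, e2, _⟩
        have e3 := ha φ hφ
        rw [Units.val_neg, Units.val_mul, map_neg, map_mul, neg_lt_zero] at e2
        exact absurd e2 (not_lt.2 (mul_nonpos_of_nonneg_of_nonpos e3.le e1.le)))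
      simpa using this
    by_cases h0 : x = 0 ∧ y = 0 ∧ z = 0
    · obtain ⟨rfl, rfl, rfl⟩ := h0
      refine ⟨1, 0, 0, Or.inl one_ne_zero, fun φ hφ => ?_⟩
      have := h' φ hφ
      simp at this
    · refine ⟨x, y, z, ?_, h'⟩
      by_contra h5
      push Not at h5
      exact h0 h5
  refine ⟨i, Φ ⟨⟨0, 0, x, y⟩, ⟨z, 0, 0, 0⟩⟩, gI, ⟨?_, ?_, ?_⟩, ?_⟩
  · rw [← h3, ← map_neg]
    congr 1
    apply ext8 <;> simp
  · intro h5
    rw [← map_zero Φ] at h5
    have h6 := Φ.injective h5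
    have e1 := congrArg (fun w : Oct a' b' c' => w.fst.imJ) h6
    have e2 := congrArg (fun w : Oct a' b' c' => w.fst.imK) h6
    have e3 := congrArg (fun w : Oct a' b' c' => w.snd.re) h6
    simp at e1 e2 e3
    rcases hx0 with h | h | h
    · exact h e1
    · exact h e2
    · exact h e3
  · intro φ hφ
    have := hx φ hφ
    have e : norm (Φ ⟨⟨0, 0, x, y⟩, ⟨z, 0, 0, 0⟩⟩) =
        -(b' * x ^ 2 + -(a' * b') * y ^ 2 + c' * z ^ 2) := by
      rw [h4]
      simp [Oct.norm, nrd]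
      ring
    rw [e, map_neg]
    exact neg_neg_of_pos this
  · rw [← ei, hom_dot h2]
    simp [dot, gi]

omit [NumberField k] in
theorem Good.norm_ne (hdiv : Division a b c) {x : Oct a b c} (h : Good x) : norm x ≠ 0 :=
  fun h0 => h.2.1 (hdiv x h0)

/-- There is a good element orthogonal to a given one. -/
theorem exists_good_perp (hdiv : Division a b c) (d : Oct a b c) :
    ∃ z : Oct a b c, Good z ∧ dot z d = 0 := by
  obtain ⟨x, y, hx, hy, hxy⟩ := exists_good_pair hdiv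
  by_cases h : dot x d = 0
  · exact ⟨x, hx, h⟩
  · have hyx : dot y x = 0 := by rw [dot_comm, hxy]
    refine ⟨dot y d • x - dot x d • y, ⟨?_, ?_, ?_⟩, ?_⟩
    · rw [star_sub, star_smul_oct, star_smul_oct, hx.1, hy.1]
      module
    · intro h0
      have h1 := congrArg (fun w => dot w y) h0
      simp only [dot_sub_left, dot_smul_left, hxy, mul_zero, zero_sub, ← norm_eq_dot] at h1
      have h2 : dot (0 : Oct a b c) y = 0 := by
        have := dot_smul_left (0 : k) (0 : Oct a b c) y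
        rwa [zero_smul, zero_mul] at this
      rw [h2, neg_eq_zero, mul_eq_zero] at h1
      exact h1.elim h (hy.norm_ne hdiv)
    · intro φ hφ
      have e : norm (dot y d • x - dot x d • y) =
          dot y d ^ 2 * norm x + dot x d ^ 2 * norm y := by
        rw [norm_eq_dot, norm_eq_dot, norm_eq_dot]
        simp only [dot_sub_left, dot_sub_right, dot_smul_left, dot_smul_right, hxy, hyx]
        ring
      rw [e, map_add, map_mul, map_mul, map_pow, map_pow]
      have h1 := hx.2.2 φ hφ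
      have h2 := hy.2.2 φ hφ
      have h3 : φ (dot x d) ≠ 0 := (map_ne_zero φ).2 h
      have h4 : 0 < φ (dot x d) ^ 2 := by positivity
      nlinarith [mul_neg_of_pos_of_neg h4 h2, mul_nonneg (sq_nonneg (φ (dot y d))) (neg_nonneg.2 h1.le)]
    · rw [dot_sub_left, dot_smul_left, dot_smul_left]
      ring

/-- A subgroup containing the automorphisms which fix a good element and a second one is
everything. -/
theorem top_of_good (hdiv : Division a b c) (N : Subgroup (AutC a b c))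
    (h : ∀ (i j : Oct a b c), Good i → star j = -j → j ≠ 0 → dot i j = 0 →
      ∀ g : AutC a b c, g.1 i = i → g.1 j = j → g ∈ N) : N = ⊤ := by
  rw [eq_top_iff]
  intro g _
  obtain ⟨l, m, hl, hm, hlm⟩ := exists_good_pair hdiv
  -- first step
  obtain ⟨φ, hφN, hφ⟩ : ∃ φ ∈ N, φ.1 l = g.1 l := by
    obtain ⟨z, hz, hz2⟩ := exists_good_perp hdiv (g.1 l - l)
    obtain ⟨u, hu0, hu⟩ := exists_perp
      (![1, z, g.1 l - l, z * (g.1 l - l), 0, 0, 0] : Fin 7 → Oct a b c)
    have hu1 : dot u 1 = 0 := hu 0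
    have hu2 : dot u z = 0 := hu 1
    have hu3 : dot u (g.1 l - l) = 0 := hu 2
    have hu4 : dot u (z * (g.1 l - l)) = 0 := hu 3
    have hu' := star_iff_dot.2 hu1
    have hzu : dot z u = 0 := by rw [dot_comm, hu2]
    obtain ⟨φ, h1, h2, h3⟩ := exists_move hdiv hz.1 hz.2.1 hu' hu0 hzu hl.1
      (by rw [← aut_star, hl.1, map_neg]) (aut_norm g l) hz2 hu3
      (by rw [dot_mul_left, hz.1, neg_mul, dot_neg_right, hu4, neg_zero])
    exact ⟨φ, h z u hz hu' hu0 hzu φ h1 h2, h3⟩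
  have hg1 : (φ⁻¹ * g).1 l = l := by
    change φ⁻¹.1 (g.1 l) = l
    rw [← hφ]
    change (φ⁻¹ * φ).1 l = l
    rw [inv_mul_cancel]
    rfl
  -- second step
  obtain ⟨ψ, hψN, hψi, hψ⟩ : ∃ ψ ∈ N, ψ.1 l = l ∧ ψ.1 m = (φ⁻¹ * g).1 m := by
    obtain ⟨z, hz0, hz⟩ := exists_perp
      (![1, l, (φ⁻¹ * g).1 m - m, l * ((φ⁻¹ * g).1 m - m), 0, 0, 0] : Fin 7 → Oct a b c)
    have hz1 : dot z 1 = 0 := hz 0
    have hz2 : dot z l = 0 := hz 1
    have hz3 : dot z ((φ⁻¹ * g).1 m - m) = 0 := hz 2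
    have hz4 : dot z (l * ((φ⁻¹ * g).1 m - m)) = 0 := hz 3
    have hz' := star_iff_dot.2 hz1
    have hzi : dot l z = 0 := by rw [dot_comm, hz2]
    obtain ⟨ψ, h1, h2, h3⟩ := exists_move hdiv hl.1 hl.2.1 hz' hz0 hzi hm.1
      (by rw [← aut_star, hm.1, map_neg]) (aut_norm (φ⁻¹ * g) m)
      (by
        rw [dot_sub_right, hlm, sub_zero]
        nth_rewrite 1 [← hg1]
        rw [aut_dot, hlm]) hz3
      (by rw [dot_mul_left, hl.1, neg_mul, dot_neg_right, hz4, neg_zero])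
    exact ⟨ψ, h l z hl hz' hz0 hzi ψ h1 h2, h1, h3⟩
  -- third step
  have h1 : (ψ⁻¹ * (φ⁻¹ * g)).1 l = l := by
    change ψ⁻¹.1 ((φ⁻¹ * g).1 l) = l
    rw [hg1]
    nth_rewrite 1 [← hψi]
    change (ψ⁻¹ * ψ).1 l = l
    rw [inv_mul_cancel]
    rfl
  have h2 : (ψ⁻¹ * (φ⁻¹ * g)).1 m = m := by
    change ψ⁻¹.1 ((φ⁻¹ * g).1 m) = m
    rw [← hψ]
    change (ψ⁻¹ * ψ).1 m = m
    rw [inv_mul_cancel]
    rfl
  have h3 := h l m hl hm.1 hm.2.1 hlm _ h1 h2
  have h4 := mul_mem hφN (mul_mem hψN h3)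
  rwa [mul_inv_cancel_left, mul_inv_cancel_left] at h4

omit [NumberField k] in
/-- The composite of two transports. -/
theorem conjR_conjR {a'' b'' c'' : kˣ} (Φ : Oct a' b' c' ≃ₗ[k] Oct a b c)
    (hΦ : ∀ x y, Φ (x * y) = Φ x * Φ y) (Ψ : Oct a'' b'' c'' ≃ₗ[k] Oct a' b' c')
    (hΨ : ∀ x y, Ψ (x * y) = Ψ x * Ψ y) (h : ∀ x y, (Ψ.trans Φ) (x * y) =
      (Ψ.trans Φ) x * (Ψ.trans Φ) y) (r : Rel a'' b'' c'') :
    conjR Φ hΦ (conjR Ψ hΨ r) = conjR (Ψ.trans Φ) h r := rfl

theorem autR_mem (hdiv : Division a b c) {N : Subgroup (Rel a b c)} (hN : N.Normal) (hR : HasR N)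
    {i j : Oct a b c} (hi : Good i) (hj : star j = -j) (hj0 : j ≠ 0) (hij : dot i j = 0)
    (g : AutC a b c) (gI : g.1 i = i) (gJ : g.1 j = j) : autR a b c g ∈ N := by
  obtain ⟨l, hl0, hl⟩ := exists_perp (![1, i, j, i * j, 0, 0, 0] : Fin 7 → Oct a b c)
  have hl1 : dot l 1 = 0 := hl 0
  have hl2 : dot l i = 0 := hl 1
  have hl3 : dot l j = 0 := hl 2
  have hl4 : dot l (i * j) = 0 := hl 3
  obtain ⟨a', b', c', ht⟩ := exists_trip hdiv hi.1 hi.2.1 hj hj0 (star_iff_dot.2 hl1) hl0 hij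
    (by rw [dot_comm, hl2]) (by rw [dot_comm, hl3]) (by rw [dot_comm, hl4])
  obtain ⟨Φ, h1, h2, h3, h4⟩ := exists_emb ht
  have hni : norm i = -(a' : k) := ht.triple.norm_i
  have hnl : norm l = -(c' : k) := ht.triple.norm_l
  obtain ⟨q, hq⟩ := exists_nrd (a := a') (b := b') (-c')⁻¹ (by
    intro φ ha hb
    have hd : Dfn φ a b c := by
      by_contra hd
      have := hi.2.2 φ hd
      rw [hni, map_neg] at this
      linarith
    have hp := DefAt.of_neg hd.1 hd.2.1 hd.2.2 l hl0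
    rw [hnl] at hp
    rw [Units.val_inv_eq_inv_val, map_inv₀, Units.val_neg]
    exact inv_pos.2 hp)
  have hqc : (c' : k) * nrd q = -1 := by
    rw [hq, Units.val_inv_eq_inv_val, Units.val_neg]
    have := c'.ne_zero
    field_simp
  have hst : Trip a' b' (-1) (gi : Oct a' b' c') gj ⟨0, q⟩ := by
    constructor
    · apply ext8 <;> simp [gi]
    · apply ext8 <;> simp [gj]
    · apply ext8 <;> simp
    · apply ext8 <;> simp [gi]
    · apply ext8 <;> simp [gj]
    · simp only [nrd] at hqc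
      apply ext8
      · simp
        linear_combination hqc
      · simp
        ring
      · simp
        ring
      · simp
        ring
      all_goals simp
    · simp [dot, gi, gj]
    · simp [dot, gi]
    · simp [dot, gj]
    · simp [dot, gi, gj]
  have ei : Φ gi = i := by
    rw [h1]
    simp [Oct.emb, qemb, gi]
  have ej : Φ gj = j := by
    rw [h1]
    simp [Oct.emb, qemb, gj]
  obtain ⟨Ψ, p1, p2, p3, p4⟩ := exists_emb (trip_map hst h2)
  have ei' : Ψ gi = i := by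
    rw [p1]
    simp [Oct.emb, qemb, gi]
    exact ei
  have ej' : Ψ gj = j := by
    rw [p1]
    simp [Oct.emb, qemb, gj]
    exact ej
  have hs : ∀ x y, Ψ.symm (x * y) = Ψ.symm x * Ψ.symm y := by
    intro x y
    apply Ψ.injective
    rw [p2, Ψ.apply_symm_apply, Ψ.apply_symm_apply, Ψ.apply_symm_apply]
  obtain ⟨t, ht'⟩ := exists_long (conjA Ψ.symm hs g) (by
      change Ψ.symm (g.1 (Ψ.symm.symm gi)) = gi
      rw [LinearEquiv.symm_symm, ei', gI, ← ei', Ψ.symm_apply_apply])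
    (by
      change Ψ.symm (g.1 (Ψ.symm.symm gj)) = gj
      rw [LinearEquiv.symm_symm, ej', gJ, ← ej', Ψ.symm_apply_apply])
  obtain ⟨Θ, q1, q2, _, _⟩ := exists_emb (trip_s a' b')
  have hN' : (N.comap (conjR Ψ p2)).Normal := hN.comap _
  have hA : conjR Θ q2 (A1 (-1) (hat t)) ∈ N.comap (conjR Ψ p2) := by
    change conjR Ψ p2 (conjR Θ q2 (A1 (-1) (hat t))) ∈ N
    rw [conjR_conjR Ψ p2 Θ q2 (fun x y => by
      change Ψ (Θ (x * y)) = Ψ (Θ x) * Ψ (Θ y)
      rw [q2, p2])]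
    exact (hR _ _ _ _ _ _).1
  have hL : autR a' b' (-1) (long a' b' (-1) t) ∈ N.comap (conjR Ψ p2) := by
    have h5 := S_long q1 q2 t
    have h6 : autR a' b' (-1) (long a' b' (-1) t) =
        (SR a' b')⁻¹ * conjR Θ q2 (A1 (-1) (hat t)) * ((SR a' b')⁻¹)⁻¹ := by
      rw [inv_inv, mul_assoc, h5, inv_mul_cancel_left]
    rw [h6]
    exact hN'.conj_mem _ hA _
  have hfin : conjR Ψ p2 (autR a' b' (-1) (long a' b' (-1) t)) = autR a b c g := by
    rw [ht']
    have e : ∀ x, Ψ (Ψ.symm (g.1 (Ψ.symm.symm (Ψ.symm x)))) = g.1 x := by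
      intro x
      rw [Ψ.apply_symm_apply, LinearEquiv.symm_symm, Ψ.apply_symm_apply]
    exact Rel.ext e e e
  rw [← hfin]
  exact hL

/-- (E9) A normal subgroup of the group of related triples which contains all root subgroups is
everything. -/
theorem rel_top (hdiv : Division a b c) {N : Subgroup (Rel a b c)} (hN : N.Normal)
    (hR : HasR N) : N = ⊤ := by
  have h : N.comap (autR a b c) = ⊤ := by
    apply top_of_good hdiv
    intro i j hi hj hj0 hij g gI gJ
    exact autR_mem hdiv hN hR hi hj hj0 hij g gI gJ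
  rw [eq_top_iff]
  intro r _
  obtain ⟨g, n, hn, e⟩ := exists_kill hdiv hR r
  have h1 : g ∈ N.comap (autR a b c) := by
    rw [h]
    exact Subgroup.mem_top g
  have h2 : autR a b c g ∈ N := h1
  rw [← e] at h2
  exact (mul_mem_cancel_left hn).1 h2

end good

end Vale.Agent.P011.E6.Rl
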