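import Vale.Agent.P011.E6.Defs

/-!
Block E6: literal statements of the rows.
-/

open NumberField

namespace Vale.Agent.P011.E6.Spec

open Vale.Agent.P011.MPQ Vale.Agent.P011.D4 Vale.Agent.P011.D4.Oct Vale.Agent.P011.E6
open Matrix

/-! E1 (862): identities over any field of characteristic not two. -/

section E1

variable {F : Type} [Field F] [NeZero (2 : F)] {a b c : Fˣ}

theorem sh_sh (x : Alb a b c) : Alb.adj (Alb.adj x) = Alb.cub x • x := sorry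
theorem nm_sh (x : Alb a b c) : Alb.cub (Alb.adj x) = Alb.cub x ^ 2 := sorry
theorem sh_add (x y : Alb a b c) : Alb.adj (x + y) = Alb.adj x + Alb.cross x y + Alb.adj y := sorry
theorem nm_add (x y : Alb a b c) : Alb.cub (x + y) =
    Alb.cub x + Alb.tf (Alb.adj x) y + Alb.tf x (Alb.adj y) + Alb.cub y := sorry
theorem nm_smul (t : F) (x : Alb a b c) : Alb.cub (t • x) = t ^ 3 * Alb.cub x := sorry
theorem sh_smul (t : F) (x : Alb a b c) : Alb.adj (t • x) = t ^ 2 • Alb.adj x := sorry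
theorem tr_comm (x y : Alb a b c) : Alb.tf x y = Alb.tf y x := sorry
theorem tr_cr (x y z : Alb a b c) : Alb.tf (Alb.cross x y) z = Alb.tf x (Alb.cross y z) := sorry
theorem eq_of_tr {x y : Alb a b c} (h : ∀ z, Alb.tf x z = Alb.tf y z) : x = y := sorry
theorem nm_wt (g : Fin 3 → Fˣ) (x : Alb a b c) :
    Alb.cub (Alb.wt g x) = ((g 0 : F) * g 1 * g 2) ^ 2 * Alb.cub x := sorry
/-- `D x# = (γ₁γ₂γ₃)² (D⁻¹ x)#`, in the form without inverse. -/
theorem wt_sh_wt (g : Fin 3 → Fˣ) (x : Alb a b c) :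
    Alb.wt g (Alb.adj (Alb.wt g x)) = ((g 0 : F) * g 1 * g 2) ^ 2 • Alb.adj x := sorry
theorem tr_wt (g : Fin 3 → Fˣ) (x y : Alb a b c) :
    Alb.tf (Alb.wt g x) y = Alb.tf x (Alb.wt g y) := sorry

end E1

section E1b

variable {k K : Type} [Field k] [CharZero k] [Field K] [CharZero K] [Algebra k K]
  {σ : K ≃ₐ[k] K} {a b c : kˣ} {g : Fin 3 → kˣ}

/-- The elements of the group and the adjoint. -/
theorem sh_map {φ : AlbL K a b c ≃ₗ[K] AlbL K a b c} (hφ : φ ∈ GE σ a b c g) (hσ : ∀ x, σ (σ x) = x)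
    (x : AlbL K a b c) : ∃ y : AlbL K a b c, Alb.wt (upG K g) y = amap σ (Alb.adj x) ∧
      Alb.wt (upG K g) (φ y) = amap σ (Alb.adj (φ x)) := sorry

end E1b

/-! E2 (64): the action of matrices over the quaternions. -/

section E2

variable {F : Type} [Field F] [NeZero (2 : F)] {a b : Fˣ} (hab : Aniso a b)

theorem nu_mul (g h : Matrix (Fin 3) (Fin 3) (Qt a b)) : nu (g * h) = nu g * nu h := sorry
theorem nu_diag (q : Fin 3 → Qt a b) : nu (Matrix.diagonal q) = nrd (q 0) * nrd (q 1) * nrd (q 2) :=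
  sorry
theorem nm_act {c : Fˣ} (g : (Matrix (Fin 3) (Fin 3) (Qt a b))ˣ) (κ : Qt a b)
    (h : nrd κ = nu (g : Matrix (Fin 3) (Fin 3) (Qt a b))) (x : Alb a b c) :
    Alb.cub (Alb.act g κ x) = nu (g : Matrix (Fin 3) (Fin 3) (Qt a b)) * Alb.cub x := sorry
theorem exists_kap (g : (Matrix (Fin 3) (Fin 3) (Qt a b))ˣ) :
    ∃ κ : Qt a b, nrd κ = nu (g : Matrix (Fin 3) (Fin 3) (Qt a b)) := sorry

end E2

section E2K

variable {k K : Type} [Field k] [NeZero (2 : k)] [Field K] [NeZero (2 : K)] [Algebra k K]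
  {σ : K ≃ₐ[k] K} {a b c : kˣ} {g g' : Fin 3 → kˣ}

/-- The matrices of the special unitary group act. -/
theorem exists_actU (hab : Aniso (up K a) (up K b))
    (m : (Matrix (Fin 3) (Fin 3) (Qt (up K a) (up K b)))ˣ)
    (hm : IsU σ g g (m : Matrix (Fin 3) (Fin 3) (Qt (up K a) (up K b))))
    (hn : nu (m : Matrix (Fin 3) (Fin 3) (Qt (up K a) (up K b))) = 1) :
    ∃ φ ∈ GE σ a b c g, ∀ x, φ x = Alb.act m 1 x := sorry

end E2K

/-! E2b (637): transfer of `BUnitaryThree`. -/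

theorem hasA_of_index {k K : Type} [Field k] [NumberField k] [Field K] [NumberField K] [Algebra k K]
    (h2 : Module.finrank k K = 2) {σ : K ≃ₐ[k] K} (hσ : σ ≠ 1) {a b c : kˣ} {g : Fin 3 → kˣ}
    (hdiv : Division (up K a) (up K b) (up K c))
    (hanis : ∀ x : AlbL K a b c, herm σ g x x = 0 → x = 0)
    (N : Subgroup (GE σ a b c g)) (hN : N.Normal) (hi : N.index ≠ 0) :
    HasA σ g (N.map (GE σ a b c g).subtype) := sorry

/-! E3 (493): the coordinates. -/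

section E3

variable {k K : Type} [Field k] [NeZero (2 : k)] [Field K] [NeZero (2 : K)] [Algebra k K]
  {σ : K ≃ₐ[k] K} {a b c a' b' c' : kˣ} {g g' : Fin 3 → kˣ}

theorem Reach.isCoord {ψ : AlbL K a' b' c' ≃ₗ[K] AlbL K a b c} (h : Reach σ g g' ψ)
    (hdiv : Division (up K a) (up K b) (up K c)) : IsCoord σ g g' ψ := sorry

theorem Reach.trans {a'' b'' c'' : kˣ} {g'' : Fin 3 → kˣ}
    {ψ : AlbL K a' b' c' ≃ₗ[K] AlbL K a b c} (h : Reach σ g g' ψ)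
    {ψ' : AlbL K a'' b'' c'' ≃ₗ[K] AlbL K a' b' c'} (h' : Reach σ g' g'' ψ') :
    Reach σ g g'' (ψ'.trans ψ) := sorry

theorem Reach.division {ψ : AlbL K a' b' c' ≃ₗ[K] AlbL K a b c} (h : Reach σ g g' ψ)
    (hdiv : Division (up K a) (up K b) (up K c)) :
    Division (up K a') (up K b') (up K c') := sorry

/-- Definiteness does not depend on the coordinates. -/
theorem Reach.dfn {ψ : AlbL K a' b' c' ≃ₗ[K] AlbL K a b c} (h : Reach σ g g' ψ) (φ : k →+* ℝ) :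
    Dfn φ a' b' c' ↔ Dfn φ a b c := sorry

theorem Reach.pos {ψ : AlbL K a' b' c' ≃ₗ[K] AlbL K a b c} (h : Reach σ g g' ψ) (φ : k →+* ℝ)
    (hd : Dfn φ a b c) (hg : ∀ i, 0 < φ (g i)) (i : Fin 3) : 0 < φ (g' i) := sorry

theorem IsCoord.isCay {ψ : AlbL K a' b' c' ≃ₗ[K] AlbL K a b c} (h : IsCoord σ g g' ψ)
    {δ z : K} {r : Alb a b c} {r' : Alb a' b' c'} (hr : ψ (aup K r') = aup K r)
    {x : AlbL K a' b' c'} (hx : IsCay δ z g r (ψ x)) : IsCay δ z g' r' x := sorry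

end E3

/-! E4 (369): tridiagonalisation. -/

theorem lanczos {k K : Type} [Field k] [CharZero k] [Field K] [CharZero K] [Algebra k K]
    {σ : K ≃ₐ[k] K} {a b c : kˣ} (hdiv : Division a b c)
    {g : Fin 3 → kˣ} (hanis : ∀ x : Alb a b c, Alb.tf (Alb.wt g x) x = 0 → x = 0) (r : Alb a b c) :
    ∃ (a' b' c' : kˣ) (g' : Fin 3 → kˣ) (ψ : AlbL K a' b' c' ≃ₗ[K] AlbL K a b c),
      Reach σ g g' ψ ∧ ψ Alb.e1 = Alb.e1 ∧ g' 0 = g 0 ∧
      (r.x2 = 0 → r.x3 = 0 → ψ Alb.e2 = Alb.e2 ∧ g' 1 = g 1) ∧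
      ∃ R : Matrix (Fin 3) (Fin 3) k, R.transpose = R ∧ ψ (aup K (Alb.ofF R)) = aup K r := sorry

/-! E5 (68): the Cayley transform. -/

section E5

variable {k K : Type} [Field k] [CharZero k] [Field K] [Algebra k K]
  {σ : K ≃ₐ[k] K} {a b c : kˣ} {g : Fin 3 → kˣ}

theorem exists_real (h2 : Module.finrank k K = 2) (hσ : σ ≠ 1) {δ : K} (hδ : σ δ = -δ) (hδ0 : δ ≠ 0)
    {φ : AlbL K a b c ≃ₗ[K] AlbL K a b c} (hφ : φ ∈ GE σ a b c g) :
    ∃ (z : K) (r : Alb a b c), z * σ z = 1 ∧ IsCay δ z g r (φ (Alb.one _ _ _ (upG K g))) := sorry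

end E5

/-! E6 (408): the matrix lemma. -/

theorem exists_m {k K : Type} [Field k] [NumberField k] [Field K] [NumberField K] [Algebra k K]
    (h2 : Module.finrank k K = 2) {σ : K ≃ₐ[k] K} (hσ : σ ≠ 1) {δ : K} (hδ : σ δ = -δ)
    (hδ0 : δ ≠ 0) {a b c : kˣ} {g : Fin 3 → kˣ}
    (hgood : ∀ φ : k →+* ℝ, φ a < 0 → φ b < 0 → Dfn φ a b c)
    (hg : ∀ w : K →+* ℝ, Dfn (w.comp (algebraMap k K)) a b c → ∀ i, 0 < w (algebraMap k K (g i)))
    (hanis : ∀ x : AlbL K a b c, herm σ g x x = 0 → x = 0)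
    {z : K} (hz : z * σ z = 1) {R : Matrix (Fin 3) (Fin 3) k} (hR : R.transpose = R)
    {x : AlbL K a b c} (hx : IsCay δ z g (Alb.ofF R) x)
    (hnm : Alb.cub x = Alb.cub (Alb.one (up K a) (up K b) (up K c) (upG K g)))
    (hpos : ∀ (w : K →+* ℝ), Dfn (w.comp (algebraMap k K)) a b c → ∀ X : Matrix (Fin 3) (Fin 3) K,
      X.transpose = X → x = Alb.ofF X → ∀ u : Fin 3 → K, 0 ≤ w (u ⬝ᵥ X *ᵥ u)) :
    ∃ m : (Matrix (Fin 3) (Fin 3) (Qt (up K a) (up K b)))ˣ,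
      IsU σ g g (m : Matrix (Fin 3) (Fin 3) (Qt (up K a) (up K b))) ∧
      nu (m : Matrix (Fin 3) (Fin 3) (Qt (up K a) (up K b))) = 1 ∧
      Alb.act m 1 (Alb.one _ _ _ (upG K g)) = x := sorry

/-! E7 (714): positivity. -/

theorem pos_of_orbit {F : Type} [Field F] {a b c : Fˣ} {g : Fin 3 → Fˣ}
    (w : F →+* ℝ) (hd : Dfn w a b c) (hg : ∀ i, 0 < w (g i))
    {φ : Alb a b c ≃ₗ[F] Alb a b c} (hφ : ∀ x, Alb.cub (φ x) = Alb.cub x)
    {X : Matrix (Fin 3) (Fin 3) F} (hX : X.transpose = X)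
    (h : φ (Alb.one _ _ _ g) = Alb.ofF X) (u : Fin 3 → F) : 0 ≤ w (u ⬝ᵥ X *ᵥ u) := sorry

theorem sign_of_orbit {F : Type} [Field F] {a b c : Fˣ}
    (w : F →+* ℝ) (hd : Dfn w a b c)
    {φ : Alb a b c ≃ₗ[F] Alb a b c} (hφ : ∀ x, Alb.cub (φ x) = Alb.cub x)
    {t : F} {u : Fin 3 → F} (h : φ Alb.e1 = Alb.ofF (t • vecMulVec u u)) : 0 < w t := sorry

/-! E11 (714): good quaternion subalgebras. -/

theorem exists_good {k : Type} [Field k] [NumberField k] {a b c : kˣ} (hdiv : Division a b c) :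
    ∃ (a' b' c' : kˣ) (i j l : Oct a b c), Trip a' b' c' i j l ∧
      ∀ φ : k →+* ℝ, φ a' < 0 → φ b' < 0 → Dfn φ a' b' c' := sorry

section main

variable {k K : Type} [Field k] [NumberField k] [Field K] [NumberField K] [Algebra k K]
  (h2 : Module.finrank k K = 2) {σ : K ≃ₐ[k] K} (hσ : σ ≠ 1) {a b c : kˣ} {g : Fin 3 → kˣ}
  (hdiv : Division (up K a) (up K b) (up K c))
  (hanis : ∀ x : AlbL K a b c, herm σ g x x = 0 → x = 0)
  (hpos : ∀ w : K →+* ℝ, Dfn (w.comp (algebraMap k K)) a b c → ∀ i, 0 < w (algebraMap k K (g i)))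
  (N : Subgroup (AlbL K a b c ≃ₗ[K] AlbL K a b c)) (hNle : N ≤ GE σ a b c g)
  (hN : ∀ φ ∈ GE σ a b c g, ∀ n ∈ N, φ * n * φ⁻¹ ∈ N) (hA : HasA σ g N)

include h2 hσ hdiv hanis hpos hNle hA hN

/-- (A) (69 / 659) -/
theorem fix_one {φ : AlbL K a b c ≃ₗ[K] AlbL K a b c} (hφ : φ ∈ GE σ a b c g) :
    ∃ n ∈ N, (n * φ) (Alb.one _ _ _ (upG K g)) = Alb.one _ _ _ (upG K g) := sorry

/-- E8 (63, 547) -/
theorem fix_e {φ : AlbL K a b c ≃ₗ[K] AlbL K a b c} (hφ : φ ∈ GE σ a b c g)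
    (h1 : φ (Alb.one _ _ _ (upG K g)) = Alb.one _ _ _ (upG K g)) :
    ∃ n ∈ N, (n * φ) (Alb.one _ _ _ (upG K g)) = Alb.one _ _ _ (upG K g) ∧
      (n * φ) Alb.e1 = Alb.e1 ∧ (n * φ) Alb.e2 = Alb.e2 := sorry

/-- E9 (342) -/
theorem mem_of_fix {φ : AlbL K a b c ≃ₗ[K] AlbL K a b c} (hφ : φ ∈ GE σ a b c g)
    (h0 : φ (Alb.one _ _ _ (upG K g)) = Alb.one _ _ _ (upG K g))
    (h1 : φ Alb.e1 = Alb.e1) (h2 : φ Alb.e2 = Alb.e2) : φ ∈ N := sorry

/-- E10 -/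
theorem core : N = GE σ a b c g := sorry

end main

/-- E10: the first target. -/
theorem e6_index {k K : Type} [Field k] [NumberField k] [Field K] [NumberField K] [Algebra k K]
    (h2 : Module.finrank k K = 2) {σ : K ≃ₐ[k] K} (hσ : σ ≠ 1) {a b c : kˣ} {g : Fin 3 → kˣ}
    (hdiv : Division (up K a) (up K b) (up K c))
    (hanis : ∀ x : AlbL K a b c, herm σ g x x = 0 → x = 0)
    (hpos : ∀ w : K →+* ℝ, Dfn (w.comp (algebraMap k K)) a b c → ∀ i, 0 < w (algebraMap k K (g i)))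
    (N : Subgroup (GE σ a b c g)) (hi : N.index ≠ 0) : N = ⊤ := sorry

/-- E12 (691, 62): arbitrary noncentral normal subgroups. -/
theorem hasA_of_noncentral {k K : Type} [Field k] [NumberField k] [Field K] [NumberField K]
    [Algebra k K]
    (h2 : Module.finrank k K = 2) {σ : K ≃ₐ[k] K} (hσ : σ ≠ 1) {a b c : kˣ} {g : Fin 3 → kˣ}
    (hdiv : Division (up K a) (up K b) (up K c))
    (hanis : ∀ x : AlbL K a b c, herm σ g x x = 0 → x = 0)
    (N : Subgroup (GE σ a b c g)) [N.Normal] (hN : ¬ N ≤ Subgroup.center (GE σ a b c g)) :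
    HasA σ g (N.map (GE σ a b c g).subtype) := sorry

end Vale.Agent.P011.E6.Spec
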