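import Vale.Agent.P011.E6.HitF
import Vale.Agent.P011.E6.H637.Index

/-!
Matrices over the ground field in the special unitary groups over the quaternions, and the centre
of these groups.
-/

open Matrix

namespace Vale.Agent.P011.E6

open Vale.Agent.P011.MPQ Vale.Agent.P011.D4 Vale.Agent.P011.D4.Oct Alb

section kmat

variable {F : Type} [Field F] {a b c : Fˣ}

/-- The matrices over the field, as matrices over the quaternions. -/
def kq (a b : Fˣ) : (Matrix (Fin 3) (Fin 3) F)ˣ →* (Matrix (Fin 3) (Fin 3) (Qt a b))ˣ :=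
  Units.map ((algebraMap F (Qt a b)).mapMatrix (m := Fin 3)).toMonoidHom

theorem kq_val (V : (Matrix (Fin 3) (Fin 3) F)ˣ) :
    (kq a b V : Matrix (Fin 3) (Fin 3) (Qt a b)) =
      (V : Matrix (Fin 3) (Fin 3) F).map (algebraMap F (Qt a b)) := rfl

theorem star_alg (t : F) : star (algebraMap F (Qt a b) t) = algebraMap F (Qt a b) t := by
  ext <;> simp

theorem nu_map (M : Matrix (Fin 3) (Fin 3) F) :
    nu (M.map (algebraMap F (Qt a b))) = M.det ^ 2 := by
  have h1 : (M.map (algebraMap F (Qt a b))).conjTranspose =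
      M.transpose.map (algebraMap F (Qt a b)) := by
    apply Matrix.ext
    intro i j
    exact star_alg _
  have h2 : M.det ^ 2 = (M * M.transpose).det := by
    rw [det_mul, det_transpose, sq]
  have h3 : (M * M.transpose).transpose = M * M.transpose := by
    rw [transpose_mul, transpose_transpose]
  rw [nu, h1, ← Matrix.map_mul, h2]
  generalize M * M.transpose = S at h3
  have e1 : S 1 0 = S 0 1 := congrFun (congrFun h3 0) 1
  have e2 : S 2 0 = S 0 2 := congrFun (congrFun h3 0) 2
  have e3 : S 2 1 = S 1 2 := congrFun (congrFun h3 1) 2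
  rw [det_fin_three, e1, e2, e3]
  simp [cub, ofMV, Oct.norm, nrd, bil_eq, e2]
  ring

/-- The matrix acting on the first two coordinates. -/
def v01 (α β γ δ : F) (h : α * δ - β * γ = 1) : (Matrix (Fin 3) (Fin 3) F)ˣ where
  val := !![α, β, 0; γ, δ, 0; 0, 0, 1]
  inv := !![δ, -β, 0; -γ, α, 0; 0, 0, 1]
  val_inv := by
    apply Matrix.ext
    intro i j
    fin_cases i <;> fin_cases j <;> simp [Matrix.mul_apply, Fin.sum_univ_three] <;>
      first | ring1 | linear_combination h
  inv_val := by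
    apply Matrix.ext
    intro i j
    fin_cases i <;> fin_cases j <;> simp [Matrix.mul_apply, Fin.sum_univ_three] <;>
      first | ring1 | linear_combination h

/-- The matrix acting on the last two coordinates. -/
def v12 (α β γ δ : F) (h : α * δ - β * γ = 1) : (Matrix (Fin 3) (Fin 3) F)ˣ where
  val := !![1, 0, 0; 0, α, β; 0, γ, δ]
  inv := !![1, 0, 0; 0, δ, -β; 0, -γ, α]
  val_inv := by
    apply Matrix.ext
    intro i j
    fin_cases i <;> fin_cases j <;> simp [Matrix.mul_apply, Fin.sum_univ_three] <;>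
      first | ring1 | linear_combination h
  inv_val := by
    apply Matrix.ext
    intro i j
    fin_cases i <;> fin_cases j <;> simp [Matrix.mul_apply, Fin.sum_univ_three] <;>
      first | ring1 | linear_combination h

end kmat

section unit

variable {k K : Type} [Field k] [Field K] [Algebra k K] {σ : K ≃ₐ[k] K} {a b c : kˣ}
  {g : Fin 3 → kˣ}

theorem isU_kq {V : (Matrix (Fin 3) (Fin 3) K)ˣ}
    (hσ : (V : Matrix (Fin 3) (Fin 3) K).map σ = V)
    (h : (V : Matrix (Fin 3) (Fin 3) K).transpose * diagonal (fun i => ((upG K g i : Kˣ) : K)) *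
      (V : Matrix (Fin 3) (Fin 3) K) = diagonal fun i => ((upG K g i : Kˣ) : K)) :
    IsU σ g g ((kq (up K a) (up K b) V : (Matrix (Fin 3) (Fin 3) (Qt (up K a) (up K b)))ˣ) :
      Matrix (Fin 3) (Fin 3) (Qt (up K a) (up K b))) := by
  have h1 : (((V : Matrix (Fin 3) (Fin 3) K).map
      (algebraMap K (Qt (up K a) (up K b)))).map (qmap σ)).conjTranspose =
      (V : Matrix (Fin 3) (Fin 3) K).transpose.map (algebraMap K (Qt (up K a) (up K b))) := by
    conv_rhs => rw [← hσ]
    apply Matrix.ext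
    intro i j
    have h2 : qmap σ (algebraMap K (Qt (up K a) (up K b)) ((V : Matrix (Fin 3) (Fin 3) K) j i)) =
      algebraMap K _ (σ ((V : Matrix (Fin 3) (Fin 3) K) j i)) := H64.qmap_coe σ _
    exact (congrArg star h2).trans (star_alg _)
  have h2 : dg (up K a) (up K b) (upG K g) =
      (diagonal fun i => ((upG K g i : Kˣ) : K)).map (algebraMap K (Qt (up K a) (up K b))) := by
    rw [dg, diagonal_map (map_zero _)]
  rw [IsU, kq_val, h1, h2, ← Matrix.map_mul, ← Matrix.map_mul, h]

theorem exists_rot [CharZero k] (r : k) :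
    ∃ α γ : k, α ^ 2 + r * γ ^ 2 = 1 ∧ γ ≠ 0 := by
  obtain ⟨t, ht, ht0⟩ : ∃ t : k, 1 + r * t ^ 2 ≠ 0 ∧ t ≠ 0 := by
    by_cases h : 1 + r = 0
    · refine ⟨2, ?_, two_ne_zero⟩
      intro h1
      have h2 : (3 : k) = 0 := by linear_combination 4 * h - h1
      exact three_ne_zero h2
    · exact ⟨1, by rwa [one_pow, mul_one], one_ne_zero⟩
  refine ⟨(1 - r * t ^ 2) / (1 + r * t ^ 2), 2 * t / (1 + r * t ^ 2), ?_, ?_⟩
  · field_simp
    ring
  · exact div_ne_zero (mul_ne_zero two_ne_zero ht0) ht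

/-- A rotation in the plane of the first two coordinates. -/
theorem exists_v01 [CharZero k] (σ : K ≃ₐ[k] K) (g : Fin 3 → kˣ) :
    ∃ (α β γ δ : K) (h : α * δ - β * γ = 1), γ ≠ 0 ∧
      ∀ a b : kˣ, IsU σ g g ((kq (up K a) (up K b) (v01 _ _ _ _ h) :
        (Matrix (Fin 3) (Fin 3) (Qt (up K a) (up K b)))ˣ) :
        Matrix (Fin 3) (Fin 3) (Qt (up K a) (up K b))) := by
  obtain ⟨α, γ, h1, hγ⟩ := exists_rot ((g 1 : k) * (g 0 : k)⁻¹)
  have h0 : algebraMap k K (g 0 : k) ≠ 0 := by
    rw [map_ne_zero]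
    exact Units.ne_zero _
  have h2 := congrArg (algebraMap k K) h1
  rw [map_add, map_mul, map_mul, map_pow, map_pow, map_inv₀, map_one] at h2
  have e0 : ((upG K g 0 : Kˣ) : K) = algebraMap k K (g 0 : k) := rfl
  have e1 : ((upG K g 1 : Kˣ) : K) = algebraMap k K (g 1 : k) := rfl
  refine ⟨algebraMap k K α, -(algebraMap k K (g 1 : k) * (algebraMap k K (g 0 : k))⁻¹) *
    algebraMap k K γ, algebraMap k K γ, algebraMap k K α, by linear_combination h2,
    by rwa [Ne, map_eq_zero], fun a b => ?_⟩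
  apply isU_kq
  · apply Matrix.ext
    intro i j
    fin_cases i <;> fin_cases j <;> simp [v01]
  · generalize algebraMap k K α = α' at *
    generalize algebraMap k K γ = γ' at *
    apply Matrix.ext
    intro i j
    fin_cases i <;> fin_cases j <;>
      simp [v01, Matrix.mul_apply, Fin.sum_univ_three, e0, e1] <;> field_simp at h2 ⊢ <;>
      first | ring1 | linear_combination h2

/-- A rotation in the plane of the last two coordinates. -/
theorem exists_v12 [CharZero k] (σ : K ≃ₐ[k] K) (g : Fin 3 → kˣ) :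
    ∃ (α β γ δ : K) (h : α * δ - β * γ = 1), γ ≠ 0 ∧
      ∀ a b : kˣ, IsU σ g g ((kq (up K a) (up K b) (v12 _ _ _ _ h) :
        (Matrix (Fin 3) (Fin 3) (Qt (up K a) (up K b)))ˣ) :
        Matrix (Fin 3) (Fin 3) (Qt (up K a) (up K b))) := by
  obtain ⟨α, γ, h1, hγ⟩ := exists_rot ((g 2 : k) * (g 1 : k)⁻¹)
  have h0 : algebraMap k K (g 1 : k) ≠ 0 := by
    rw [map_ne_zero]
    exact Units.ne_zero _
  have h2 := congrArg (algebraMap k K) h1
  rw [map_add, map_mul, map_mul, map_pow, map_pow, map_inv₀, map_one] at h2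
  have e0 : ((upG K g 1 : Kˣ) : K) = algebraMap k K (g 1 : k) := rfl
  have e1 : ((upG K g 2 : Kˣ) : K) = algebraMap k K (g 2 : k) := rfl
  refine ⟨algebraMap k K α, -(algebraMap k K (g 2 : k) * (algebraMap k K (g 1 : k))⁻¹) *
    algebraMap k K γ, algebraMap k K γ, algebraMap k K α, by linear_combination h2,
    by rwa [Ne, map_eq_zero], fun a b => ?_⟩
  apply isU_kq
  · apply Matrix.ext
    intro i j
    fin_cases i <;> fin_cases j <;> simp [v12]
  · generalize algebraMap k K α = α' at *
    generalize algebraMap k K γ = γ' at *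
    apply Matrix.ext
    intro i j
    fin_cases i <;> fin_cases j <;>
      simp [v12, Matrix.mul_apply, Fin.sum_univ_three, e0, e1] <;> field_simp at h2 ⊢ <;>
      first | ring1 | linear_combination h2

/-- An element that commutes with the elements of norm one is a scalar. -/
theorem scal_of_comm [NeZero (2 : k)] [NeZero (2 : K)] (hab : Aniso a b)
    {y : Qt (up K a) (up K b)}
    (hy : ∀ q : Qt a b, nrd q = 1 → y * qup K q = qup K q * y) :
    y = algebraMap K (Qt (up K a) (up K b)) y.re := by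
  have h2 : (2 : k) ≠ 0 := NeZero.ne 2
  have h2' : (2 : K) ≠ 0 := NeZero.ne 2
  have ha : (1 : k) - a ≠ 0 := by
    intro h
    have h1 := hab ⟨1, 1, 0, 0⟩ (by simp only [nrd]; linear_combination h)
    exact one_ne_zero (congrArg QuaternionAlgebra.re h1)
  have hb : (1 : k) - b ≠ 0 := by
    intro h
    have h1 := hab ⟨1, 0, 1, 0⟩ (by simp only [nrd]; linear_combination h)
    exact one_ne_zero (congrArg QuaternionAlgebra.re h1)
  have hi := hy ⟨(1 + a) / (1 - a), 2 / (1 - a), 0, 0⟩ (by
    simp only [nrd]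
    field_simp
    ring)
  have hj := hy ⟨(1 + b) / (1 - b), 0, 2 / (1 - b), 0⟩ (by
    simp only [nrd]
    field_simp
    ring)
  have hs : algebraMap k K (2 / (1 - (a : k))) ≠ 0 := by
    rw [map_ne_zero]
    exact div_ne_zero h2 ha
  have ht : algebraMap k K (2 / (1 - (b : k))) ≠ 0 := by
    rw [map_ne_zero]
    exact div_ne_zero h2 hb
  have i1 := congrArg QuaternionAlgebra.imK hi
  have i2 := congrArg QuaternionAlgebra.imJ hi
  have j1 := congrArg QuaternionAlgebra.imK hj
  simp only [QuaternionAlgebra.imK_mul, QuaternionAlgebra.imJ_mul, re_qup, imI_qup, imJ_qup,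
    imK_qup, map_zero, mul_zero, zero_mul, add_zero, sub_zero, zero_sub, zero_add] at i1 i2 j1
  have ea : ((up K a : Kˣ) : K) ≠ 0 := Units.ne_zero _
  have y2 : y.imJ = 0 := by
    apply (mul_eq_zero.1 (_ : (2 * algebraMap k K (2 / (1 - (a : k)))) * y.imJ = 0)).resolve_left
      (mul_ne_zero h2' hs)
    linear_combination -i1
  have y3 : y.imK = 0 := by
    apply (mul_eq_zero.1 (_ : (2 * algebraMap k K (2 / (1 - (a : k))) * (up K a : Kˣ)) * y.imK
      = 0)).resolve_left (mul_ne_zero (mul_ne_zero h2' hs) ea)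
    linear_combination -i2
  have y1 : y.imI = 0 := by
    apply (mul_eq_zero.1 (_ : (2 * algebraMap k K (2 / (1 - (b : k)))) * y.imI = 0)).resolve_left
      (mul_ne_zero h2' ht)
    linear_combination j1
  exact QuaternionAlgebra.ext rfl y1 y2 y3

theorem nu_kq {F : Type} [Field F] {a b : Fˣ} {V : (Matrix (Fin 3) (Fin 3) F)ˣ}
    (hV : (V : Matrix (Fin 3) (Fin 3) F).det = 1) :
    nu ((kq a b V : (Matrix (Fin 3) (Fin 3) (Qt a b))ˣ) : Matrix (Fin 3) (Fin 3) (Qt a b)) = 1 := by
  rw [kq_val, nu_map, hV, one_pow]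

theorem det_v01 {F : Type} [Field F] {α β γ δ : F} (h : α * δ - β * γ = 1) :
    (v01 α β γ δ h : Matrix (Fin 3) (Fin 3) F).det = 1 := by
  rw [det_fin_three]
  simp [v01]
  linear_combination h

theorem det_v12 {F : Type} [Field F] {α β γ δ : F} (h : α * δ - β * γ = 1) :
    (v12 α β γ δ h : Matrix (Fin 3) (Fin 3) F).det = 1 := by
  rw [det_fin_three]
  simp [v12]
  linear_combination h

/-- The matrices that commute with the special unitary group are the scalars. -/
theorem scal_of_center [CharZero k] [CharZero K] (hab : Aniso (up K a) (up K b))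
    {M : Matrix (Fin 3) (Fin 3) (Qt (up K a) (up K b))}
    (hM : ∀ w : (Matrix (Fin 3) (Fin 3) (Qt (up K a) (up K b)))ˣ,
      IsU σ g g (w : Matrix (Fin 3) (Fin 3) (Qt (up K a) (up K b))) →
      nu (w : Matrix (Fin 3) (Fin 3) (Qt (up K a) (up K b))) = 1 →
      M * (w : Matrix (Fin 3) (Fin 3) (Qt (up K a) (up K b))) = w * M) :
    ∃ t : K, M = t • 1 := by
  have h2 : (2 : K) ≠ 0 := two_ne_zero
  have habk : Aniso a b := by
    intro x hx
    apply Alb.qup_injective (K := K)
    rw [qup_zero]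
    apply hab
    rw [nrd_qup, hx, map_zero]
  have n1 : nrd (1 : Qt (up K a) (up K b)) = 1 := by simp [nrd]
  have nm1 : nrd (-1 : Qt (up K a) (up K b)) = 1 := by simp [nrd]
  have r1 : qmap σ (1 : Qt (up K a) (up K b)) = 1 := qmap_one σ
  have rm1 : qmap σ (-1 : Qt (up K a) (up K b)) = -1 := by rw [qmap_neg, qmap_one]
  have hdd : ∀ {p q : Qt (up K a) (up K b)} (hp : nrd p = 1) (hq : nrd q = 1)
      (_ : qmap σ p = p) (_ : qmap σ q = q) (i j : Fin 3),
      M i j * (![p, q, 1] : Fin 3 → Qt (up K a) (up K b)) j =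
        (![p, q, 1] : Fin 3 → Qt (up K a) (up K b)) i * M i j := by
    intro p q hp hq hp' hq' i j
    have h := hM (dd p q hp hq) (isU_dd hp hq hp' hq') (nu_dd hp hq)
    have h1 := congrFun (congrFun h i) j
    change (M * diagonal ![p, q, 1]) i j = (diagonal ![p, q, 1] * M) i j at h1
    rwa [mul_diagonal, diagonal_mul] at h1
  have hz : ∀ {x : Qt (up K a) (up K b)}, x = -x → x = 0 := by
    intro x hx
    have h3 : (2 : K) • x = 0 := by
      rw [two_smul]
      nth_rewrite 2 [hx]
      rw [add_neg_cancel]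
    exact (smul_eq_zero.1 h3).resolve_left h2
  have h01 : M 0 1 = 0 := hz (by
    have h := hdd nm1 n1 rm1 r1 0 1
    change M 0 1 * 1 = -1 * M 0 1 at h
    rwa [mul_one, neg_one_mul] at h)
  have h02 : M 0 2 = 0 := hz (by
    have h := hdd nm1 n1 rm1 r1 0 2
    change M 0 2 * 1 = -1 * M 0 2 at h
    rwa [mul_one, neg_one_mul] at h)
  have h10 : M 1 0 = 0 := hz (by
    have h := hdd nm1 n1 rm1 r1 1 0
    change M 1 0 * -1 = 1 * M 1 0 at h
    rw [mul_neg_one, one_mul] at h
    exact h.symm)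
  have h20 : M 2 0 = 0 := hz (by
    have h := hdd nm1 n1 rm1 r1 2 0
    change M 2 0 * -1 = 1 * M 2 0 at h
    rw [mul_neg_one, one_mul] at h
    exact h.symm)
  have h12 : M 1 2 = 0 := hz (by
    have h := hdd n1 nm1 r1 rm1 1 2
    change M 1 2 * 1 = -1 * M 1 2 at h
    rwa [mul_one, neg_one_mul] at h)
  have h21 : M 2 1 = 0 := hz (by
    have h := hdd n1 nm1 r1 rm1 2 1
    change M 2 1 * -1 = 1 * M 2 1 at h
    rw [mul_neg_one, one_mul] at h
    exact h.symm)
  have h00 : M 0 0 = algebraMap K (Qt (up K a) (up K b)) (M 0 0).re := by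
    apply scal_of_comm habk
    intro q hq
    exact hdd (p := qup K q) (by rw [nrd_qup, hq, map_one]) n1 (qmap_qup σ q) r1 0 0
  have h11 : M 1 1 = M 0 0 := by
    obtain ⟨α, β, γ, δ, h, hγ, hU⟩ := exists_v01 σ g
    have h3 := congrFun (congrFun (hM _ (hU a b) (nu_kq (det_v01 h))) 1) 0
    rw [Matrix.mul_apply, Matrix.mul_apply, Fin.sum_univ_three, Fin.sum_univ_three, h10, h12,
      h20] at h3
    change 0 * _ + M 1 1 * algebraMap K _ γ + 0 * _ = algebraMap K _ γ * M 0 0 + _ * 0 + _ * 0 at h3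
    simp only [zero_mul, mul_zero, add_zero, zero_add] at h3
    rw [← Algebra.commutes, ← Algebra.smul_def, ← Algebra.smul_def] at h3
    exact smul_right_injective _ hγ h3
  have h22 : M 2 2 = M 1 1 := by
    obtain ⟨α, β, γ, δ, h, hγ, hU⟩ := exists_v12 σ g
    have h3 := congrFun (congrFun (hM _ (hU a b) (nu_kq (det_v12 h))) 2) 1
    rw [Matrix.mul_apply, Matrix.mul_apply, Fin.sum_univ_three, Fin.sum_univ_three, h21, h20,
      h01] at h3
    change 0 * _ + 0 * _ + M 2 2 * algebraMap K _ γ = _ * 0 + algebraMap K _ γ * M 1 1 + _ * 0 at h3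
    simp only [zero_mul, mul_zero, add_zero, zero_add] at h3
    rw [← Algebra.commutes, ← Algebra.smul_def, ← Algebra.smul_def] at h3
    exact smul_right_injective _ hγ h3
  refine ⟨(M 0 0).re, ?_⟩
  have he : ∀ t : K, t • (1 : Qt (up K a) (up K b)) = algebraMap K _ t := fun t => by
    rw [Algebra.smul_def, mul_one]
  apply Matrix.ext
  intro i j
  rw [Matrix.smul_apply]
  fin_cases i <;> fin_cases j
  · change M 0 0 = (M 0 0).re • (1 : Qt (up K a) (up K b))
    rw [he, ← h00]
  · exact h01.trans (smul_zero _).symm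
  · exact h02.trans (smul_zero _).symm
  · exact h10.trans (smul_zero _).symm
  · change M 1 1 = (M 0 0).re • (1 : Qt (up K a) (up K b))
    rw [he, ← h00, h11]
  · exact h12.trans (smul_zero _).symm
  · exact h20.trans (smul_zero _).symm
  · exact h21.trans (smul_zero _).symm
  · change M 2 2 = (M 0 0).re • (1 : Qt (up K a) (up K b))
    rw [he, ← h00, h22, h11]

end unit

end Vale.Agent.P011.E6
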