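import Vale.Agent.P011.E6.Tw
import Vale.Agent.P011.E6.Five
import Vale.Agent.P011.E6.HFin

/-!
The final theorems without a condition on the weights at the real places.
-/

open NumberField

namespace Vale.Agent.P011.E6

open Vale.Agent.P011.MPQ Vale.Agent.P011.D4 Vale.Agent.P011.D4.Oct

section fin

variable {k K : Type} [Field k] [NumberField k] [Field K] [NumberField K] [Algebra k K]
  (h2 : Module.finrank k K = 2) {σ : K ≃ₐ[k] K} (hσ : σ ≠ 1) {a b c : kˣ} {g : Fin 3 → kˣ}
  (hdiv : Division (up K a) (up K b) (up K c))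
  (hanis : ∀ x : AlbL K a b c, herm σ g x x = 0 → x = 0)

include h2 hσ hdiv hanis

/-- **Subgroups of finite index**, all weights. -/
theorem e6_index' (N : Subgroup (GE σ a b c g)) (hi : N.index ≠ 0) : N = ⊤ := by
  obtain ⟨δ, hδ, hδ0⟩ := exists_delta_tw h2 hσ
  obtain ⟨t, g', ht, hp⟩ := exists_tw (sigma_sigma h2 hσ) (Five.exists_fix h2 hδ hδ0) hδ hδ0 g
  exact index_of_equiv (twistE t ht) (fun M hM => e6_index h2 hσ hdiv (anis_twist t ht hanis)
    (fun w _ i => hp w i) M hM) N hi

/-- **Normal subgroups**, all weights. -/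
theorem e6_normal' (N : Subgroup (GE σ a b c g)) (hN : N.Normal) :
    N ≤ Subgroup.center (GE σ a b c g) ∨ N = ⊤ := by
  obtain ⟨δ, hδ, hδ0⟩ := exists_delta_tw h2 hσ
  obtain ⟨t, g', ht, hp⟩ := exists_tw (sigma_sigma h2 hσ) (Five.exists_fix h2 hδ hδ0) hδ hδ0 g
  exact normal_of_equiv (twistE t ht) (fun M _ => e6_normal h2 hσ hdiv (anis_twist t ht hanis)
    (fun w _ i => hp w i) M) N hN

/-- The equivalence of the two descriptions of the group. -/
noncomputable def gpE : GE σ a b c g ≃* GP σ a b c g :=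
  MulEquiv.ofBijective toGP ⟨toGP_injective, toGP_surjective⟩

/-- **Groups of type `²E₆`**, final form, all weights. -/
theorem gp_main' (N : Subgroup (GP σ a b c g)) :
    (N.index ≠ 0 → N = ⊤) ∧ (N.Normal → N ≤ Subgroup.center (GP σ a b c g) ∨ N = ⊤) :=
  ⟨index_of_equiv gpE.symm (e6_index' h2 hσ hdiv hanis) N,
    normal_of_equiv gpE.symm (e6_normal' h2 hσ hdiv hanis) N⟩

end fin

end Vale.Agent.P011.E6
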