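import Vale.Agent.P011.E6.Herm

/-!
Change of the weights by norms of the quadratic extension.
-/

namespace Vale.Agent.P011.E6

open Vale.Agent.P011.MPQ Vale.Agent.P011.D4 Vale.Agent.P011.D4.Oct Alb

section twist

variable {k K : Type} [Field k] [Field K] [Algebra k K] {σ : K ≃ₐ[k] K} {a b c : kˣ}
  {g g' : Fin 3 → kˣ}

/-- The hermitian forms of two systems of weights which differ by norms. -/
theorem herm_twist (t : Fin 3 → Kˣ)
    (h : ∀ i, algebraMap k K (g' i) = algebraMap k K (g i) * ((t i : K) * σ (t i)))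
    (x y : AlbL K a b c) : herm σ g (wt t x) (wt t y) = herm σ g' x y := by
  simp only [herm, tf, wt, amap, upG, val_up, h, omap_smul, map_mul, map_pow, bil_smul_left,
    bil_smul_right]
  ring

theorem anis_twist (t : Fin 3 → Kˣ)
    (h : ∀ i, algebraMap k K (g' i) = algebraMap k K (g i) * ((t i : K) * σ (t i)))
    (ha : ∀ x : AlbL K a b c, herm σ g x x = 0 → x = 0) (x : AlbL K a b c)
    (hx : herm σ g' x x = 0) : x = 0 := by
  have h1 : wt t x = 0 := ha _ (by rw [herm_twist t h, hx])
  apply wt_injective t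
  rw [h1, wt_zero]

/-- The groups of two systems of weights which differ by norms are isomorphic. -/
def twistE (t : Fin 3 → Kˣ)
    (h : ∀ i, algebraMap k K (g' i) = algebraMap k K (g i) * ((t i : K) * σ (t i))) :
    GE σ a b c g ≃* GE σ a b c g' where
  toFun φ := ⟨((wtE t).trans φ.1).trans (wtE t).symm, by
    constructor
    · intro x
      have h1 := cub_wt t ((wtE t).symm (φ.1 (wtE t x)))
      have h2 : wt t ((wtE t).symm (φ.1 (wtE t x))) = φ.1 (wtE t x) :=
        (wtE t).apply_symm_apply _
      rw [h2, φ.2.1, wtE_apply, cub_wt] at h1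
      exact (mul_left_cancel₀ (pow_ne_zero 2 (gam_ne t)) h1).symm
    · intro x y
      have h2 : ∀ z : AlbL K a b c, wt t ((wtE t).symm z) = z := fun z =>
        (wtE t).apply_symm_apply z
      rw [← herm_twist t h, ← herm_twist t h]
      change herm σ g (wt t ((wtE t).symm (φ.1 (wt t x)))) (wt t ((wtE t).symm (φ.1 (wt t y)))) = _
      rw [h2, h2, φ.2.2]⟩
  invFun φ := ⟨((wtE t).symm.trans φ.1).trans (wtE t), by
    constructor
    · intro x
      have h2 : wt t ((wtE t).symm x) = x := (wtE t).apply_symm_apply _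
      change cub (wt t (φ.1 ((wtE t).symm x))) = cub x
      rw [cub_wt, φ.2.1, ← cub_wt, h2]
    · intro x y
      have h2 : ∀ z : AlbL K a b c, wt t ((wtE t).symm z) = z := fun z =>
        (wtE t).apply_symm_apply z
      change herm σ g (wt t (φ.1 ((wtE t).symm x))) (wt t (φ.1 ((wtE t).symm y))) = _
      rw [herm_twist t h, φ.2.2, ← herm_twist t h, h2, h2]⟩
  left_inv φ := by
    apply Subtype.ext
    apply LinearEquiv.ext
    intro x
    change wtE t ((wtE t).symm (φ.1 (wtE t ((wtE t).symm x)))) = φ.1 x
    rw [LinearEquiv.apply_symm_apply, LinearEquiv.apply_symm_apply]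
  right_inv φ := by
    apply Subtype.ext
    apply LinearEquiv.ext
    intro x
    change (wtE t).symm (wtE t (φ.1 ((wtE t).symm (wtE t x)))) = φ.1 x
    rw [LinearEquiv.symm_apply_apply, LinearEquiv.symm_apply_apply]
  map_mul' φ ψ := by
    apply Subtype.ext
    apply LinearEquiv.ext
    intro x
    change (wtE t).symm (φ.1 (ψ.1 (wtE t x))) =
      (wtE t).symm (φ.1 (wtE t ((wtE t).symm (ψ.1 (wtE t x)))))
    rw [LinearEquiv.apply_symm_apply]

end twist

section transport

variable {G H : Type} [Group G] [Group H]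

theorem normal_of_equiv (e : G ≃* H)
    (h : ∀ N : Subgroup H, N.Normal → N ≤ Subgroup.center H ∨ N = ⊤)
    (N : Subgroup G) (hN : N.Normal) : N ≤ Subgroup.center G ∨ N = ⊤ := by
  rcases h (N.comap e.symm.toMonoidHom) (hN.comap _) with h1 | h1
  · left
    intro n hn
    rw [Subgroup.mem_center_iff]
    intro x
    have h2 : e n ∈ Subgroup.center H := by
      apply h1
      change e.symm (e n) ∈ N
      rwa [e.symm_apply_apply]
    rw [Subgroup.mem_center_iff] at h2
    apply e.injective
    rw [map_mul, map_mul]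
    exact h2 _
  · right
    rw [eq_top_iff]
    intro n _
    have h2 : e n ∈ N.comap e.symm.toMonoidHom := by rw [h1]; exact Subgroup.mem_top _
    have h3 : e.symm (e n) ∈ N := h2
    rwa [e.symm_apply_apply] at h3

theorem index_of_equiv (e : G ≃* H) (h : ∀ N : Subgroup H, N.index ≠ 0 → N = ⊤)
    (N : Subgroup G) (hN : N.index ≠ 0) : N = ⊤ := by
  have h1 : N.comap e.symm.toMonoidHom = ⊤ := by
    apply h
    rw [Subgroup.index_comap_of_surjective N e.symm.surjective]
    exact hN
  rw [eq_top_iff]
  intro n _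
  have h2 : e n ∈ N.comap e.symm.toMonoidHom := by rw [h1]; exact Subgroup.mem_top _
  have h3 : e.symm (e n) ∈ N := h2
  rwa [e.symm_apply_apply] at h3

end transport

end Vale.Agent.P011.E6
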